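import Mathlib

/-!
# Multisets of tagged integers
-/

namespace Vale.Agent.P302.Tags

/-- the fine parts of the items with tag `a` -/
def fine {n : ℕ} (a : Fin n) (M : Multiset (Fin n × ℤ)) : Multiset ℤ :=
  (M.filter (fun i => i.1 = a)).map (fun i => i.2)

/-- number of items with tag `a` -/
def num {n : ℕ} (a : Fin n) (M : Multiset (Fin n × ℤ)) : ℕ := (fine a M).card

variable {n : ℕ}

@[simp] theorem fine_zero (a : Fin n) : fine a 0 = 0 := by simp [fine]

@[simp] theorem num_zero (a : Fin n) : num a 0 = 0 := by simp [num]

theorem fine_add (a : Fin n) (M N : Multiset (Fin n × ℤ)) :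
    fine a (M + N) = fine a M + fine a N := by
  simp [fine, Multiset.filter_add]

theorem num_add (a : Fin n) (M N : Multiset (Fin n × ℤ)) : num a (M + N) = num a M + num a N := by
  simp [num, fine_add]

theorem fine_cons (a : Fin n) (i : Fin n × ℤ) (M : Multiset (Fin n × ℤ)) :
    fine a (i ::ₘ M) = (if i.1 = a then {i.2} else 0) + fine a M := by
  unfold fine
  by_cases h : i.1 = a
  · rw [Multiset.filter_cons_of_pos (p := fun i : Fin n × ℤ => i.1 = a) M h, Multiset.map_cons,
      if_pos h, Multiset.singleton_add]
  · rw [Multiset.filter_cons_of_neg (p := fun i : Fin n × ℤ => i.1 = a) M h, if_neg h, zero_add]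

theorem num_cons (a : Fin n) (i : Fin n × ℤ) (M : Multiset (Fin n × ℤ)) :
    num a (i ::ₘ M) = (if i.1 = a then 1 else 0) + num a M := by
  unfold num
  rw [fine_cons, Multiset.card_add]
  split_ifs <;> simp

theorem sum_by_tag (g : Fin n → ℤ) (M : Multiset (Fin n × ℤ)) :
    (M.map (fun i => g i.1)).sum = ∑ a, g a * (num a M : ℤ) := by
  induction M using Multiset.induction with
  | empty => simp
  | cons i M ih =>
    rw [Multiset.map_cons, Multiset.sum_cons, ih]
    have : ∀ a, (num a (i ::ₘ M) : ℤ) = (if i.1 = a then 1 else 0) + num a M := by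
      intro a
      rw [num_cons]
      push_cast
      split_ifs <;> rfl
    simp_rw [this, mul_add, Finset.sum_add_distrib]
    congr 1
    simp

theorem sum_fine_by_tag (M : Multiset (Fin n × ℤ)) :
    (M.map (fun i => i.2)).sum = ∑ a, (fine a M).sum := by
  induction M using Multiset.induction with
  | empty => simp
  | cons i M ih =>
    rw [Multiset.map_cons, Multiset.sum_cons, ih]
    have : ∀ a, (fine a (i ::ₘ M)).sum = (if i.1 = a then i.2 else 0) + (fine a M).sum := by
      intro a
      rw [fine_cons, Multiset.sum_add]
      split_ifs <;> simp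
    simp_rw [this, Finset.sum_add_distrib]
    congr 1
    simp

theorem card_by_tag (M : Multiset (Fin n × ℤ)) : M.card = ∑ a, num a M := by
  induction M using Multiset.induction with
  | empty => simp
  | cons i M ih =>
    rw [Multiset.card_cons, ih]
    simp_rw [num_cons, Finset.sum_add_distrib]
    simp [add_comm]

theorem mem_fine {a : Fin n} {M : Multiset (Fin n × ℤ)} {z : ℤ} : z ∈ fine a M ↔ (a, z) ∈ M := by
  unfold fine
  simp only [Multiset.mem_map, Multiset.mem_filter, Prod.exists]
  constructor
  · rintro ⟨b, w, ⟨h, rfl⟩, rfl⟩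
    exact h
  · intro h
    exact ⟨a, z, ⟨h, rfl⟩, rfl⟩

/-- the items with tag `a` and the given fine parts -/
def tag (a : Fin n) (X : Multiset ℤ) : Multiset (Fin n × ℤ) := X.map (fun x => (a, x))

theorem fine_tag (a b : Fin n) (X : Multiset ℤ) : fine a (tag b X) = if a = b then X else 0 := by
  unfold tag
  induction X using Multiset.induction with
  | empty => simp
  | cons x X ih =>
    rw [Multiset.map_cons, fine_cons, ih]
    by_cases h : a = b
    · subst h
      simp
    · rw [if_neg h, if_neg (fun h' : b = a => h h'.symm), if_neg h, add_zero]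

theorem tag_add (a : Fin n) (X Y : Multiset ℤ) : tag a (X + Y) = tag a X + tag a Y := by
  simp [tag]

theorem tag_nsmul (a : Fin n) (k : ℕ) (X : Multiset ℤ) : tag a (k • X) = k • tag a X := by
  simp [tag, Multiset.map_nsmul]

theorem tag_replicate (a : Fin n) (k : ℕ) (x : ℤ) :
    tag a (Multiset.replicate k x) = Multiset.replicate k (a, x) := by
  simp [tag]

theorem mem_tag {a : Fin n} {X : Multiset ℤ} {i : Fin n × ℤ} :
    i ∈ tag a X ↔ i.1 = a ∧ i.2 ∈ X := by
  unfold tag
  simp only [Multiset.mem_map]
  constructor
  · rintro ⟨x, hx, rfl⟩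
    exact ⟨rfl, hx⟩
  · rintro ⟨rfl, h⟩
    exact ⟨i.2, h, rfl⟩

/-- from a multiset with `U ≤ X + E…E` and no `E` in `U` get `U ≤ X` -/
theorem le_of_le_add_replicate {U X : Multiset ℤ} {k : ℕ} {E : ℤ}
    (h : U ≤ X + Multiset.replicate k E) (hE : E ∉ U) : U ≤ X := by
  rw [Multiset.le_iff_count] at h ⊢
  intro z
  by_cases hz : z = E
  · subst hz
    rw [Multiset.count_eq_zero_of_notMem hE]
    exact Nat.zero_le _
  · have := h z
    rwa [Multiset.count_add, Multiset.count_replicate, if_neg (fun h => hz h.symm), add_zero] at this

/-! ### joins of multisets of patterns -/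

theorem join_map_add {α β : Type*} (S : Multiset α) (f g : α → Multiset β) :
    (S.map (fun t => f t + g t)).join = (S.map f).join + (S.map g).join := by
  induction S using Multiset.induction with
  | empty => simp
  | cons a S ih =>
    simp only [Multiset.map_cons, Multiset.join_cons, ih]
    abel

theorem join_map_single {α β : Type*} (S : Multiset α) (f : α → β) :
    (S.map (fun t => ({f t} : Multiset β))).join = S.map f := by
  induction S using Multiset.induction with
  | empty => simp
  | cons a S ih => simp only [Multiset.map_cons, Multiset.join_cons, ih, Multiset.singleton_add]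

theorem join_map_const {α β : Type*} (S : Multiset α) (k : ℕ) (x : β) :
    (S.map (fun _ => Multiset.replicate k x)).join = Multiset.replicate (k * S.card) x := by
  induction S using Multiset.induction with
  | empty => simp
  | cons a S ih =>
    simp only [Multiset.map_cons, Multiset.join_cons, ih, Multiset.card_cons]
    rw [← Multiset.replicate_add]
    congr 1
    ring

theorem join_replicate {β : Type*} (m : ℕ) (p : Multiset β) :
    (Multiset.replicate m p).join = m • p := by
  induction m with
  | zero => simp
  | succ m ih => rw [Multiset.replicate_succ, Multiset.join_cons, ih, succ_nsmul, add_comm]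

theorem nsmul_replicate' {β : Type*} (m k : ℕ) (x : β) :
    m • Multiset.replicate k x = Multiset.replicate (m * k) x := by
  rw [← Multiset.nsmul_replicate]

theorem exists_bound (X : Multiset ℤ) : ∃ Φ : ℕ, ∀ x ∈ X, -(Φ : ℤ) ≤ x ∧ x ≤ Φ := by
  induction X using Multiset.induction with
  | empty => exact ⟨0, by simp⟩
  | cons a X ih =>
    obtain ⟨Φ, h⟩ := ih
    refine ⟨Φ + a.natAbs, fun x hx => ?_⟩
    rcases Multiset.mem_cons.1 hx with rfl | hx
    · omega
    · have := h x hx
      omega

end Vale.Agent.P302.Tags
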