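import Vale.Agent.P302.H794.UProb
import Vale.Agent.P302.H794.Tags

/-!
# The recursion for the `(x, x'; y)` problem
-/

namespace Vale.Agent.P302

open Tags

/-- tagged version of `UPack` -/
def TPack {α β : Type*} (v : α → ℤ) (u : β → ℤ) (M : Multiset α) (N : Multiset β)
    (S : Multiset (α × α × β)) : Prop :=
  (∀ t ∈ S, v t.1 + v t.2.1 + u t.2.2 ≤ 0) ∧
    S.map (fun t => t.1) + S.map (fun t => t.2.1) ≤ M ∧ S.map (fun t => t.2.2) ≤ N

theorem TPack.push {α β : Type*} {v : α → ℤ} {u : β → ℤ} {M : Multiset α} {N : Multiset β}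
    {S : Multiset (α × α × β)} (h : TPack v u M N S) :
    UPack (M.map v) (N.map u) (S.map (fun t => (v t.1, v t.2.1, u t.2.2))) := by
  obtain ⟨h1, h2, h3⟩ := h
  refine ⟨?_, ?_, ?_⟩
  · intro t ht
    obtain ⟨s, hs, rfl⟩ := Multiset.mem_map.1 ht
    exact h1 s hs
  · have := Multiset.map_le_map (f := v) h2
    rw [Multiset.map_add, Multiset.map_map, Multiset.map_map] at this
    rw [Multiset.map_map, Multiset.map_map]
    exact this
  · have := Multiset.map_le_map (f := u) h3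
    rw [Multiset.map_map] at this
    rw [Multiset.map_map]
    exact this

theorem lift_aux {α β : Type*} (v : α → ℤ) (u : β → ℤ) (S : Multiset (ℤ × ℤ × ℤ)) :
    ∀ (M : Multiset α) (N : Multiset β), UPack (M.map v) (N.map u) S →
    ∃ S' : Multiset (α × α × β), TPack v u M N S' ∧ S'.card = S.card := by
  induction S using Multiset.induction with
  | empty =>
    intro M N _
    exact ⟨0, ⟨by simp, by simp, by simp⟩, by simp⟩
  | cons t S ih =>
    intro M N h
    obtain ⟨h1, h2, h3⟩ := h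
    rw [Multiset.map_cons, Multiset.map_cons, Multiset.cons_add, Multiset.add_cons] at h2
    rw [Multiset.map_cons] at h3
    have m1 : t.1 ∈ M.map v := Multiset.mem_of_le h2 (by simp)
    obtain ⟨a, ha, hav⟩ := Multiset.mem_map.1 m1
    obtain ⟨M1, rfl⟩ := Multiset.exists_cons_of_mem ha
    rw [Multiset.map_cons, hav, Multiset.cons_le_cons_iff] at h2
    have m2 : t.2.1 ∈ M1.map v := Multiset.mem_of_le h2 (by simp)
    obtain ⟨b, hb, hbv⟩ := Multiset.mem_map.1 m2
    obtain ⟨M2, rfl⟩ := Multiset.exists_cons_of_mem hb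
    rw [Multiset.map_cons, hbv, Multiset.cons_le_cons_iff] at h2
    have m3 : t.2.2 ∈ N.map u := Multiset.mem_of_le h3 (by simp)
    obtain ⟨c, hc, hcv⟩ := Multiset.mem_map.1 m3
    obtain ⟨N1, rfl⟩ := Multiset.exists_cons_of_mem hc
    rw [Multiset.map_cons, hcv, Multiset.cons_le_cons_iff] at h3
    obtain ⟨S', ⟨g1, g2, g3⟩, g4⟩ := ih M2 N1 ⟨fun s hs => h1 s (by simp [hs]), h2, h3⟩
    refine ⟨(a, b, c) ::ₘ S', ⟨?_, ?_, ?_⟩, ?_⟩
    · intro s hs
      rcases Multiset.mem_cons.1 hs with rfl | hs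
      · simp only [hav, hbv, hcv]
        exact h1 t (by simp)
      · exact g1 s hs
    · rw [Multiset.map_cons, Multiset.map_cons, Multiset.cons_add, Multiset.add_cons]
      exact Multiset.cons_le_cons _ (Multiset.cons_le_cons _ g2)
    · rw [Multiset.map_cons]
      exact Multiset.cons_le_cons _ g3
    · rw [Multiset.card_cons, Multiset.card_cons, g4]

/-- price of a multiset is monotone -/
theorem sum_map_mono {α : Type*} {M N : Multiset α} (g : α → ℕ) (h : M ≤ N) :
    (M.map g).sum ≤ (N.map g).sum := by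
  obtain ⟨U, rfl⟩ := Multiset.le_iff_exists_add.1 h
  rw [Multiset.map_add, Multiset.sum_add]
  exact Nat.le_add_right _ _

theorem fine_map_ge {n : ℕ} {τ : Type*} (a : Fin n) (S : Multiset τ) (f : τ → Fin n × ℤ)
    (p : τ → Prop) [DecidablePred p] (hp : ∀ t, p t → (f t).1 = a) :
    (S.filter p).map (fun t => (f t).2) ≤ fine a (S.map f) := by
  unfold fine
  rw [Multiset.filter_map, Multiset.map_map]
  refine Multiset.map_le_map ?_
  refine Multiset.monotone_filter_right S ?_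
  intro t ht
  exact hp t ht

/-- the triples of `S` all whose items have the given tags, reduced to their fine parts, form a
`UPack` of the fine problem -/
theorem exact_upack {n m : ℕ} {v : Fin n × ℤ → ℤ} {u : Fin m × ℤ → ℤ} {M : Multiset (Fin n × ℤ)}
    {N : Multiset (Fin m × ℤ)} {S : Multiset ((Fin n × ℤ) × (Fin n × ℤ) × (Fin m × ℤ))}
    (h : TPack v u M N S) (a : Fin n) (b : Fin m) {X Y : Multiset ℤ} {k l : ℕ} {Φ : ℕ}
    (hM : ∀ i ∈ M, -(Φ : ℤ) ≤ i.2) (hN : ∀ i ∈ N, -(Φ : ℤ) ≤ i.2)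
    (hX : fine a M = X + Multiset.replicate k (2 * (Φ : ℤ) + 1))
    (hY : fine b N = Y + Multiset.replicate l (2 * (Φ : ℤ) + 1))
    (hv : ∀ x x' y, v (a, x) + v (a, x') + u (b, y) = x + x' + y) :
    UPack X Y ((S.filter (fun t => t.1.1 = a ∧ t.2.1.1 = a ∧ t.2.2.1 = b)).map
      (fun t => (t.1.2, t.2.1.2, t.2.2.2))) := by
  obtain ⟨h1, h2, h3⟩ := h
  have key : ∀ t ∈ S.filter (fun t => t.1.1 = a ∧ t.2.1.1 = a ∧ t.2.2.1 = b),
      t.1.2 + t.2.1.2 + t.2.2.2 ≤ 0 ∧ -(Φ : ℤ) ≤ t.1.2 ∧ -(Φ : ℤ) ≤ t.2.1.2 ∧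
        -(Φ : ℤ) ≤ t.2.2.2 := by
    intro t ht
    rw [Multiset.mem_filter] at ht
    obtain ⟨ht, e1, e2, e3⟩ := ht
    have := h1 t ht
    have r1 : t.1 = (a, t.1.2) := by rw [← e1]
    have r2 : t.2.1 = (a, t.2.1.2) := by rw [← e2]
    have r3 : t.2.2 = (b, t.2.2.2) := by rw [← e3]
    rw [r1, r2, r3, hv] at this
    refine ⟨this, ?_, ?_, ?_⟩
    · refine hM _ (Multiset.mem_of_le h2 ?_)
      exact Multiset.mem_add.2 (Or.inl (Multiset.mem_map_of_mem (fun t => t.1) ht))
    · refine hM _ (Multiset.mem_of_le h2 ?_)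
      exact Multiset.mem_add.2 (Or.inr (Multiset.mem_map_of_mem (fun t => t.2.1) ht))
    · refine hN _ (Multiset.mem_of_le h3 ?_)
      exact Multiset.mem_map_of_mem (fun t => t.2.2) ht
  refine ⟨?_, ?_, ?_⟩
  · intro s hs
    obtain ⟨t, ht, rfl⟩ := Multiset.mem_map.1 hs
    exact (key t ht).1
  · rw [Multiset.map_map, Multiset.map_map]
    refine le_of_le_add_replicate (k := k) (E := 2 * (Φ : ℤ) + 1) ?_ ?_
    · rw [← hX]
      have e1 := fine_map_ge a S (fun t => t.1) (fun t => t.1.1 = a ∧ t.2.1.1 = a ∧ t.2.2.1 = b)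
        (fun t ht => ht.1)
      have e2 := fine_map_ge a S (fun t => t.2.1) (fun t => t.1.1 = a ∧ t.2.1.1 = a ∧ t.2.2.1 = b)
        (fun t ht => ht.2.1)
      have e3 : fine a (S.map (fun t => t.1) + S.map (fun t => t.2.1)) ≤ fine a M := by
        unfold fine
        exact Multiset.map_le_map (Multiset.filter_le_filter _ h2)
      rw [fine_add] at e3
      exact (add_le_add e1 e2).trans e3
    · intro hE
      simp only [Multiset.mem_add, Multiset.mem_map, Function.comp_apply] at hE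
      rcases hE with ⟨t, ht, he⟩ | ⟨t, ht, he⟩
      · have := key t ht; omega
      · have := key t ht; omega
  · rw [Multiset.map_map]
    refine le_of_le_add_replicate (k := l) (E := 2 * (Φ : ℤ) + 1) ?_ ?_
    · rw [← hY]
      have e1 := fine_map_ge b S (fun t => t.2.2) (fun t => t.1.1 = a ∧ t.2.1.1 = a ∧ t.2.2.1 = b)
        (fun t ht => ht.2.2)
      have e3 : fine b (S.map (fun t => t.2.2)) ≤ fine b N := by
        unfold fine
        exact Multiset.map_le_map (Multiset.filter_le_filter _ h3)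
      exact e1.trans e3
    · intro hE
      simp only [Multiset.mem_map, Function.comp_apply] at hE
      obtain ⟨t, ht, he⟩ := hE
      have := key t ht; omega

/-- counting exact triples -/
theorem count_exact {τ : Type*} (S : Multiset τ) (g : τ → ℕ) (p r : τ → Prop) [DecidablePred p]
    [DecidablePred r] (c : ℕ) (h : ∀ t ∈ S, c ≤ g t ∨ (p t ∧ c ≤ g t + 1) ∨ (r t ∧ c ≤ g t + 1)) :
    c * S.card ≤ (S.map g).sum + (S.filter p).card + (S.filter r).card := by
  induction S using Multiset.induction with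
  | empty => simp
  | cons t S ih =>
    have h1 := ih (fun s hs => h s (by simp [hs]))
    have h2 := h t (by simp)
    have e1 : (Multiset.filter p (t ::ₘ S)).card = (if p t then 1 else 0) + (S.filter p).card := by
      by_cases hp : p t
      · rw [Multiset.filter_cons_of_pos _ hp, Multiset.card_cons, if_pos hp, add_comm]
      · rw [Multiset.filter_cons_of_neg _ hp, if_neg hp, zero_add]
    have e2 : (Multiset.filter r (t ::ₘ S)).card = (if r t then 1 else 0) + (S.filter r).card := by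
      by_cases hp : r t
      · rw [Multiset.filter_cons_of_pos _ hp, Multiset.card_cons, if_pos hp, add_comm]
      · rw [Multiset.filter_cons_of_neg _ hp, if_neg hp, zero_add]
    rw [e1, e2, Multiset.card_cons, Multiset.map_cons, Multiset.sum_cons, Nat.mul_add, Nat.mul_one]
    rcases h2 with h2 | ⟨hp, h2⟩ | ⟨hp, h2⟩
    · split_ifs <;> omega
    · rw [if_pos hp]; split_ifs <;> omega
    · rw [if_pos hp]; split_ifs <;> omega

namespace URec

def macX : Fin 4 → ℤ := ![-9, 59, -49, 34]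
def macY : Fin 3 → ℤ := ![18, -10, -68]
def prX : Fin 4 → ℕ := ![1, 0, 2, 0]
def prY : Fin 3 → ℕ := ![0, 1, 2]

theorem macro_le : ∀ (a b : Fin 4) (c : Fin 3), macX a + macX b + macY c ≤ 0 →
    3 ≤ prX a + prX b + prY c ∨ (a = 0 ∧ b = 0 ∧ c = 0) ∨ (a = 3 ∧ b = 3 ∧ c = 2) := by
  decide

def vX (B : ℤ) (i : Fin 4 × ℤ) : ℤ := macX i.1 * B + i.2
def vY (B : ℤ) (i : Fin 3 × ℤ) : ℤ := macY i.1 * B + i.2

def MX (X : Multiset ℤ) (E : ℤ) (β n59 n49 : ℕ) : Multiset (Fin 4 × ℤ) :=
  tag 0 X + Multiset.replicate β (0, E) + Multiset.replicate n59 (1, 0) +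
    Multiset.replicate n49 (2, 0) + tag 3 X

def MY (Y : Multiset ℤ) (E : ℤ) (n18 n10 : ℕ) : Multiset (Fin 3 × ℤ) :=
  tag 0 Y + Multiset.replicate n18 (0, E) + Multiset.replicate n10 (1, 0) + tag 2 Y

theorem fine_rep {n : ℕ} (a b : Fin n) (k : ℕ) (E : ℤ) :
    fine a (Multiset.replicate k (b, E)) = if a = b then Multiset.replicate k E else 0 := by
  have := fine_tag a b (Multiset.replicate k E)
  rwa [tag_replicate] at this

theorem fine_MX (X : Multiset ℤ) (E : ℤ) (β n59 n49 : ℕ) :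
    fine 0 (MX X E β n59 n49) = X + Multiset.replicate β E ∧
    fine 3 (MX X E β n59 n49) = X + Multiset.replicate 0 E := by
  unfold MX
  simp only [fine_add, fine_tag, fine_rep]
  constructor <;> simp

theorem fine_MY (Y : Multiset ℤ) (E : ℤ) (n18 n10 : ℕ) :
    fine 0 (MY Y E n18 n10) = Y + Multiset.replicate n18 E ∧
    fine 2 (MY Y E n18 n10) = Y + Multiset.replicate 0 E := by
  unfold MY
  simp only [fine_add, fine_tag, fine_rep]
  constructor <;> simp

theorem price_MX (X : Multiset ℤ) (E : ℤ) (β n59 n49 : ℕ) :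
    ((MX X E β n59 n49).map (fun i => prX i.1)).sum = X.card + β + 2 * n49 := by
  unfold MX tag
  simp only [Multiset.map_add, Multiset.sum_add, Multiset.map_map, Multiset.map_replicate,
    Multiset.sum_replicate, Function.comp_def]
  simp [prX]
  ring

theorem price_MY (Y : Multiset ℤ) (E : ℤ) (n18 n10 : ℕ) :
    ((MY Y E n18 n10).map (fun i => prY i.1)).sum = n10 + 2 * Y.card := by
  unfold MY tag
  simp only [Multiset.map_add, Multiset.sum_add, Multiset.map_map, Multiset.map_replicate,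
    Multiset.sum_replicate, Function.comp_def]
  simp [prY]
  ring

theorem mem_MX {X : Multiset ℤ} {E : ℤ} {β n59 n49 : ℕ} {i : Fin 4 × ℤ}
    (h : i ∈ MX X E β n59 n49) : i.2 ∈ X ∨ i.2 = E ∨ i.2 = 0 := by
  unfold MX at h
  simp only [Multiset.mem_add, mem_tag, Multiset.mem_replicate] at h
  rcases h with (((h | h) | h) | h) | h
  · exact Or.inl h.2
  · rw [h.2]; simp
  · rw [h.2]; simp
  · rw [h.2]; simp
  · exact Or.inl h.2

theorem mem_MY {Y : Multiset ℤ} {E : ℤ} {n18 n10 : ℕ} {i : Fin 3 × ℤ}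
    (h : i ∈ MY Y E n18 n10) : i.2 ∈ Y ∨ i.2 = E ∨ i.2 = 0 := by
  unfold MY at h
  simp only [Multiset.mem_add, mem_tag, Multiset.mem_replicate] at h
  rcases h with ((h | h) | h) | h
  · exact Or.inl h.2
  · rw [h.2]; simp
  · rw [h.2]; simp
  · exact Or.inl h.2

/-- the integral bound -/
theorem bound {X Y : Multiset ℤ} {T Φ : ℕ} (hX : ∀ x ∈ X, -(Φ : ℤ) ≤ x ∧ x ≤ Φ)
    (hY : ∀ y ∈ Y, -(Φ : ℤ) ≤ y ∧ y ≤ Φ)
    (hT : ∀ S, UPack X Y S → S.card ≤ T) (β n59 n49 n18 n10 : ℕ) {B : ℤ} (hB : 3 * (Φ : ℤ) < B)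
    (S : Multiset (ℤ × ℤ × ℤ))
    (hS : UPack ((MX X (2 * Φ + 1) β n59 n49).map (vX B)) ((MY Y (2 * Φ + 1) n18 n10).map (vY B)) S) :
    3 * S.card ≤ X.card + β + 2 * n49 + n10 + 2 * Y.card + 2 * T := by
  obtain ⟨S', hS', hc⟩ := lift_aux _ _ S _ _ hS
  rw [← hc]
  have hM : ∀ i ∈ MX X (2 * Φ + 1) β n59 n49, -(Φ : ℤ) ≤ i.2 := by
    intro i hi
    rcases mem_MX hi with h | h | h
    · exact (hX _ h).1
    · omega
    · omega
  have hN : ∀ i ∈ MY Y (2 * Φ + 1) n18 n10, -(Φ : ℤ) ≤ i.2 := by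
    intro i hi
    rcases mem_MY hi with h | h | h
    · exact (hY _ h).1
    · omega
    · omega
  have e1 := hT _ (exact_upack hS' 0 0 hM hN (fine_MX X _ β n59 n49).1 (fine_MY Y _ n18 n10).1
    (by intro x x' y; simp only [vX, vY, macX, macY]; simp; ring))
  have e2 := hT _ (exact_upack hS' 3 2 hM hN (fine_MX X _ β n59 n49).2 (fine_MY Y _ n18 n10).2
    (by intro x x' y; simp only [vX, vY, macX, macY]; simp; ring))
  rw [Multiset.card_map] at e1 e2
  have hpr := count_exact S' (fun t => prX t.1.1 + prX t.2.1.1 + prY t.2.2.1)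
    (fun t => t.1.1 = 0 ∧ t.2.1.1 = 0 ∧ t.2.2.1 = 0) (fun t => t.1.1 = 3 ∧ t.2.1.1 = 3 ∧ t.2.2.1 = 2)
    3 (by
      intro t ht
      obtain ⟨h1, h2, h3⟩ := hS'
      have hle := h1 t ht
      have m1 := hM t.1 (Multiset.mem_of_le h2
        (Multiset.mem_add.2 (Or.inl (Multiset.mem_map_of_mem (fun t => t.1) ht))))
      have m2 := hM t.2.1 (Multiset.mem_of_le h2
        (Multiset.mem_add.2 (Or.inr (Multiset.mem_map_of_mem (fun t => t.2.1) ht))))
      have m3 := hN t.2.2 (Multiset.mem_of_le h3 (Multiset.mem_map_of_mem (fun t => t.2.2) ht))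
      have hmac : macX t.1.1 + macX t.2.1.1 + macY t.2.2.1 ≤ 0 := by
        by_contra hcon
        have h4 : 1 ≤ macX t.1.1 + macX t.2.1.1 + macY t.2.2.1 := by omega
        unfold vX vY at hle
        nlinarith
      rcases macro_le _ _ _ hmac with h | h | h
      · exact Or.inl h
      · right; left
        refine ⟨h, ?_⟩
        rw [h.1, h.2.1, h.2.2]
        decide
      · right; right
        refine ⟨h, ?_⟩
        rw [h.1, h.2.1, h.2.2]
        decide)
  obtain ⟨_, h2, h3⟩ := hS'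
  have p1 := sum_map_mono (fun i => prX i.1) h2
  have p2 := sum_map_mono (fun i => prY i.1) h3
  rw [price_MX] at p1
  rw [price_MY] at p2
  rw [Multiset.map_add, Multiset.sum_add, Multiset.map_map, Multiset.map_map] at p1
  rw [Multiset.map_map] at p2
  have p3 : (S'.map (fun t => prX t.1.1 + prX t.2.1.1 + prY t.2.2.1)).sum =
      (S'.map ((fun i : Fin 4 × ℤ => prX i.1) ∘ fun t => t.1)).sum +
      (S'.map ((fun i : Fin 4 × ℤ => prX i.1) ∘ fun t => t.2.1)).sum +
      (S'.map ((fun i : Fin 3 × ℤ => prY i.1) ∘ fun t => t.2.2)).sum := by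
    rw [Multiset.sum_map_add, Multiset.sum_map_add]
    rfl
  omega

/-- the fractional solution of the node -/
def WW (W : Multiset (ℤ × ℤ × ℤ)) (RX RY : Multiset ℤ) (E : ℤ) (m1 m2 m3 : ℕ) :
    Multiset ((Fin 4 × ℤ) × (Fin 4 × ℤ) × (Fin 3 × ℤ)) :=
  W.map (fun t => ((0, t.1), (0, t.2.1), (0, t.2.2))) +
  W.map (fun t => ((3, t.1), (3, t.2.1), (2, t.2.2))) +
  RX.map (fun r => ((0, r), (0, E), (1, 0))) +
  RY.map (fun r => ((0, E), (1, 0), (2, r))) +
  Multiset.replicate m1 ((0, E), (0, E), (1, 0)) +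
  Multiset.replicate m2 ((2, 0), (1, 0), (1, 0)) +
  Multiset.replicate m3 ((0, E), (2, 0), (0, E))

theorem card_WW (W : Multiset (ℤ × ℤ × ℤ)) (RX RY : Multiset ℤ) (E : ℤ) (m1 m2 m3 : ℕ) :
    (WW W RX RY E m1 m2 m3).card = 2 * W.card + RX.card + RY.card + m1 + m2 + m3 := by
  unfold WW
  simp only [Multiset.card_add, Multiset.card_map, Multiset.card_replicate]
  ring

theorem WW_items (W : Multiset (ℤ × ℤ × ℤ)) (RX RY : Multiset ℤ) (E : ℤ) (m1 m2 m3 : ℕ) :
    (WW W RX RY E m1 m2 m3).map (fun t => t.1) + (WW W RX RY E m1 m2 m3).map (fun t => t.2.1) =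
    tag 0 ((W.map (fun t => t.1) + W.map (fun t => t.2.1)) + RX) +
    Multiset.replicate (RX.card + RY.card + 2 * m1 + m3) (0, E) +
    Multiset.replicate (RY.card + m2) (1, 0) + Multiset.replicate (m2 + m3) (2, 0) +
    tag 3 (W.map (fun t => t.1) + W.map (fun t => t.2.1)) := by
  unfold WW tag
  simp only [Multiset.map_add, Multiset.map_map, Function.comp_def, Multiset.map_replicate,
    Multiset.map_const', two_mul, Multiset.replicate_add]
  abel

theorem WW_thd (W : Multiset (ℤ × ℤ × ℤ)) (RX RY : Multiset ℤ) (E : ℤ) (m1 m2 m3 : ℕ) :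
    (WW W RX RY E m1 m2 m3).map (fun t => t.2.2) =
    tag 0 (W.map (fun t => t.2.2)) + Multiset.replicate m3 (0, E) +
    Multiset.replicate (RX.card + m1 + m2) (1, 0) + tag 2 (W.map (fun t => t.2.2) + RY) := by
  unfold WW tag
  simp only [Multiset.map_add, Multiset.map_map, Function.comp_def, Multiset.map_replicate,
    Multiset.map_const', Multiset.replicate_add]
  abel

theorem MX_nsmul (X : Multiset ℤ) (E : ℤ) (β n59 n49 q : ℕ) :
    q • MX X E β n59 n49 = tag 0 (q • X) + Multiset.replicate (q * β) (0, E) +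
    Multiset.replicate (q * n59) (1, 0) + Multiset.replicate (q * n49) (2, 0) + tag 3 (q • X) := by
  unfold MX
  simp only [nsmul_add, tag_nsmul, nsmul_replicate']

theorem MY_nsmul (Y : Multiset ℤ) (E : ℤ) (n18 n10 q : ℕ) :
    q • MY Y E n18 n10 = tag 0 (q • Y) + Multiset.replicate (q * n18) (0, E) +
    Multiset.replicate (q * n10) (1, 0) + tag 2 (q • Y) := by
  unfold MY
  simp only [nsmul_add, tag_nsmul, nsmul_replicate']

theorem rep_le {α : Type*} {a b : ℕ} (h : a ≤ b) (x : α) :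
    Multiset.replicate a x ≤ Multiset.replicate b x :=
  Multiset.replicate_le_replicate x |>.2 h

theorem tag_le {n : ℕ} (a : Fin n) {X Y : Multiset ℤ} (h : X ≤ Y) : tag a X ≤ tag a Y :=
  Multiset.map_le_map h

/-- **the recursion step** -/
theorem step {T : ℕ} {V : ℚ} (h : UDef T V) :
    ∃ (T' : ℕ) (V' : ℚ), UDef T' V' ∧ V' - T' = (2 * (V - T) + 2) / 3 := by
  obtain ⟨X, Y, q, W, hq, hT, hW, hV⟩ := h
  obtain ⟨Φ₁, hΦ₁⟩ := exists_bound X
  obtain ⟨Φ₂, hΦ₂⟩ := exists_bound Y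
  set Φ := Φ₁ + Φ₂ with hΦ
  have hX : ∀ x ∈ X, -(Φ : ℤ) ≤ x ∧ x ≤ Φ := fun x hx => by have := hΦ₁ x hx; omega
  have hY : ∀ y ∈ Y, -(Φ : ℤ) ≤ y ∧ y ≤ Φ := fun y hy => by have := hΦ₂ y hy; omega
  obtain ⟨hW1, hW2, hW3⟩ := hW
  obtain ⟨RX, hRX⟩ := Multiset.le_iff_exists_add.1 hW2
  obtain ⟨RY, hRY⟩ := Multiset.le_iff_exists_add.1 hW3
  -- scale by three
  have hRX3 : (3 * q) • X = ((3 • W).map (fun t => t.1) + (3 • W).map (fun t => t.2.1)) + 3 • RX := by
    rw [mul_comm 3 q, mul_nsmul, hRX]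
    simp only [nsmul_add, Multiset.map_nsmul]
  have hRY3 : (3 * q) • Y = (3 • W).map (fun t => t.2.2) + 3 • RY := by
    rw [mul_comm 3 q, mul_nsmul, hRY]
    simp only [nsmul_add, Multiset.map_nsmul]
  have cX : q * X.card = 2 * W.card + RX.card := by
    have := congrArg Multiset.card hRX
    simp only [Multiset.card_nsmul, Multiset.card_add, Multiset.card_map] at this
    omega
  have cY : q * Y.card = W.card + RY.card := by
    have := congrArg Multiset.card hRY
    simp only [Multiset.card_nsmul, Multiset.card_add, Multiset.card_map] at this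
    omega
  obtain ⟨κ, hκ⟩ : ∃ κ, κ = T + 2 + 3 * W.card := ⟨_, rfl⟩
  have hqκ : W.card ≤ q * κ := by
    have : 1 * κ ≤ q * κ := Nat.mul_le_mul_right κ hq
    omega
  obtain ⟨m3, hm3⟩ : ∃ m3, q * κ = W.card + m3 := ⟨q * κ - W.card, by omega⟩
  set E : ℤ := 2 * (Φ : ℤ) + 1 with hE
  set B : ℤ := 3 * (Φ : ℤ) + 1 with hB
  have hΦ0 : (0 : ℤ) ≤ Φ := by positivity
  refine ⟨T + W.card + (X.card + κ) + Y.card,
    (X.card : ℚ) + Y.card + (4 * κ + 2 * V) / 3, ⟨?X', ?Y', 3 * q, ?W', by omega, ?_, ?_, ?_⟩, ?_⟩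
  case X' => exact (MX X E (κ + X.card + Y.card) (Y.card + κ) κ).map (vX B)
  case Y' => exact (MY Y E κ (X.card + κ)).map (vY B)
  case W' => exact Multiset.map (fun t => (vX B t.1, vX B t.2.1, vY B t.2.2))
              (WW (3 • W) (3 • RX) (3 • RY) E (q * κ + 5 * W.card) (2 * (q * κ) + W.card) m3)
  · intro S hS
    have := bound hX hY hT (κ + X.card + Y.card) (Y.card + κ) κ κ (X.card + κ) (B := B) (by omega) S hS
    omega
  · rw [← Multiset.map_nsmul, ← Multiset.map_nsmul]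
    apply TPack.push
    refine ⟨?_, ?_, ?_⟩
    · intro t ht
      unfold WW at ht
      simp only [Multiset.mem_add, Multiset.mem_map, Multiset.mem_replicate] at ht
      have bX : ∀ r ∈ 3 • RX, r ≤ (Φ : ℤ) := by
        intro r hr
        have h1 : r ∈ (3 * q) • X := by rw [hRX3]; exact Multiset.mem_add.2 (Or.inr hr)
        exact (hX r (Multiset.mem_of_mem_nsmul h1)).2
      have bY : ∀ r ∈ 3 • RY, r ≤ (Φ : ℤ) := by
        intro r hr
        have h1 : r ∈ (3 * q) • Y := by rw [hRY3]; exact Multiset.mem_add.2 (Or.inr hr)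
        exact (hY r (Multiset.mem_of_mem_nsmul h1)).2
      have bW : ∀ t ∈ 3 • W, t.1 + t.2.1 + t.2.2 ≤ 0 := fun t ht => hW1 t (Multiset.mem_of_mem_nsmul ht)
      rcases ht with (((((⟨s, hs, rfl⟩ | ⟨s, hs, rfl⟩) | ⟨r, hr, rfl⟩) | ⟨r, hr, rfl⟩) | ht) | ht) | ht
      · have := bW s hs
        simp [vX, vY, macX, macY]; linarith
      · have := bW s hs
        simp [vX, vY, macX, macY]; linarith
      · have := bX r hr
        simp [vX, vY, macX, macY]; linarith
      · have := bY r hr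
        simp [vX, vY, macX, macY]; linarith
      · rw [ht.2]
        simp [vX, vY, macX, macY]; linarith
      · rw [ht.2]
        simp [vX, vY, macX, macY]; linarith
      · rw [ht.2]
        simp [vX, vY, macX, macY]; linarith
    · rw [WW_items, MX_nsmul, ← hRX3]
      have c1 : (3 • RX).card + (3 • RY).card + 2 * (q * κ + 5 * W.card) + m3
          ≤ 3 * q * (κ + X.card + Y.card) := by
        have : 3 * q * (κ + X.card + Y.card) = 3 * (q * κ) + 3 * (q * X.card) + 3 * (q * Y.card) := by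
          ring
        rw [this, Multiset.card_nsmul, Multiset.card_nsmul]
        omega
      have c2 : (3 • RY).card + (2 * (q * κ) + W.card) ≤ 3 * q * (Y.card + κ) := by
        have : 3 * q * (Y.card + κ) = 3 * (q * κ) + 3 * (q * Y.card) := by ring
        rw [this, Multiset.card_nsmul]
        omega
      have c3 : (2 * (q * κ) + W.card) + m3 ≤ 3 * q * κ := by
        have : 3 * q * κ = 3 * (q * κ) := by ring
        omega
      refine add_le_add (add_le_add (add_le_add (add_le_add le_rfl (rep_le c1 _)) (rep_le c2 _))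
        (rep_le c3 _)) (tag_le _ ?_)
      rw [hRX3]
      exact Multiset.le_add_right _ _
    · rw [WW_thd, MY_nsmul, ← hRY3]
      have c1 : m3 ≤ 3 * q * κ := by
        have : 3 * q * κ = 3 * (q * κ) := by ring
        omega
      have c2 : (3 • RX).card + (q * κ + 5 * W.card) + (2 * (q * κ) + W.card)
          ≤ 3 * q * (X.card + κ) := by
        have : 3 * q * (X.card + κ) = 3 * (q * κ) + 3 * (q * X.card) := by ring
        rw [this, Multiset.card_nsmul]
        omega
      refine add_le_add (add_le_add (add_le_add (tag_le _ ?_) (rep_le c1 _)) (rep_le c2 _)) le_rfl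
      rw [hRY3]
      exact Multiset.le_add_right _ _
  · rw [Multiset.card_map, card_WW]
    simp only [Multiset.card_nsmul]
    have h1 : ((q * X.card : ℕ) : ℚ) = ((2 * W.card + RX.card : ℕ) : ℚ) := by rw [cX]
    have h2 : ((q * Y.card : ℕ) : ℚ) = ((W.card + RY.card : ℕ) : ℚ) := by rw [cY]
    have h3 : ((q * κ : ℕ) : ℚ) = ((W.card + m3 : ℕ) : ℚ) := by rw [hm3]
    push_cast at h1 h2 h3 ⊢
    linarith
  · have h3 : (κ : ℚ) = T + 2 + 3 * W.card := by rw [hκ]; push_cast; ring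
    push_cast
    linarith

/-- the deficiencies `2 - 2 (2/3)^n` are attained -/
theorem iter (n : ℕ) : ∃ (T : ℕ) (V : ℚ), UDef T V ∧ V - T = 2 - 2 * (2 / 3) ^ n := by
  induction n with
  | zero =>
    refine ⟨0, 0, ⟨0, 0, 1, 0, by omega, ?_, ?_, ?_⟩, by norm_num⟩
    · intro S hS
      obtain ⟨_, _, h3⟩ := hS
      have := Multiset.card_le_card h3
      simpa using this
    · exact ⟨by simp, by simp, by simp⟩
    · simp
  | succ n ih =>
    obtain ⟨T, V, h1, h2⟩ := ih
    obtain ⟨T', V', h3, h4⟩ := step h1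
    refine ⟨T', V', h3, ?_⟩
    rw [h4, h2, pow_succ]
    ring

end URec

/-- the deficiency of the problem with exact patterns `(x, x'; y)` comes arbitrarily close to `2` -/
theorem udef_limit : ∀ ε : ℚ, 0 < ε → ∃ (T : ℕ) (V : ℚ), UDef T V ∧ V - T > 2 - ε := by
  intro ε hε
  obtain ⟨n, hn⟩ := exists_pow_lt_of_lt_one (half_pos hε) (by norm_num : (2 / 3 : ℚ) < 1)
  obtain ⟨T, V, h1, h2⟩ := URec.iter n
  refine ⟨T, V, h1, ?_⟩
  rw [h2]
  linarith

end Vale.Agent.P302
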