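import Vale.Agent.P302.H794.Check

/-!
# Certificates: lower bounds for `OPT`, upper bounds for `LP`
-/

namespace Vale.Agent.P302

/-- the instance with sizes `x / L` -/
def inst (L : ℕ) (xs : List ℕ) : List ℚ := xs.map (fun x : ℕ => (x : ℚ) / (L : ℚ))

theorem isInstance_inst {L : ℕ} (hL : 0 < L) {xs : List ℕ} (h : ∀ x ∈ xs, 0 < x ∧ x ≤ L) :
    IsInstance (inst L xs) := by
  intro a ha
  obtain ⟨x, hx, rfl⟩ := List.mem_map.1 ha
  have hL' : (0 : ℚ) < L := by exact_mod_cast hL
  obtain ⟨h0, h1⟩ := h x hx
  constructor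
  · have : (0 : ℚ) < x := by exact_mod_cast h0
    positivity
  · rw [div_le_one hL']
    exact_mod_cast h1

theorem packable_length {I : List ℚ} (h : IsInstance I) : Packable I I.length := by
  refine ⟨id, fun b => ?_⟩
  have : Finset.univ.filter (fun i : Fin I.length => id i = b) = {b} := by
    ext i; simp
  rw [this, Finset.sum_singleton]
  exact (h _ (List.get_mem I b)).2

theorem Packable.mono {I : List ℚ} {k m : ℕ} (hkm : k ≤ m) (h : Packable I k) : Packable I m := by
  obtain ⟨f, hf⟩ := h
  refine ⟨fun i => Fin.castLE hkm (f i), fun b => ?_⟩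
  by_cases hb : (b : ℕ) < k
  · have := hf ⟨b, hb⟩
    convert this using 2
    ext i
    simp [Fin.ext_iff]
  · have : Finset.univ.filter (fun i => Fin.castLE hkm (f i) = b) = ∅ := by
      ext i
      simp only [Finset.mem_filter, Finset.mem_univ, true_and, Finset.notMem_empty, iff_false]
      intro h
      apply hb
      rw [← h]
      exact (f i).2
    rw [this]
    simp

theorem opt_ge {I : List ℚ} (hI : IsInstance I) {k : ℕ} (h : ¬ Packable I k) : k + 1 ≤ OPT I := by
  by_contra hcon
  have hmem : Packable I (OPT I) := Nat.sInf_mem (s := {k | Packable I k}) ⟨_, packable_length hI⟩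
  exact h (hmem.mono (by omega))

theorem not_packable {L : ℕ} (hL : 0 < L) {xs : List ℕ} {k s : ℕ} (hs0 : 0 < s)
    (hs : ∀ x ∈ xs, s ≤ x)
    (h : search s xs xs.sum (List.replicate k L) (k * L) = false) :
    ¬ Packable (inst L xs) k := by
  rintro ⟨f, hf⟩
  have hlen : (inst L xs).length = xs.length := by simp [inst]
  have hL' : (0 : ℚ) < L := by exact_mod_cast hL
  have hN : NPack xs (Finset.univ.val.map (fun _ : Fin k => L)) := by
    refine npack_of_assignment xs (fun _ => L) (fun i => f (Fin.cast hlen.symm i)) ?_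
    intro b
    have hb := hf b
    have e : (∑ i ∈ Finset.univ.filter (fun i => f i = b), (inst L xs).get i)
        = ((∑ i ∈ Finset.univ.filter (fun i => f (Fin.cast hlen.symm i) = b), xs.get i : ℕ) : ℚ) / L := by
      rw [Nat.cast_sum, Finset.sum_div, Finset.sum_filter, Finset.sum_filter]
      refine (Fintype.sum_equiv (finCongr hlen) _ _ ?_)
      intro i
      have e1 : (inst L xs).get i = ((xs.get (Fin.cast hlen i) : ℕ) : ℚ) / L := by
        have hh : ∀ (l : List ℚ) (hl : l = xs.map (fun x : ℕ => (x : ℚ) / (L : ℚ))) (i : Fin l.length)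
            (hll : l.length = xs.length),
            l.get i = ((xs.get (Fin.cast hll i) : ℕ) : ℚ) / L := by
          intro l hl i hll
          subst hl
          simp
        exact hh _ rfl i hlen
      have e2 : (finCongr hlen i) = Fin.cast hlen i := rfl
      have e3 : Fin.cast hlen.symm (Fin.cast hlen i) = i := by
        ext; simp
      rw [e2, e3, e1]
    rw [e, div_le_one hL'] at hb
    exact_mod_cast hb
  have hcaps : Multiset.map (fun _ : Fin k => L) Finset.univ.val = ((List.replicate k L : List ℕ) : Multiset ℕ) := by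
    rw [Multiset.map_const', Multiset.coe_replicate]
    simp
  rw [hcaps] at hN
  have := search_true hs0 xs (List.replicate k L) xs.sum (k * L) hs rfl (by simp) hN
  rw [h] at this
  exact Bool.false_ne_true this

/-! ### LP -/

/-- the configuration with the given sizes (natural numbers, divided by `L`) -/
noncomputable def cfg (L : ℕ) (p : List ℕ) : ℚ →₀ ℕ := Multiset.toFinsupp ((inst L p : List ℚ) : Multiset ℚ)

theorem cfg_apply {L : ℕ} (hL : 0 < L) (p : List ℕ) (x : ℕ) : cfg L p ((x : ℚ) / L) = p.count x := by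
  unfold cfg
  rw [Multiset.toFinsupp_apply, Multiset.coe_count]
  unfold inst
  have hL' : (L : ℚ) ≠ 0 := by exact_mod_cast hL.ne'
  have hinj : Function.Injective (fun x : ℕ => (x : ℚ) / L) := by
    intro a b hab
    have : (a : ℚ) = b := by
      have h := congrArg (· * (L : ℚ)) hab
      simpa [div_mul_cancel₀ _ hL'] using h
    exact_mod_cast this
  exact List.count_map_of_injective _ _ hinj _

theorem cfg_isConfig {L : ℕ} (hL : 0 < L) {xs p : List ℕ} (h1 : ∀ x ∈ p, x ∈ xs) (h2 : p.sum ≤ L) :
    IsConfig (inst L xs) (cfg L p) := by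
  constructor
  · intro σ hσ
    unfold cfg at hσ
    rw [Multiset.toFinsupp_support, Multiset.mem_toFinset, Multiset.mem_coe] at hσ
    obtain ⟨x, hx, rfl⟩ := List.mem_map.1 hσ
    exact List.mem_map.2 ⟨x, h1 x hx, rfl⟩
  · have hL' : (0 : ℚ) < L := by exact_mod_cast hL
    have e : (cfg L p).sum (fun σ m => σ * (m : ℚ)) = (inst L p).sum := by
      unfold cfg
      rw [Finsupp.sum, Multiset.toFinsupp_support]
      have := Finset.sum_multiset_count ((inst L p : List ℚ) : Multiset ℚ)
      rw [Multiset.sum_coe] at this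
      rw [this]
      refine Finset.sum_congr rfl ?_
      intro x _
      rw [Multiset.toFinsupp_apply, nsmul_eq_mul, mul_comm]
    rw [e]
    have : (inst L p).sum = ((p.sum : ℕ) : ℚ) / L := by
      clear e
      unfold inst
      induction p with
      | nil => simp
      | cons a p ih =>
        have ih' := ih (fun x hx => h1 x (by simp [hx])) (by simp only [List.sum_cons] at h2; omega)
        simp only [List.map_cons, List.sum_cons, Nat.cast_add, add_div]
        rw [ih']
    rw [this, div_le_one hL']
    exact_mod_cast h2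

theorem LP_bddBelow (I : List ℚ) :
    BddBelow {v | ∃ z, IsLPSolution I z ∧ v = z.sum (fun _ w => w)} := by
  refine ⟨0, ?_⟩
  rintro v ⟨z, ⟨_, h2, _⟩, rfl⟩
  exact Finset.sum_nonneg (fun c _ => h2 c)

/-- the LP solution given by a list of (pattern, numerator) with denominator `q` -/
noncomputable def zsol (L q : ℕ) (D : List (List ℕ × ℕ)) : (ℚ →₀ ℕ) →₀ ℝ :=
  (D.map (fun d => Finsupp.single (cfg L d.1) ((d.2 : ℝ) / q))).sum

theorem zsol_sum (L q : ℕ) (D : List (List ℕ × ℕ)) (g : (ℚ →₀ ℕ) → ℝ) :
    (zsol L q D).sum (fun c w => w * g c) = (D.map (fun d => (d.2 : ℝ) / q * g (cfg L d.1))).sum := by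
  unfold zsol
  induction D with
  | nil => simp
  | cons d D ih =>
    rw [List.map_cons, List.sum_cons, Finsupp.sum_add_index' (by simp) (by intros; ring), ih,
      Finsupp.sum_single_index (by simp), List.map_cons, List.sum_cons]

theorem LP_cert {L : ℕ} (hL : 0 < L) {xs : List ℕ} {q : ℕ} (hq : 0 < q) (D : List (List ℕ × ℕ))
    (h1 : ∀ d ∈ D, (∀ x ∈ d.1, x ∈ xs) ∧ d.1.sum ≤ L)
    (h2 : ∀ x ∈ xs, xs.count x * q ≤ (D.map (fun d => d.2 * d.1.count x)).sum) :
    ∃ z, IsLPSolution (inst L xs) z ∧
      (((D.map (fun d => d.2)).sum : ℕ) : ℝ) / q = z.sum (fun _ w => w) := by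
  have hq' : (0 : ℝ) < q := by exact_mod_cast hq
  refine ⟨zsol L q D, ⟨?_, ?_, ?_⟩, ?_⟩
  · intro c hc
    -- support of a sum of singles
    have : ∃ d ∈ D, c = cfg L d.1 := by
      by_contra hcon
      push Not at hcon
      apply Finsupp.mem_support_iff.1 hc
      unfold zsol
      clear h1 h2 hc
      induction D with
      | nil => simp
      | cons d D ih =>
        rw [List.map_cons, List.sum_cons, Finsupp.add_apply,
          Finsupp.single_eq_of_ne (hcon d (by simp)), zero_add]
        exact ih (fun d hd => hcon d (by simp [hd]))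
    obtain ⟨d, hd, rfl⟩ := this
    exact cfg_isConfig hL (h1 d hd).1 (h1 d hd).2
  · intro c
    unfold zsol
    clear h1 h2
    induction D with
    | nil => simp
    | cons d D ih =>
      rw [List.map_cons, List.sum_cons, Finsupp.add_apply]
      have : (0 : ℝ) ≤ (Finsupp.single (cfg L d.1) ((d.2 : ℝ) / q)) c := by
        rw [Finsupp.single_apply]
        split_ifs <;> positivity
      linarith
  · intro σ hσ
    obtain ⟨x, hx, rfl⟩ := List.mem_map.1 hσ
    rw [zsol_sum L q D (fun c => (c ((x : ℚ) / L) : ℝ))]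
    have hcount : (inst L xs).count ((x : ℚ) / L) = xs.count x := by
      have := cfg_apply hL xs x
      unfold cfg at this
      rwa [Multiset.toFinsupp_apply, Multiset.coe_count] at this
    rw [hcount]
    have h := h2 x hx
    have h' : (xs.count x * q : ℝ) ≤ ((D.map (fun d => d.2 * d.1.count x)).sum : ℕ) := by
      exact_mod_cast h
    have e : (D.map (fun d => (d.2 : ℝ) / q * ((cfg L d.1) ((x : ℚ) / L) : ℝ))).sum
        = (((D.map (fun d => d.2 * d.1.count x)).sum : ℕ) : ℝ) / q := by
      clear h1 h2 h h'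
      induction D with
      | nil => simp
      | cons d D ih =>
        simp only [List.map_cons, List.sum_cons, Nat.cast_add, add_div]
        rw [ih, cfg_apply hL]
        push_cast
        ring
    rw [e, le_div_iff₀ hq']
    exact h'
  · have := zsol_sum L q D (fun _ => 1)
    simp only [mul_one] at this
    rw [this]
    clear this h1 h2
    induction D with
    | nil => simp
    | cons d D ih =>
      simp only [List.map_cons, List.sum_cons, Nat.cast_add, add_div]
      rw [ih]

theorem LP_le_of_sol {I : List ℚ} {v : ℝ} (h : ∃ z, IsLPSolution I z ∧ v = z.sum (fun _ w => w)) :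
    LP I ≤ v := csInf_le (LP_bddBelow _) h

theorem LP_le {L : ℕ} (hL : 0 < L) {xs : List ℕ} {q : ℕ} (hq : 0 < q) (D : List (List ℕ × ℕ))
    (h1 : ∀ d ∈ D, (∀ x ∈ d.1, x ∈ xs) ∧ d.1.sum ≤ L)
    (h2 : ∀ x ∈ xs, xs.count x * q ≤ (D.map (fun d => d.2 * d.1.count x)).sum) :
    LP (inst L xs) ≤ (((D.map (fun d => d.2)).sum : ℕ) : ℝ) / q :=
  LP_le_of_sol (LP_cert hL hq D h1 h2)

end Vale.Agent.P302
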