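import Vale.Agent.P302.H794.Defs

/-!
# A verified exhaustive search for bin packing (natural number sizes)
-/

namespace Vale.Agent.P302

/-- `NPack l M`: the items `l` (in the given order) can be placed in bins with residual
capacities `M`. -/
def NPack : List ℕ → Multiset ℕ → Prop
  | [], _ => True
  | a :: l, M => ∃ c ∈ M, a ≤ c ∧ NPack l ((c - a) ::ₘ M.erase c)

theorem npack_of_assignment : ∀ (l : List ℕ) {k : ℕ} (cap : Fin k → ℕ) (f : Fin l.length → Fin k),
    (∀ b, ∑ i ∈ Finset.univ.filter (fun i => f i = b), l.get i ≤ cap b) →
    NPack l (Finset.univ.val.map cap)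
  | [], _, _, _, _ => trivial
  | a :: l, k, cap, f, h => by
    have hsplit : ∀ b, (∑ i ∈ Finset.univ.filter (fun i : Fin (a :: l).length => f i = b),
        (a :: l).get i) = (if f ⟨0, by simp⟩ = b then a else 0) +
        ∑ i ∈ Finset.univ.filter (fun i : Fin l.length => f i.succ = b), l.get i := by
      intro b
      rw [Finset.sum_filter, Finset.sum_filter]
      exact Fin.sum_univ_succ (n := l.length) (fun i => if f i = b then (a :: l).get i else 0)
    set b0 := f ⟨0, by simp⟩ with hb0
    have h0 := h b0
    rw [hsplit b0] at h0
    simp only [if_true] at h0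
    refine ⟨cap b0, Multiset.mem_map_of_mem _ (Finset.mem_univ b0), by omega, ?_⟩
    have key : (cap b0 - a) ::ₘ (Multiset.map cap Finset.univ.val).erase (cap b0)
        = Finset.univ.val.map (Function.update cap b0 (cap b0 - a)) := by
      have h1 : (Finset.univ : Finset (Fin k)).val = b0 ::ₘ (Finset.univ.erase b0).val := by
        rw [← Finset.insert_val_of_notMem (Finset.notMem_erase b0 _),
          Finset.insert_erase (Finset.mem_univ b0)]
      rw [h1, Multiset.map_cons, Multiset.map_cons, Multiset.erase_cons_head, Function.update_self]
      congr 1
      refine Multiset.map_congr rfl ?_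
      intro x hx
      have : x ≠ b0 := by
        exact (Finset.mem_erase.1 (Finset.mem_val ▸ hx : x ∈ Finset.univ.erase b0)).1
      rw [Function.update_of_ne this]
    rw [key]
    refine npack_of_assignment l _ (fun i => f i.succ) ?_
    intro b
    have hb := h b
    rw [hsplit b] at hb
    by_cases hbb : b0 = b
    · subst hbb
      simp only [Function.update_self]
      rw [if_pos rfl] at hb
      omega
    · rw [Function.update_of_ne (Ne.symm hbb)]
      rw [if_neg hbb] at hb
      simpa using hb

theorem NPack.drop_small {s c : ℕ} (hc : c < s) : ∀ {l : List ℕ} {M : Multiset ℕ},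
    (∀ x ∈ l, s ≤ x) → NPack l (c ::ₘ M) → NPack l M
  | [], _, _, _ => trivial
  | x :: l, M, hs, h => by
    obtain ⟨d, hd, hxd, hrest⟩ := h
    have hx : s ≤ x := hs x (by simp)
    have hne : d ≠ c := by omega
    have hdM : d ∈ M := by
      rcases Multiset.mem_cons.1 hd with h | h
      · exact absurd h hne
      · exact h
    refine ⟨d, hdM, hxd, ?_⟩
    rw [Multiset.erase_cons_tail _ (Ne.symm hne), Multiset.cons_swap] at hrest
    exact NPack.drop_small hc (fun y hy => hs y (by simp [hy])) hrest

theorem NPack.sum_le : ∀ {l : List ℕ} {M : Multiset ℕ}, NPack l M → l.sum ≤ M.sum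
  | [], _, _ => by simp
  | x :: l, M, h => by
    obtain ⟨d, hd, hxd, hrest⟩ := h
    have := NPack.sum_le hrest
    rw [Multiset.sum_cons] at this
    have h2 : M.sum = d + (M.erase d).sum := by
      conv_lhs => rw [← Multiset.cons_erase hd]
      rw [Multiset.sum_cons]
    simp only [List.sum_cons]
    omega

/-- insertion in a (descending) list -/
def ins (x : ℕ) : List ℕ → List ℕ
  | [] => [x]
  | y :: l => bif Nat.ble y x then x :: y :: l else y :: ins x l

theorem ins_perm (x : ℕ) (l : List ℕ) : (ins x l).Perm (x :: l) := by
  induction l with
  | nil => exact List.Perm.refl _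
  | cons y l ih =>
    unfold ins
    cases Nat.ble y x
    · simp only [cond_false]
      exact (List.Perm.cons y ih).trans (List.Perm.swap x y l)
    · simp only [cond_true]
      exact List.Perm.refl _

/-- put `a` in one of the capacities, then continue with `f` (new capacities, new total);
capacities below `s` are dropped. -/
def tryAll (s a free : ℕ) (f : List ℕ → ℕ → Bool) : ℕ → List ℕ → List ℕ → Bool
  | _, _, [] => false
  | prev, pre, c :: post =>
    bif (bif Nat.beq c prev then false else
        bif Nat.ble a c then
          (bif Nat.ble s (c - a) then f (ins (c - a) (pre.reverseAux post)) (free - a)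
            else f (pre.reverseAux post) (free - c))
        else false)
      then true else tryAll s a free f c (c :: pre) post

/-- exhaustive search; `s` a lower bound of all items, `need` their sum, `free` the sum of caps. -/
def search (s : ℕ) : List ℕ → ℕ → List ℕ → ℕ → Bool
  | [], _, _, _ => true
  | a :: l, need, caps, free =>
    bif Nat.ble need free then
      tryAll s a free (search s l (need - a)) 0 [] caps
    else false

theorem tryAll_true {s a free c : ℕ} {f : List ℕ → ℕ → Bool} (hac : a ≤ c) (hc0 : 0 < c)
    (post : List ℕ) : ∀ (prev : ℕ) (pre : List ℕ), c ∈ post → c ≠ prev →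
    (s ≤ c - a → ∀ l' : List ℕ, l'.Perm ((c - a) :: (pre ++ post).erase c) → f l' (free - a) = true) →
    (c - a < s → ∀ l' : List ℕ, l'.Perm ((pre ++ post).erase c) → f l' (free - c) = true) →
    tryAll s a free f prev pre post = true := by
  induction post with
  | nil => intro _ _ h; simp at h
  | cons d post ih =>
    intro prev pre hmem hne h1 h2
    unfold tryAll
    by_cases hdc : d = c
    · subst hdc
      have e1 : Nat.beq d prev = false := by
        cases h : Nat.beq d prev with
        | false => rfl
        | true => exact absurd (Nat.eq_of_beq_eq_true h) hne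
      have e2 : Nat.ble a d = true := by simpa using hac
      have hperm : (pre.reverseAux post).Perm ((pre ++ d :: post).erase d) := by
        rw [List.reverseAux_eq]
        have hp : (pre ++ d :: post).Perm (d :: (pre ++ post)) := List.perm_middle
        have := hp.erase d
        rw [List.erase_cons_head] at this
        exact ((List.reverse_perm pre).append_right post).trans this.symm
      rw [e1, e2]
      simp only [cond_false, cond_true]
      by_cases hs : s ≤ d - a
      · have e3 : Nat.ble s (d - a) = true := by simpa using hs
        rw [e3]
        simp only [cond_true]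
        rw [h1 hs _ ((ins_perm _ _).trans (List.Perm.cons _ hperm))]
        rfl
      · have e3 : Nat.ble s (d - a) = false := by
          cases h : Nat.ble s (d - a) with
          | false => rfl
          | true => exact absurd (Nat.le_of_ble_eq_true h) hs
        rw [e3]
        simp only [cond_false]
        rw [h2 (by omega) _ hperm]
        rfl
    · have hmem' : c ∈ post := by
        rcases List.mem_cons.1 hmem with h | h
        · exact absurd h.symm hdc
        · exact h
      have hp : (pre ++ d :: post).Perm ((d :: pre) ++ post) := List.perm_middle
      have := ih d (d :: pre) hmem' (fun h => hdc h.symm)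
        (fun hs l' hl' => h1 hs l' (hl'.trans (List.Perm.cons _ (hp.erase c).symm)))
        (fun hs l' hl' => h2 hs l' (hl'.trans (hp.erase c).symm))
      rw [this]
      cases (bif Nat.beq d prev then false else
        bif Nat.ble a d then
          (bif Nat.ble s (d - a) then f (ins (d - a) (pre.reverseAux post)) (free - a)
            else f (pre.reverseAux post) (free - d))
        else false) <;> rfl

theorem search_true {s : ℕ} (hs0 : 0 < s) : ∀ (l : List ℕ) (caps : List ℕ) (need free : ℕ),
    (∀ x ∈ l, s ≤ x) → need = l.sum → free = caps.sum → NPack l (caps : Multiset ℕ) →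
    search s l need caps free = true
  | [], _, _, _, _, _, _, _ => rfl
  | a :: l, caps, need, free, hs, hneed, hfree, h => by
    have hsum := h.sum_le
    obtain ⟨c, hc, hac, hrest⟩ := h
    have ha : s ≤ a := hs a (by simp)
    unfold search
    have e1 : Nat.ble need free = true := by
      rw [hneed, hfree]
      simpa using hsum
    rw [e1]
    simp only [cond_true]
    have hcm : c ∈ caps := by simpa using hc
    have hcs : caps.sum = c + (caps.erase c).sum := (List.sum_erase hcm).symm
    refine tryAll_true hac (by omega) caps 0 [] hcm (by omega) ?_ ?_
    · intro _ l' hl'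
      refine search_true hs0 l l' _ _ (fun x hx => hs x (by simp [hx])) ?_ ?_ ?_
      · rw [hneed, List.sum_cons]; omega
      · rw [hl'.sum_eq, List.sum_cons, hfree, List.nil_append, hcs]; omega
      · have : (l' : Multiset ℕ) = (c - a) ::ₘ (caps : Multiset ℕ).erase c := by
          rw [Multiset.coe_erase, Multiset.cons_coe]
          exact Multiset.coe_eq_coe.2 (by simpa using hl')
        rw [this]; exact hrest
    · intro hlt l' hl'
      refine search_true hs0 l l' _ _ (fun x hx => hs x (by simp [hx])) ?_ ?_ ?_
      · rw [hneed, List.sum_cons]; omega
      · rw [hl'.sum_eq, hfree, List.nil_append, hcs]; omega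
      · have : (l' : Multiset ℕ) = (caps : Multiset ℕ).erase c := by
          rw [Multiset.coe_erase]
          exact Multiset.coe_eq_coe.2 (by simpa using hl')
        rw [this]
        exact hrest.drop_small hlt (fun x hx => hs x (by simp [hx]))

end Vale.Agent.P302
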