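import Vale.Agent.P302.H794.Bound

/-!
# A verified bin-wise exhaustive search with the maximality and swap dominance rules
-/

namespace Vale.Agent.P302

/-- `M` can be partitioned in `k` parts of sum `≤ L` -/
def MPack (L k : ℕ) (M : Multiset ℕ) : Prop :=
  ∃ P : Multiset (Multiset ℕ), P.card = k ∧ P.join = M ∧ ∀ B ∈ P, B.sum ≤ L

theorem MPack.sum_le {L k : ℕ} {M : Multiset ℕ} (h : MPack L k M) : M.sum ≤ k * L := by
  obtain ⟨P, rfl, rfl, h⟩ := h
  induction P using Multiset.induction with
  | empty => simp
  | cons B P ih =>
    rw [Multiset.join_cons, Multiset.sum_add, Multiset.card_cons, Nat.add_mul, Nat.one_mul]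
    have h1 := h B (by simp)
    have h2 := ih (fun B' hB' => h B' (by simp [hB']))
    omega

/-- the exchange lemma: a maximal bin containing `a` -/
theorem MPack.exchange {L k : ℕ} {M : Multiset ℕ} {a : ℕ} (ha : a ∈ M) (hpos : 0 ∉ M)
    (h : MPack L k M) :
    ∃ (k' : ℕ) (B U : Multiset ℕ), k = k' + 1 ∧ M = a ::ₘ (B + U) ∧ a + B.sum ≤ L ∧ MPack L k' U ∧
      (∀ y ∈ U, L < a + B.sum + y) ∧
      (∀ x ∈ B, ∀ y ∈ U, x < y → L + x < a + B.sum + y) := by
  classical
  let Q : ℕ → Prop := fun s => ∃ (k' : ℕ) (B U : Multiset ℕ), k = k' + 1 ∧ M = a ::ₘ (B + U) ∧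
    a + B.sum + s = L ∧ MPack L k' U
  have hQ : ∃ s, Q s := by
    obtain ⟨P, hcard, hjoin, hP⟩ := h
    rw [← hjoin, Multiset.mem_join] at ha
    obtain ⟨B0, hB0, haB⟩ := ha
    obtain ⟨B, rfl⟩ := Multiset.exists_cons_of_mem haB
    obtain ⟨R, rfl⟩ := Multiset.exists_cons_of_mem hB0
    have hs := hP _ hB0
    rw [Multiset.sum_cons] at hs
    refine ⟨L - (a + B.sum), R.card, B, R.join, ?_, ?_, by omega, ⟨R, rfl, rfl, fun B' hB' => hP B' (by simp [hB'])⟩⟩
    · rw [← hcard, Multiset.card_cons]
    · rw [← hjoin, Multiset.join_cons, Multiset.cons_add]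
  have hmin : ∀ t, Q t → Nat.find hQ ≤ t := fun t ht => Nat.find_min' hQ ht
  obtain ⟨k', B, U, hk, hM, hs, hU⟩ := Nat.find_spec hQ
  refine ⟨k', B, U, hk, hM, by omega, hU, ?_, ?_⟩
  · intro y hy
    by_contra hcon
    obtain ⟨P, hcard, hjoin, hP⟩ := hU
    rw [← hjoin, Multiset.mem_join] at hy
    obtain ⟨B0, hB0, hyB⟩ := hy
    obtain ⟨B1, rfl⟩ := Multiset.exists_cons_of_mem hyB
    obtain ⟨R, rfl⟩ := Multiset.exists_cons_of_mem hB0
    rw [Multiset.join_cons, Multiset.cons_add] at hjoin
    have hb := hP _ (Multiset.mem_cons_self _ _)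
    rw [Multiset.sum_cons] at hb
    have hy0 : y ≠ 0 := by
      rintro rfl
      apply hpos
      rw [hM, ← hjoin]
      simp
    have := hmin (L - (a + B.sum + y)) ⟨k', y ::ₘ B, B1 + R.join, hk, by
      rw [hM, ← hjoin, Multiset.add_cons, Multiset.cons_add], by rw [Multiset.sum_cons]; omega,
      ⟨B1 ::ₘ R, by rw [← hcard]; simp, by rw [Multiset.join_cons], by
        intro B' hB'
        rcases Multiset.mem_cons.1 hB' with rfl | h'
        · omega
        · exact hP _ (by simp [h'])⟩⟩
    omega
  · intro x hx y hy hxy
    by_contra hcon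
    obtain ⟨P, hcard, hjoin, hP⟩ := hU
    rw [← hjoin, Multiset.mem_join] at hy
    obtain ⟨B0, hB0, hyB⟩ := hy
    obtain ⟨B1, rfl⟩ := Multiset.exists_cons_of_mem hyB
    obtain ⟨R, rfl⟩ := Multiset.exists_cons_of_mem hB0
    obtain ⟨B2, rfl⟩ := Multiset.exists_cons_of_mem hx
    rw [Multiset.join_cons, Multiset.cons_add] at hjoin
    have hb := hP _ (Multiset.mem_cons_self _ _)
    rw [Multiset.sum_cons] at hb hs hcon
    have := hmin (L + x - (a + (x + B2.sum) + y)) ⟨k', y ::ₘ B2, x ::ₘ (B1 + R.join), hk, by
      rw [hM, ← hjoin]
      simp only [Multiset.cons_add, Multiset.add_cons]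
      rw [Multiset.cons_swap x y], by rw [Multiset.sum_cons]; omega,
      ⟨(x ::ₘ B1) ::ₘ R, by rw [← hcard]; simp, by rw [Multiset.join_cons, Multiset.cons_add], by
        intro B' hB'
        rcases Multiset.mem_cons.1 hB' with rfl | h'
        · rw [Multiset.sum_cons]; omega
        · exact hP _ (by simp [h'])⟩⟩
    omega

/-- all elements of the list are `> c` -/
def allGt (c : ℕ) : List ℕ → Bool
  | [] => true
  | y :: l => bif Nat.ble y c then false else allGt c l

theorem allGt_true {c : ℕ} : ∀ {l : List ℕ}, (∀ y ∈ l, c < y) → allGt c l = true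
  | [], _ => rfl
  | y :: l, h => by
    unfold allGt
    have h1 : Nat.ble y c = false := by
      cases h' : Nat.ble y c with
      | false => rfl
      | true =>
        have := Nat.le_of_ble_eq_true h'
        have := h y (by simp)
        omega
    rw [h1]
    exact allGt_true (fun z hz => h z (by simp [hz]))

/-- no `y` in the list with `x < y ≤ x'` -/
def noSwap1 (x x' : ℕ) : List ℕ → Bool
  | [] => true
  | y :: l => bif Nat.ble y x' then (bif Nat.ble y x then noSwap1 x x' l else false)
      else noSwap1 x x' l

theorem noSwap1_true {x x' : ℕ} : ∀ {l : List ℕ}, (∀ y ∈ l, x < y → x' < y) → noSwap1 x x' l = true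
  | [], _ => rfl
  | y :: l, h => by
    unfold noSwap1
    have ih := noSwap1_true (x := x) (x' := x') (l := l) (fun z hz => h z (by simp [hz]))
    cases h1 : Nat.ble y x' with
    | false => simpa using ih
    | true =>
      cases h2 : Nat.ble y x with
      | true => simpa using ih
      | false =>
        exfalso
        have h3 := Nat.le_of_ble_eq_true h1
        have h4 : ¬ y ≤ x := by
          intro h5
          rw [Nat.ble_eq_true_of_le h5] at h2
          exact Bool.noConfusion h2
        have := h y (by simp) (by omega)
        omega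

/-- no `x ∈ ch`, `y ∈ l` with `x < y ≤ x + c` -/
def noSwap (c : ℕ) (l : List ℕ) : List ℕ → Bool
  | [] => true
  | x :: ch => bif noSwap1 x (x + c) l then noSwap c l ch else false

theorem noSwap_true {c : ℕ} {l : List ℕ} : ∀ {ch : List ℕ},
    (∀ x ∈ ch, ∀ y ∈ l, x < y → x + c < y) → noSwap c l ch = true
  | [], _ => rfl
  | x :: ch, h => by
    unfold noSwap
    rw [noSwap1_true (h x (by simp))]
    exact noSwap_true (fun z hz => h z (by simp [hz]))

/-- enumeration of the fillings of one bin: candidates, skipped items, chosen items, remaining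
capacity, total size of the candidates, last skipped size -/
def fill (waste : ℕ) (f : List ℕ → ℕ → Bool) : List ℕ → List ℕ → List ℕ → ℕ → ℕ → ℕ → Bool
  | [], sk, ch, cap, _, _ =>
    bif Nat.ble cap waste then
      bif allGt cap sk then
        bif (bif Nat.beq cap 0 then true else noSwap cap sk ch) then f sk.reverse (waste - cap)
        else false
      else false
    else false
  | x :: c, sk, ch, cap, avail, last =>
    bif Nat.ble cap (waste + avail) then
      bif Nat.ble x cap then
        bif Nat.beq x last then fill waste f c (x :: sk) ch cap (avail - x) last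
        else bif fill waste f c sk (x :: ch) (cap - x) (avail - x) last then true
          else fill waste f c (x :: sk) ch cap (avail - x) x
      else fill waste f c (x :: sk) ch cap (avail - x) last
    else false

theorem fill_true {waste : ℕ} {f : List ℕ → ℕ → Bool} : ∀ (c sk ch : List ℕ) (cap avail last : ℕ)
    (B : Multiset ℕ), B ≤ (c : Multiset ℕ) → B.sum ≤ cap → cap ≤ waste + B.sum → avail = c.sum →
    last ∉ B →
    (∀ y ∈ (sk : Multiset ℕ) + ((c : Multiset ℕ) - B), cap < B.sum + y) →
    (∀ x ∈ (ch : Multiset ℕ) + B, ∀ y ∈ (sk : Multiset ℕ) + ((c : Multiset ℕ) - B), x < y →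
      cap + x < B.sum + y) →
    (∀ l' : List ℕ, (l' : Multiset ℕ) = (sk : Multiset ℕ) + ((c : Multiset ℕ) - B) →
      f l' (waste - (cap - B.sum)) = true) →
    fill waste f c sk ch cap avail last = true
  | [], sk, ch, cap, avail, last, B, hB, hs, hw, ha, hl, hmax, hsw, hf => by
    have hB0 : B = 0 := by
      have : B ≤ 0 := by simpa using hB
      exact Multiset.le_zero.1 this
    subst hB0
    simp only [Multiset.sum_zero, Multiset.coe_nil, Multiset.sub_zero, add_zero, zero_add] at *
    unfold fill
    rw [Nat.ble_eq_true_of_le hw]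
    simp only [cond_true]
    rw [allGt_true (fun y hy => hmax y (by simpa using hy))]
    simp only [cond_true]
    have h2 : (bif Nat.beq cap 0 then true else noSwap cap sk ch) = true := by
      cases Nat.beq cap 0 with
      | true => rfl
      | false =>
        simp only [cond_false]
        exact noSwap_true (fun x hx y hy hxy => by
          have := hsw x (by simpa using hx) y (by simpa using hy) hxy
          omega)
    rw [h2]
    simp only [cond_true]
    have := hf sk.reverse (by simp [Multiset.coe_reverse])
    simpa using this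
  | x :: c, sk, ch, cap, avail, last, B, hB, hs, hw, ha, hl, hmax, hsw, hf => by
    unfold fill
    have hsumB : B.sum ≤ avail := by
      rw [ha]
      obtain ⟨u, hu⟩ := Multiset.le_iff_exists_add.1 hB
      rw [← Multiset.sum_coe, hu, Multiset.sum_add]
      omega
    rw [Nat.ble_eq_true_of_le (by omega : cap ≤ waste + avail)]
    simp only [cond_true]
    have hav : avail - x = c.sum := by rw [ha, List.sum_cons]; omega
    -- the branch where `x` is skipped
    have skip : x ∉ B → ∀ last', last' ∉ B →
        fill waste f c (x :: sk) ch cap (avail - x) last' = true := by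
      intro hx last' hl'
      have hBc : B ≤ (c : Multiset ℕ) := by
        rw [← Multiset.cons_coe] at hB
        exact (Multiset.le_cons_of_notMem hx).1 hB
      have hU : ((x :: sk : List ℕ) : Multiset ℕ) + ((c : Multiset ℕ) - B)
          = (sk : Multiset ℕ) + (((x :: c : List ℕ) : Multiset ℕ) - B) := by
        rw [← Multiset.cons_coe, ← Multiset.cons_coe, Multiset.cons_sub_of_le x hBc,
          Multiset.cons_add, Multiset.add_cons]
      refine fill_true c (x :: sk) ch cap (avail - x) last' B hBc hs hw hav hl' ?_ ?_ ?_
      · rw [hU]; exact hmax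
      · rw [hU]; exact hsw
      · rw [hU]; exact hf
    by_cases hx : x ∈ B
    · obtain ⟨B', rfl⟩ := Multiset.exists_cons_of_mem hx
      rw [Multiset.sum_cons] at hs hw hmax hsw hf hsumB
      rw [Nat.ble_eq_true_of_le (by omega : x ≤ cap)]
      simp only [cond_true]
      have hne : Nat.beq x last = false := by
        cases h : Nat.beq x last with
        | false => rfl
        | true =>
          exfalso
          have := Nat.eq_of_beq_eq_true h
          subst this
          exact hl hx
      rw [hne]
      simp only [cond_false]
      have hB' : B' ≤ (c : Multiset ℕ) := by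
        rw [← Multiset.cons_coe] at hB
        exact (Multiset.cons_le_cons_iff x).1 hB
      have hU : (((x :: c : List ℕ) : Multiset ℕ) - x ::ₘ B') = (c : Multiset ℕ) - B' := by
        rw [← Multiset.cons_coe, Multiset.sub_cons, Multiset.erase_cons_head]
      rw [hU] at hmax hsw hf
      have := fill_true (waste := waste) (f := f) c sk (x :: ch) (cap - x) (avail - x) last B' hB'
        (by omega) (by omega) hav (fun h => hl (by simp [h]))
        (by intro y hy; have := hmax y hy; omega)
        (by
          intro z hz y hy hzy
          have hz' : z ∈ (ch : Multiset ℕ) + x ::ₘ B' := by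
            rw [← Multiset.cons_coe] at hz
            simp only [Multiset.mem_add, Multiset.mem_cons] at hz ⊢
            tauto
          have := hsw z hz' y hy hzy
          omega)
        (by
          intro l' hl'
          have := hf l' hl'
          rwa [show cap - x - B'.sum = cap - (x + B'.sum) by omega])
      rw [this]
      rfl
    · by_cases h1 : x ≤ cap
      · rw [Nat.ble_eq_true_of_le h1]
        simp only [cond_true]
        cases Nat.beq x last with
        | true =>
          simp only [cond_true]
          exact skip hx last hl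
        | false =>
          simp only [cond_false]
          rw [skip hx x hx]
          cases fill waste f c sk (x :: ch) (cap - x) (avail - x) last <;> rfl
      · have : Nat.ble x cap = false := by
          cases h : Nat.ble x cap with
          | false => rfl
          | true => exact absurd (Nat.le_of_ble_eq_true h) h1
        rw [this]
        simp only [cond_false]
        exact skip hx last hl

/-- sum of a list (for kernel evaluation) -/
def lsum : List ℕ → ℕ
  | [] => 0
  | x :: l => x + lsum l

theorem lsum_eq (l : List ℕ) : lsum l = l.sum := by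
  induction l with
  | nil => rfl
  | cons x l ih => unfold lsum; rw [ih, List.sum_cons]

/-- bin-wise exhaustive search: number of bins, remaining items, total free space -/
def bsearch (L : ℕ) : ℕ → List ℕ → ℕ → Bool
  | _, [], _ => true
  | 0, _ :: _, _ => false
  | k + 1, a :: l, waste =>
    bif Nat.ble a L then fill waste (bsearch L k) l [] [] (L - a) (lsum l) 0 else false

theorem bsearch_true {L : ℕ} : ∀ (k : ℕ) (l : List ℕ) (waste : ℕ), (0 : ℕ) ∉ l →
    waste + l.sum = k * L → MPack L k (l : Multiset ℕ) → bsearch L k l waste = true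
  | k, [], _, _, _, _ => by cases k <;> rfl
  | 0, a :: l, waste, h0, hw, h => by
    exfalso
    simp only [List.sum_cons, Nat.zero_mul] at hw
    have : a ≠ 0 := by
      rintro rfl
      exact h0 (by simp)
    omega
  | k + 1, a :: l, waste, h0, hw, h => by
    obtain ⟨k', B, U, hk, hM, hs, hU, hmax, hsw⟩ :=
      h.exchange (a := a) (by simp) (by simpa using h0)
    have hk' : k' = k := by omega
    subst hk'
    rw [← Multiset.cons_coe] at hM
    have hM' : (l : Multiset ℕ) = B + U := Multiset.cons_inj_right a |>.1 hM
    have hUl : (l : Multiset ℕ) - B = U := by rw [hM']; simp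
    have hlsum : l.sum = B.sum + U.sum := by
      rw [← Multiset.sum_coe, hM', Multiset.sum_add]
    have hUs := hU.sum_le
    unfold bsearch
    rw [Nat.ble_eq_true_of_le (by omega : a ≤ L)]
    simp only [cond_true]
    simp only [List.sum_cons] at hw
    have hkL : (k' + 1) * L = k' * L + L := by ring
    refine fill_true l [] [] (L - a) (lsum l) 0 B ?_ (by omega) (by omega) (lsum_eq l) ?_ ?_ ?_ ?_
    · rw [hM']; exact Multiset.le_add_right _ _
    · intro h
      apply h0
      have : (0 : ℕ) ∈ (l : Multiset ℕ) := by rw [hM']; simp [h]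
      simp at this ⊢
      exact Or.inr this
    · rw [hUl]
      intro y hy
      have := hmax y (by simpa using hy)
      omega
    · rw [hUl]
      intro x hx y hy hxy
      have := hsw x (by simpa using hx) y (by simpa using hy) hxy
      omega
    · intro l' hl'
      rw [hUl] at hl'
      have hl'' : (l' : Multiset ℕ) = U := by simpa using hl'
      have hl's : l'.sum = U.sum := by rw [← Multiset.sum_coe, hl'']
      refine bsearch_true k' l' _ ?_ ?_ ?_
      · intro h
        apply h0
        have h3 : (0 : ℕ) ∈ (l' : Multiset ℕ) := by simpa using h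
        have : (0 : ℕ) ∈ (l : Multiset ℕ) := by rw [hM']; rw [hl''] at h3; simp [h3]
        simp at this ⊢
        exact Or.inr this
      · rw [hl's]; omega
      · rw [hl'']; exact hU

end Vale.Agent.P302
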