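import Vale.Agent.P302.H794.Check2

/-!
# From `Packable` to the bin-wise search; final certificates
-/

namespace Vale.Agent.P302

theorem mpack_of_packable {L : ℕ} (hL : 0 < L) {xs : List ℕ} {k : ℕ} (h : Packable (inst L xs) k) :
    MPack L k (xs : Multiset ℕ) := by
  obtain ⟨f, hf⟩ := h
  have hlen : (inst L xs).length = xs.length := by simp [inst]
  have hL' : (0 : ℚ) < L := by exact_mod_cast hL
  have hget : ∀ i : Fin (inst L xs).length,
      (inst L xs).get i = ((xs.get (Fin.cast hlen i) : ℕ) : ℚ) / L := by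
    intro i
    have hh : ∀ (l : List ℚ) (hl : l = xs.map (fun x : ℕ => (x : ℚ) / (L : ℚ))) (i : Fin l.length)
        (hll : l.length = xs.length),
        l.get i = ((xs.get (Fin.cast hll i) : ℕ) : ℚ) / L := by
      intro l hl i hll
      subst hl
      simp
    exact hh _ rfl i hlen
  let g : Fin k → Multiset ℕ := fun b =>
    ∑ i ∈ Finset.univ.filter (fun i => f i = b), ({xs.get (Fin.cast hlen i)} : Multiset ℕ)
  refine ⟨Finset.univ.val.map g, by simp, ?_, ?_⟩
  · have h1 : (Multiset.map g Finset.univ.val).join = ∑ b, g b := rfl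
    rw [h1]
    have h2 : ∑ b, g b = ∑ i : Fin (inst L xs).length, ({xs.get (Fin.cast hlen i)} : Multiset ℕ) :=
      Finset.sum_fiberwise (Finset.univ) f _
    rw [h2]
    have h3 : ∑ i : Fin (inst L xs).length, ({xs.get (Fin.cast hlen i)} : Multiset ℕ)
        = ∑ i : Fin xs.length, ({xs.get i} : Multiset ℕ) :=
      Fintype.sum_equiv (finCongr hlen) _ _ (fun i => rfl)
    rw [h3]
    have h4 : ∑ i : Fin xs.length, ({xs.get i} : Multiset ℕ)
        = ((Finset.univ.val.map xs.get).map (fun a => ({a} : Multiset ℕ))).sum := by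
      rw [Multiset.map_map]
      rfl
    rw [h4, Multiset.sum_map_singleton, Fin.univ_val_map, List.ofFn_get]
  · intro B hB
    obtain ⟨b, _, rfl⟩ := Multiset.mem_map.1 hB
    have hb := hf b
    have h1 : (g b).sum = ∑ i ∈ Finset.univ.filter (fun i => f i = b), xs.get (Fin.cast hlen i) := by
      have := map_sum (Multiset.sumAddMonoidHom (M := ℕ))
        (fun i => ({xs.get (Fin.cast hlen i)} : Multiset ℕ)) (Finset.univ.filter (fun i => f i = b))
      rw [Multiset.coe_sumAddMonoidHom] at this
      exact this.trans (Finset.sum_congr rfl (fun i _ => Multiset.sum_singleton _))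
    rw [h1]
    have e : (∑ i ∈ Finset.univ.filter (fun i => f i = b), (inst L xs).get i)
        = ((∑ i ∈ Finset.univ.filter (fun i => f i = b), xs.get (Fin.cast hlen i) : ℕ) : ℚ) / L := by
      rw [Nat.cast_sum, Finset.sum_div]
      exact Finset.sum_congr rfl (fun i _ => hget i)
    rw [e, div_le_one hL'] at hb
    exact_mod_cast hb

theorem not_packable' {L : ℕ} (hL : 0 < L) {xs : List ℕ} {k w : ℕ} (h0 : (0 : ℕ) ∉ xs)
    (hw : w + xs.sum = k * L) (h : bsearch L k xs w = false) : ¬ Packable (inst L xs) k := by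
  intro hp
  have := bsearch_true k xs w h0 hw (mpack_of_packable hL hp)
  rw [h] at this
  exact Bool.false_ne_true this

end Vale.Agent.P302
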