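import Mathlib

/-!
# Bin packing and the Gilmore-Gomory configuration LP (P302)

An instance is a list of rational sizes in `(0,1]`.  `OPT I` is the least number of bins,
`LP I` the value of the configuration LP (configurations may use a size more often than it
occurs in the instance).
-/

namespace Vale.Agent.P302

/-- A bin packing instance: a finite list of rational item sizes in `(0,1]`. -/
def IsInstance (I : List ℚ) : Prop := ∀ a ∈ I, 0 < a ∧ a ≤ 1

/-- The items of `I` can be partitioned into (at most) `k` bins, each of total size at most `1`: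
`f i` is the bin of the `i`-th item. -/
def Packable (I : List ℚ) (k : ℕ) : Prop :=
  ∃ f : Fin I.length → Fin k, ∀ b : Fin k, ∑ i ∈ Finset.univ.filter (fun i => f i = b), I.get i ≤ 1

/-- `OPT(I)`: the least number of bins. -/
noncomputable def OPT (I : List ℚ) : ℕ := sInf {k | Packable I k}

/-- A configuration of `I`: multiplicities `c σ` of the sizes `σ` of `I`, of total size at most `1`
(a size may occur more often than in `I`). -/
def IsConfig (I : List ℚ) (c : ℚ →₀ ℕ) : Prop :=
  (∀ σ ∈ c.support, σ ∈ I) ∧ c.sum (fun σ m => σ * m) ≤ 1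

/-- `z` is a feasible solution of the configuration LP of `I`: nonnegative weights on finitely many
configurations that cover every size `σ` at least as often as it occurs in `I`. -/
def IsLPSolution (I : List ℚ) (z : (ℚ →₀ ℕ) →₀ ℝ) : Prop :=
  (∀ c ∈ z.support, IsConfig I c) ∧ (∀ c, 0 ≤ z c) ∧
    ∀ σ ∈ I, (I.count σ : ℝ) ≤ z.sum (fun c w => w * (c σ : ℝ))

/-- The value of the configuration LP. -/
noncomputable def LP (I : List ℚ) : ℝ :=
  sInf {v | ∃ z, IsLPSolution I z ∧ v = z.sum (fun _ w => w)}

/-- The modified integer round-up conjecture. -/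
def MIRUP : Prop := ∀ I : List ℚ, IsInstance I → (OPT I : ℤ) ≤ ⌈LP I⌉ + 1

end Vale.Agent.P302
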