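import Vale.Agent.P302.H794.Check3

/-!
# Adding items of size one
-/

namespace Vale.Agent.P302

theorem Packable.cons_one {I : List ℚ} {k : ℕ} (h : Packable I k) : Packable (1 :: I) (k + 1) := by
  obtain ⟨f, hf⟩ := h
  refine ⟨Fin.cons (Fin.last k) (fun i => (f i).castSucc), fun b => ?_⟩
  rw [Finset.sum_filter]
  have e := Fin.sum_univ_succ (n := I.length)
    (fun i : Fin (I.length + 1) => if (Fin.cons (Fin.last k) (fun i => (f i).castSucc) :
      Fin (I.length + 1) → Fin (k + 1)) i = b then (1 :: I).get i else 0)
  refine le_of_eq_of_le e ?_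
  simp only [Fin.cons_zero, Fin.cons_succ, List.get_cons_zero]
  refine Fin.lastCases ?_ (fun b => ?_) b
  · have h0 : ∀ i : Fin I.length, ((f i).castSucc = Fin.last k) = False := by
      intro i
      exact eq_false (Fin.castSucc_lt_last _).ne
    simp [h0]
  · have h0 : (Fin.last k = b.castSucc) = False := eq_false (Fin.castSucc_lt_last _).ne'
    simp only [h0, if_false, zero_add, Fin.castSucc_inj]
    have := hf b
    rw [Finset.sum_filter] at this
    exact this

theorem Packable.of_cons_one {I : List ℚ} (hI : IsInstance I) {k : ℕ}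
    (h : Packable (1 :: I) (k + 1)) : Packable I k := by
  obtain ⟨f, hf⟩ := h
  have hne : ∀ i : Fin I.length, f i.succ ≠ f 0 := by
    intro i hi
    have h1 := hf (f 0)
    have h2 : ∑ j ∈ ({0, i.succ} : Finset (Fin (1 :: I).length)), (1 :: I).get j ≤
        ∑ j ∈ Finset.univ.filter (fun j => f j = f 0), (1 :: I).get j := by
      refine Finset.sum_le_sum_of_subset_of_nonneg ?_ ?_
      · intro j hj
        rw [Finset.mem_insert, Finset.mem_singleton] at hj
        rcases hj with rfl | rfl
        · simp
        · simp [hi]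
      · intro j _ _
        refine Fin.cases ?_ (fun j => ?_) j
        · simp
        · simpa using (hI _ (List.get_mem I j)).1.le
    have h5 : ∑ j ∈ ({0, i.succ} : Finset (Fin (1 :: I).length)), (1 :: I).get j
        = (1 :: I).get 0 + (1 :: I).get i.succ := Finset.sum_pair (Fin.succ_ne_zero i).symm
    rw [h5] at h2
    have h3 := (hI _ (List.get_mem I i)).1
    have h4 : (1 : ℚ) + I.get i ≤ 1 := h2.trans h1
    linarith
  choose g hg using fun i : Fin I.length => Fin.exists_succAbove_eq (hne i)
  refine ⟨g, fun b => ?_⟩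
  have h1 := hf ((f 0).succAbove b)
  rw [Finset.sum_filter] at h1 ⊢
  have e := Fin.sum_univ_succ (n := I.length)
    (fun i : Fin (I.length + 1) => if f i = (f 0).succAbove b then (1 :: I).get i else 0)
  have h2 := (le_of_eq e.symm).trans h1
  have h0 : (f 0 = (f 0).succAbove b) = False := eq_false (Fin.succAbove_ne _ _).symm
  simp only [h0, if_false, zero_add] at h2
  refine le_trans (le_of_eq ?_) h2
  refine Finset.sum_congr rfl (fun i _ => ?_)
  have : (g i = b) = (f i.succ = (f 0).succAbove b) := by
    rw [← hg i, Fin.succAbove_right_inj]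
  simp only [this]
  rfl

theorem lpsol_cons_one {I : List ℚ} {v : ℝ}
    (h : ∃ z, IsLPSolution I z ∧ v = z.sum (fun _ w => w)) :
    ∃ z, IsLPSolution (1 :: I) z ∧ v + 1 = z.sum (fun _ w => w) := by
  obtain ⟨z, ⟨h1, h2, h3⟩, hv⟩ := h
  have hsum : ∀ g : (ℚ →₀ ℕ) → ℝ, (z + Finsupp.single (Finsupp.single 1 1) 1).sum
      (fun c w => w * g c) = z.sum (fun c w => w * g c) + g (Finsupp.single 1 1) := by
    intro g
    rw [Finsupp.sum_add_index' (by simp) (by intros; ring), Finsupp.sum_single_index (by simp),
      one_mul]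
  refine ⟨z + Finsupp.single (Finsupp.single 1 1) 1, ⟨?_, ?_, ?_⟩, ?_⟩
  · intro c hc
    rcases Finset.mem_union.1 (Finsupp.support_add hc) with h | h
    · obtain ⟨h4, h5⟩ := h1 c h
      exact ⟨fun σ hσ => List.mem_cons_of_mem _ (h4 σ hσ), h5⟩
    · have : c = Finsupp.single 1 1 := by
        have := Finsupp.support_single_subset h
        simpa using this
      subst this
      constructor
      · intro σ hσ
        have := Finsupp.support_single_subset hσ
        simp only [Finset.mem_singleton] at this
        simp [this]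
      · rw [Finsupp.sum_single_index (by simp)]
        norm_num
  · intro c
    rw [Finsupp.add_apply]
    have : (0 : ℝ) ≤ (Finsupp.single (Finsupp.single 1 1) 1 : (ℚ →₀ ℕ) →₀ ℝ) c := by
      rw [Finsupp.single_apply]
      split_ifs <;> norm_num
    linarith [h2 c]
  · intro σ hσ
    rw [hsum (fun c => (c σ : ℝ))]
    by_cases h : σ ∈ I
    · have h4 := h3 σ h
      by_cases h1' : σ = 1
      · subst h1'
        rw [List.count_cons_self, Finsupp.single_eq_same]
        push_cast
        linarith
      · rw [List.count_cons_of_ne (Ne.symm h1')]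
        have : (0 : ℝ) ≤ ((Finsupp.single (1 : ℚ) (1 : ℕ)) σ : ℝ) := by positivity
        linarith
    · have h1' : σ = 1 := by
        rcases List.mem_cons.1 hσ with h' | h'
        · exact h'
        · exact absurd h' h
      subst h1'
      rw [List.count_cons_self, Finsupp.single_eq_same, List.count_eq_zero_of_not_mem h]
      have : (0 : ℝ) ≤ z.sum (fun c w => w * (c (1 : ℚ) : ℝ)) :=
        Finset.sum_nonneg (fun c _ => mul_nonneg (h2 c) (Nat.cast_nonneg _))
      push_cast
      linarith
  · have := hsum (fun _ => 1)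
    simp only [mul_one] at this
    rw [this, hv]

theorem opt_eq {I : List ℚ} (hI : IsInstance I) {k : ℕ} (h1 : Packable I (k + 1))
    (h2 : ¬ Packable I k) : OPT I = k + 1 :=
  le_antisymm (Nat.sInf_le h1) (opt_ge hI h2)

/-- an instance with `OPT = k + 1`, `LP ≤ v` gives one with `OPT = k + 1 + j`, `LP ≤ v + j` -/
theorem family {I : List ℚ} (hI : IsInstance I) {k : ℕ} {v : ℝ} (h1 : Packable I (k + 1))
    (h2 : ¬ Packable I k) (h3 : ∃ z, IsLPSolution I z ∧ v = z.sum (fun _ w => w)) (j : ℕ) :
    ∃ J : List ℚ, IsInstance J ∧ OPT J = k + j + 1 ∧ LP J ≤ v + j := by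
  have main : IsInstance (List.replicate j 1 ++ I) ∧ Packable (List.replicate j 1 ++ I) (k + j + 1) ∧
      ¬ Packable (List.replicate j 1 ++ I) (k + j) ∧
      ∃ z, IsLPSolution (List.replicate j 1 ++ I) z ∧ v + j = z.sum (fun _ w => w) := by
    induction j with
    | zero => simpa using ⟨hI, h1, h2, h3⟩
    | succ j ih =>
      obtain ⟨a, b, c, d⟩ := ih
      rw [List.replicate_succ, List.cons_append]
      refine ⟨?_, b.cons_one, fun h => c (Packable.of_cons_one a h), ?_⟩
      · intro x hx
        rcases List.mem_cons.1 hx with h | h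
        · rw [h]; norm_num
        · exact a x h
      · have := lpsol_cons_one d
        push_cast
        rw [← add_assoc]
        exact this
  obtain ⟨a, b, c, d⟩ := main
  exact ⟨_, a, opt_eq a b c, LP_le_of_sol d⟩

end Vale.Agent.P302
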