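import Mathlib

/-!
# Worlds of exact patterns

A world is given by a shape `s`, a multiset of classes.  A pattern of the world consists of items
(class, value) whose classes form the multiset `s` and whose values have a sum `≤ 0`.
-/

namespace Vale.Agent.P302.Gen

/-- a pattern of the world of shape `s` -/
def IsPat {k : ℕ} (s : Multiset (Fin k)) (P : Multiset (Fin k × ℤ)) : Prop :=
  P.map Prod.fst = s ∧ (P.map Prod.snd).sum ≤ 0

/-- a collection of patterns that uses every item of `X` at most as often as it occurs there -/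
def WPack {k : ℕ} (s : Multiset (Fin k)) (X : Multiset (Fin k × ℤ))
    (S : Multiset (Multiset (Fin k × ℤ))) : Prop :=
  (∀ P ∈ S, IsPat s P) ∧ S.join ≤ X

/-- there is a problem of the world of shape `s` whose integral optimum is at most `T` and which
has a fractional solution (an integral one for the `q`-fold problem) of value `V` -/
def WDef {k : ℕ} (s : Multiset (Fin k)) (T : ℕ) (V : ℚ) : Prop :=
  ∃ (X : Multiset (Fin k × ℤ)) (q : ℕ) (W : Multiset (Multiset (Fin k × ℤ))), 0 < q ∧
    (∀ S, WPack s X S → Multiset.card S ≤ T) ∧ WPack s (q • X) W ∧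
    (Multiset.card W : ℚ) = q * V

/-! ### lifting along maps -/

theorem exists_split {α β : Type*} (f : α → β) (P : Multiset β) :
    ∀ (R : Multiset β) (Y : Multiset α), P + R ≤ Y.map f →
      ∃ Y1 Y2 : Multiset α, Y1 + Y2 = Y ∧ Y1.map f = P ∧ R ≤ Y2.map f := by
  induction P using Multiset.induction with
  | empty =>
    intro R Y h
    exact ⟨0, Y, by simp, by simp, by simpa using h⟩
  | cons b P ih =>
    intro R Y h
    have hb : b ∈ Y.map f := by
      apply Multiset.mem_of_le h
      simp
    obtain ⟨a, ha, rfl⟩ := Multiset.mem_map.1 hb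
    obtain ⟨Y0, rfl⟩ := Multiset.exists_cons_of_mem ha
    rw [Multiset.map_cons, Multiset.cons_add] at h
    have h' : P + R ≤ Y0.map f := (Multiset.cons_le_cons_iff _).1 h
    obtain ⟨Y1, Y2, h1, h2, h3⟩ := ih R Y0 h'
    refine ⟨a ::ₘ Y1, Y2, ?_, ?_, h3⟩
    · rw [Multiset.cons_add, h1]
    · rw [Multiset.map_cons, h2]

theorem exists_lift {α β : Type*} (f : α → β) (S : Multiset (Multiset β)) :
    ∀ (Y : Multiset α), S.join ≤ Y.map f →
      ∃ S' : Multiset (Multiset α), S'.map (Multiset.map f) = S ∧ S'.join ≤ Y := by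
  induction S using Multiset.induction with
  | empty =>
    intro Y _
    exact ⟨0, by simp, by simp⟩
  | cons P S ih =>
    intro Y h
    rw [Multiset.join_cons] at h
    obtain ⟨Y1, Y2, h1, h2, h3⟩ := exists_split f P _ Y h
    obtain ⟨S', h4, h5⟩ := ih Y2 h3
    refine ⟨Y1 ::ₘ S', ?_, ?_⟩
    · rw [Multiset.map_cons, h4, h2]
    · rw [Multiset.join_cons, ← h1]
      exact add_le_add le_rfl h5

theorem join_map_map {α β : Type*} (f : α → β) (S : Multiset (Multiset α)) :
    (S.map (Multiset.map f)).join = S.join.map f := by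
  induction S using Multiset.induction with
  | empty => simp
  | cons P S ih =>
    rw [Multiset.map_cons, Multiset.join_cons, Multiset.join_cons, Multiset.map_add, ih]

theorem join_mono {α : Type*} {S S' : Multiset (Multiset α)} (h : S ≤ S') : S.join ≤ S'.join := by
  obtain ⟨T, rfl⟩ := Multiset.le_iff_exists_add.1 h
  rw [Multiset.join_add]
  exact Multiset.le_add_right _ _

theorem mem_join_of {α : Type*} {S : Multiset (Multiset α)} {P : Multiset α} {a : α}
    (hP : P ∈ S) (ha : a ∈ P) : a ∈ S.join := Multiset.mem_join.2 ⟨P, hP, ha⟩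

theorem join_nsmul {α : Type*} (a : ℕ) (S : Multiset (Multiset α)) :
    (a • S).join = a • S.join := by
  induction a with
  | zero => simp
  | succ a ih => rw [succ_nsmul, succ_nsmul, Multiset.join_add, ih]

theorem join_sum {α ι : Type*} (t : Finset ι) (S : ι → Multiset (Multiset α)) :
    (∑ i ∈ t, S i).join = ∑ i ∈ t, (S i).join := by
  classical
  induction t using Finset.induction_on with
  | empty => simp
  | insert i t hi ih => rw [Finset.sum_insert hi, Finset.sum_insert hi, Multiset.join_add, ih]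

theorem join_const {α : Type*} (S : Multiset (Multiset α)) (c : Multiset α)
    (h : ∀ P ∈ S, P = c) : S.join = S.card • c := by
  induction S using Multiset.induction with
  | empty => simp
  | cons P S ih =>
    rw [Multiset.join_cons, ih (fun Q hQ => h Q (Multiset.mem_cons_of_mem hQ)),
      h P (Multiset.mem_cons_self P S), Multiset.card_cons, succ_nsmul, add_comm]

/-! ### elementary properties of worlds -/

variable {k : ℕ} {s : Multiset (Fin k)}

theorem WPack.mono {X X' : Multiset (Fin k × ℤ)} {S : Multiset (Multiset (Fin k × ℤ))}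
    (h : WPack s X S) (hX : X ≤ X') : WPack s X' S := ⟨h.1, h.2.trans hX⟩

theorem WPack.nsmul {X : Multiset (Fin k × ℤ)} {S : Multiset (Multiset (Fin k × ℤ))}
    (h : WPack s X S) (a : ℕ) : WPack s (a • X) (a • S) := by
  refine ⟨fun P hP => h.1 P (Multiset.mem_of_mem_nsmul hP), ?_⟩
  rw [join_nsmul]
  exact nsmul_le_nsmul_right h.2 a

/-- items of classes that do not occur in the shape can be left out -/
theorem WDef.restrict {T : ℕ} {V : ℚ} (h : WDef s T V) :
    ∃ (X : Multiset (Fin k × ℤ)) (q : ℕ) (W : Multiset (Multiset (Fin k × ℤ))), 0 < q ∧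
    (∀ S, WPack s X S → Multiset.card S ≤ T) ∧ WPack s (q • X) W ∧
    (Multiset.card W : ℚ) = q * V ∧ ∀ t ∈ X, t.1 ∈ s := by
  classical
  obtain ⟨X, q, W, hq, h1, h2, h3⟩ := h
  refine ⟨X.filter (fun t => t.1 ∈ s), q, W, hq, fun S hS => h1 S (hS.mono (Multiset.filter_le _ _)),
    ⟨h2.1, ?_⟩, h3, fun t ht => (Multiset.mem_filter.1 ht).2⟩
  rw [← Multiset.filter_nsmul, Multiset.le_filter]
  refine ⟨h2.2, fun t ht => ?_⟩
  obtain ⟨P, hP, htP⟩ := Multiset.mem_join.1 ht
  rw [← (h2.1 P hP).1]
  exact Multiset.mem_map_of_mem _ htP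

/-- transport along an injection of the classes -/
theorem WDef.map {n : ℕ} {T : ℕ} {V : ℚ} (h : WDef s T V) (f : Fin k → Fin n)
    (hf : Function.Injective f) : WDef (s.map f) T V := by
  obtain ⟨X, q, W, hq, h1, h2, h3⟩ := h
  set e : Fin k × ℤ → Fin n × ℤ := fun t => (f t.1, t.2) with he
  have heinj : Function.Injective e := by
    intro a b hab
    simp only [he, Prod.mk.injEq] at hab
    exact Prod.ext (hf hab.1) hab.2
  have key : ∀ P : Multiset (Fin k × ℤ), IsPat (s.map f) (P.map e) ↔ IsPat s P := by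
    intro P
    unfold IsPat
    rw [Multiset.map_map, Multiset.map_map]
    have e1 : (Prod.fst ∘ e : Fin k × ℤ → Fin n) = f ∘ Prod.fst := rfl
    have e2 : (Prod.snd ∘ e : Fin k × ℤ → ℤ) = Prod.snd := rfl
    rw [e1, e2, ← Multiset.map_map]
    constructor
    · rintro ⟨h, h'⟩
      exact ⟨Multiset.map_injective hf h, h'⟩
    · rintro ⟨h, h'⟩
      exact ⟨by rw [h], h'⟩
  refine ⟨X.map e, q, W.map (Multiset.map e), hq, fun S hS => ?_, ⟨?_, ?_⟩, ?_⟩
  · obtain ⟨S', rfl, hS'⟩ := exists_lift e S X hS.2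
    rw [Multiset.card_map]
    exact h1 S' ⟨fun P hP => (key P).1 (hS.1 _ (Multiset.mem_map_of_mem _ hP)), hS'⟩
  · intro P hP
    obtain ⟨P', hP', rfl⟩ := Multiset.mem_map.1 hP
    exact (key P').2 (h2.1 P' hP')
  · rw [join_map_map, ← Multiset.map_nsmul]
    exact Multiset.map_le_map h2.2
  · rw [Multiset.card_map]
    exact h3

/-- for a finite family the denominators can be made equal -/
theorem common_denominator {m n : ℕ} (c : Fin m → Multiset (Fin n)) (T : Fin m → ℕ)
    (V : Fin m → ℚ) (h : ∀ j, WDef (c j) (T j) (V j)) :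
    ∃ (Q : ℕ) (X : Fin m → Multiset (Fin n × ℤ)) (W : Fin m → Multiset (Multiset (Fin n × ℤ))),
      0 < Q ∧ ∀ j, (∀ S, WPack (c j) (X j) S → Multiset.card S ≤ T j) ∧
        WPack (c j) (Q • X j) (W j) ∧ (Multiset.card (W j) : ℚ) = Q * V j ∧
        ∀ t ∈ X j, t.1 ∈ c j := by
  choose X q W hq h1 h2 h3 h4 using fun j => (h j).restrict
  have hdvd : ∀ j, q j ∣ ∏ i, q i := fun j => Finset.dvd_prod_of_mem q (Finset.mem_univ j)
  choose a ha using hdvd
  refine ⟨∏ i, q i, X, fun j => a j • W j, Finset.prod_pos (fun i _ => hq i), fun j =>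
    ⟨h1 j, ?_, ?_, h4 j⟩⟩
  · have := (h2 j).nsmul (a j)
    rwa [← mul_nsmul, ← ha j] at this
  · rw [Multiset.card_nsmul, ha j]
    push_cast
    rw [h3 j]
    ring

end Vale.Agent.P302.Gen
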