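import Vale.Agent.P302.H794.Gen1

/-!
# The potential bound

`h` is a potential on an abelian group `G`; items (lines) have a price `p`, a group value `φ`;
the capacities of the exact children have a price `lam` and a group value `ψ`.
-/

namespace Vale.Agent.P302.Gen

variable {n m : ℕ} {G : Type*} [AddCommGroup G]

/-- adding single items -/
theorem pot_items (p : Fin n → ℕ) (φ : Fin n → G) (h : G → ℕ)
    (hitem : ∀ g l, h (g + φ l) ≤ h g + p l) (u : Multiset (Fin n)) :
    ∀ g, h (g + (u.map φ).sum) ≤ h g + (u.map p).sum := by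
  induction u using Multiset.induction with
  | empty => intro g; simp
  | cons a u ih =>
    intro g
    rw [Multiset.map_cons, Multiset.sum_cons, Multiset.map_cons, Multiset.sum_cons, ← add_assoc]
    have h1 := ih (g + φ a)
    have h2 := hitem g a
    omega

theorem pot_caps_one (lam : Fin m → ℕ) (ψ : Fin m → G) (h : G → ℕ)
    (hcap : ∀ g j, h (g + ψ j) ≤ h g + lam j) (j : Fin m) (a : ℕ) :
    ∀ g, h (g + a • ψ j) ≤ h g + a * lam j := by
  induction a with
  | zero => intro g; simp
  | succ a ih =>
    intro g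
    have h1 := ih (g + ψ j)
    have h2 := hcap g j
    have e : g + (a + 1) • ψ j = g + ψ j + a • ψ j := by
      rw [succ_nsmul, add_assoc, add_comm (a • ψ j)]
    rw [e, add_mul, one_mul]
    omega

theorem pot_caps (lam : Fin m → ℕ) (ψ : Fin m → G) (h : G → ℕ)
    (hcap : ∀ g j, h (g + ψ j) ≤ h g + lam j) (a : Fin m → ℕ) (t : Finset (Fin m)) :
    ∀ g, h (g + ∑ j ∈ t, a j • ψ j) ≤ h g + ∑ j ∈ t, a j * lam j := by
  classical
  induction t using Finset.induction_on with
  | empty => intro g; simp
  | insert i t hi ih =>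
    intro g
    rw [Finset.sum_insert hi, Finset.sum_insert hi, ← add_assoc]
    have h1 := ih (g + a i • ψ i)
    have h2 := pot_caps_one lam ψ h hcap i (a i) g
    omega

/-- number of patterns with line multiset `c` -/
def cnt (c : Multiset (Fin n)) (S : Multiset (Multiset (Fin n × ℤ))) : ℕ :=
  (S.filter (fun P => P.map Prod.fst = c)).card

theorem cnt_cons (c : Multiset (Fin n)) (P : Multiset (Fin n × ℤ))
    (S : Multiset (Multiset (Fin n × ℤ))) :
    cnt c (P ::ₘ S) = cnt c S + (if P.map Prod.fst = c then 1 else 0) := by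
  unfold cnt
  by_cases h : P.map Prod.fst = c
  · rw [Multiset.filter_cons_of_pos (p := fun P => Multiset.map Prod.fst P = c) S h,
      Multiset.card_cons, if_pos h]
  · rw [Multiset.filter_cons_of_neg (p := fun P => Multiset.map Prod.fst P = c) S h, if_neg h,
      add_zero]

/-- the potential bound for a collection of patterns -/
theorem pot_packing (c : Fin m → Multiset (Fin n)) (hc : Function.Injective c)
    (p : Fin n → ℕ) (lam : Fin m → ℕ) (q : ℕ) (φ : Fin n → G) (ψ : Fin m → G) (h : G → ℕ)
    (Us : Multiset (Fin n) → Prop)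
    (hpat : ∀ x, Us x → (∀ j, x ≠ c j) → ∀ g, h (g + (x.map φ).sum) + q ≤ h g + (x.map p).sum)
    (hchild : ∀ j g, h (g + ((c j).map φ).sum + ψ j) + q ≤ h g + ((c j).map p).sum + lam j)
    (S : Multiset (Multiset (Fin n × ℤ))) (hS : ∀ P ∈ S, Us (P.map Prod.fst)) (g : G) :
    h (g + ((S.join.map Prod.fst).map φ).sum + ∑ j, cnt (c j) S • ψ j) + q * S.card ≤
      h g + ((S.join.map Prod.fst).map p).sum + ∑ j, cnt (c j) S * lam j := by
  classical
  induction S using Multiset.induction generalizing g with
  | empty => simp [cnt]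
  | cons P S ih =>
    have hP : Us (P.map Prod.fst) := hS P (Multiset.mem_cons_self P S)
    have hS' : ∀ P ∈ S, Us (P.map Prod.fst) := fun Q hQ => hS Q (Multiset.mem_cons_of_mem hQ)
    rw [Multiset.join_cons, Multiset.map_add, Multiset.map_add, Multiset.map_add, Multiset.sum_add,
      Multiset.sum_add, Multiset.card_cons]
    simp only [cnt_cons, add_smul, add_mul, Finset.sum_add_distrib]
    by_cases hx : ∀ j, P.map Prod.fst ≠ c j
    · have z1 : ∑ j, (if P.map Prod.fst = c j then 1 else 0) • ψ j = 0 := by
        apply Finset.sum_eq_zero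
        intro j _
        rw [if_neg (hx j), zero_smul]
      have z2 : ∑ j, (if P.map Prod.fst = c j then 1 else 0) * lam j = 0 := by
        apply Finset.sum_eq_zero
        intro j _
        rw [if_neg (hx j), zero_mul]
      rw [z1, z2, add_zero, add_zero]
      have h1 := ih hS' (g + (((P.map Prod.fst)).map φ).sum)
      have h2 := hpat _ hP hx g
      have e : g + (((P.map Prod.fst).map φ).sum + ((S.join.map Prod.fst).map φ).sum) +
          ∑ j, cnt (c j) S • ψ j = g + ((P.map Prod.fst).map φ).sum +
          ((S.join.map Prod.fst).map φ).sum + ∑ j, cnt (c j) S • ψ j := by abel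
      rw [e]
      rw [mul_add, mul_one]
      omega
    · push Not at hx
      obtain ⟨i, hi⟩ := hx
      have hne : ∀ j, P.map Prod.fst = c j ↔ j = i := by
        intro j
        rw [hi]
        constructor
        · intro h
          exact (hc h).symm
        · intro h
          rw [h]
      have z1 : ∑ j, (if P.map Prod.fst = c j then 1 else 0) • ψ j = ψ i := by
        rw [Finset.sum_eq_single i]
        · rw [if_pos ((hne i).2 rfl), one_smul]
        · intro j _ hj
          rw [if_neg (fun h => hj ((hne j).1 h)), zero_smul]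
        · intro h
          exact absurd (Finset.mem_univ i) h
      have z2 : ∑ j, (if P.map Prod.fst = c j then 1 else 0) * lam j = lam i := by
        rw [Finset.sum_eq_single i]
        · rw [if_pos ((hne i).2 rfl), one_mul]
        · intro j _ hj
          rw [if_neg (fun h => hj ((hne j).1 h)), zero_mul]
        · intro h
          exact absurd (Finset.mem_univ i) h
      rw [z1, z2]
      have h1 := ih hS' (g + (((P.map Prod.fst)).map φ).sum + ψ i)
      have h2 := hchild i g
      rw [← hi] at h2
      have e : g + (((P.map Prod.fst).map φ).sum + ((S.join.map Prod.fst).map φ).sum) +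
          (∑ j, cnt (c j) S • ψ j + ψ i) = g + ((P.map Prod.fst).map φ).sum + ψ i +
          ((S.join.map Prod.fst).map φ).sum + ∑ j, cnt (c j) S • ψ j := by abel
      rw [e]
      rw [mul_add, mul_one]
      omega

/-- the potential bound for a packing -/
theorem pot_bound (c : Fin m → Multiset (Fin n)) (hc : Function.Injective c)
    (p : Fin n → ℕ) (lam : Fin m → ℕ) (q : ℕ) (φ : Fin n → G) (ψ : Fin m → G) (h : G → ℕ)
    (h0 : h 0 = 0)
    (hitem : ∀ g l, h (g + φ l) ≤ h g + p l)
    (hcap : ∀ g j, h (g + ψ j) ≤ h g + lam j)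
    (Us : Multiset (Fin n) → Prop)
    (hpat : ∀ x, Us x → (∀ j, x ≠ c j) → ∀ g, h (g + (x.map φ).sum) + q ≤ h g + (x.map p).sum)
    (hchild : ∀ j g, h (g + ((c j).map φ).sum + ψ j) + q ≤ h g + ((c j).map p).sum + lam j)
    (S : Multiset (Multiset (Fin n × ℤ))) (hS : ∀ P ∈ S, Us (P.map Prod.fst))
    (T : Fin m → ℕ) (hT : ∀ j, cnt (c j) S ≤ T j) (N : Multiset (Fin n))
    (hN : S.join.map Prod.fst ≤ N) :
    h ((N.map φ).sum + ∑ j, T j • ψ j) + q * S.card ≤
      (N.map p).sum + ∑ j, T j * lam j := by
  classical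
  obtain ⟨u, rfl⟩ := Multiset.le_iff_exists_add.1 hN
  have h1 := pot_packing c hc p lam q φ ψ h Us hpat hchild S hS 0
  rw [h0, zero_add] at h1
  set g1 := ((S.join.map Prod.fst).map φ).sum + ∑ j, cnt (c j) S • ψ j with hg1
  have h2 := pot_items p φ h hitem u g1
  have h3 := pot_caps lam ψ h hcap (fun j => T j - cnt (c j) S) Finset.univ
    (g1 + (u.map φ).sum)
  have e1 : (((S.join.map Prod.fst) + u).map φ).sum + ∑ j, T j • ψ j =
      g1 + (u.map φ).sum + ∑ j, (T j - cnt (c j) S) • ψ j := by
    have : ∑ j, T j • ψ j = ∑ j, cnt (c j) S • ψ j + ∑ j, (T j - cnt (c j) S) • ψ j := by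
      rw [← Finset.sum_add_distrib]
      apply Finset.sum_congr rfl
      intro j _
      rw [← add_smul, Nat.add_sub_cancel' (hT j)]
    rw [this, Multiset.map_add, Multiset.sum_add, hg1]
    abel
  have e2 : ∑ j, T j * lam j = ∑ j, cnt (c j) S * lam j + ∑ j, (T j - cnt (c j) S) * lam j := by
    rw [← Finset.sum_add_distrib]
    apply Finset.sum_congr rfl
    intro j _
    rw [← add_mul, Nat.add_sub_cancel' (hT j)]
  rw [e1, e2, Multiset.map_add, Multiset.sum_add]
  omega

end Vale.Agent.P302.Gen
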