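import Vale.Agent.P302.H794.Gen2

/-!
# Generic nodes of inner worlds

A node of the world of shape `s`: lines with class `κ` and coarse value `v`; exact children `c j`;
tight patterns `P i`; a potential `h` with prices.
-/

namespace Vale.Agent.P302.Gen

structure InnerNode (k n m r : ℕ) (G : Type) [AddCommGroup G] where
  s : Multiset (Fin k)
  κ : Fin n → Fin k
  v : Fin n → ℤ
  c : Fin m → Multiset (Fin n)
  P : Fin r → Multiset (Fin n)
  p : Fin n → ℕ
  lam : Fin m → ℕ
  q : ℕ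
  φ : Fin n → G
  ψ : Fin m → G
  h : G → ℕ
  Δ : ℕ
  δ : Fin m → Fin r → ℤ
  ζ : Fin m → Fin n → ℤ
  γ : Fin r → ℤ
  ζ0 : Fin n → ℤ
  g0 : Fin n → ℤ
  q_pos : 0 < q
  Δ_pos : 0 < Δ
  c_inj : Function.Injective c
  c_disj : ∀ i j, i ≠ j → ∀ l ∈ c i, l ∉ c j
  c_shape : ∀ j, (c j).map κ = s
  c_val : ∀ j, ((c j).map v).sum = 0
  c_price : ∀ j, ((c j).map p).sum + lam j = q
  c_φ : ∀ j, ((c j).map φ).sum + ψ j = 0
  P_shape : ∀ i, (P i).map κ = s
  P_val : ∀ i, ((P i).map v).sum < 0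
  P_price : ∀ i, ((P i).map p).sum = q
  P_φ : ∀ i, ((P i).map φ).sum = 0
  h_zero : h 0 = 0
  h_item : ∀ g l, h (g + φ l) ≤ h g + p l
  h_cap : ∀ g j, h (g + ψ j) ≤ h g + lam j
  h_pat : ∀ x : Multiset (Fin n), x.map κ = s → (x.map v).sum ≤ 0 → (∀ j, x ≠ c j) →
    ∀ g, h (g + (x.map φ).sum) + q ≤ h g + (x.map p).sum
  span_c : ∀ j l, (Δ : ℤ) * (c j).count l = ∑ i, δ j i * (P i).count l + ζ j l
  span_g : ∀ l, (Δ : ℤ) * g0 l = ∑ i, γ i * (P i).count l + ζ0 l
  free : ∀ l, ((∀ j, ζ j l = 0) ∧ ζ0 l = 0) ∨ (p l = 0 ∧ φ l = 0)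
  cover : ∀ l, (∃ i, l ∈ P i) ∨ (p l = 0 ∧ φ l = 0)

/-- group value of the class of the node -/
def InnerNode.cls {k n m r : ℕ} {G : Type} [AddCommGroup G] (D : InnerNode k n m r G) : G :=
  ∑ l, D.g0 l • D.φ l

/-! ### bookkeeping lemmas -/

theorem abs_sum_le {ι : Type*} (P : Multiset (ι × ℤ)) (E : ℤ)
    (h : ∀ t ∈ P, -E ≤ t.2 ∧ t.2 ≤ E) :
    -(P.card * E) ≤ (P.map Prod.snd).sum ∧ (P.map Prod.snd).sum ≤ P.card * E := by
  induction P using Multiset.induction with
  | empty => simp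
  | cons a P ih =>
    have h1 := ih (fun t ht => h t (Multiset.mem_cons_of_mem ht))
    have h2 := h a (Multiset.mem_cons_self a P)
    rw [Multiset.map_cons, Multiset.sum_cons, Multiset.card_cons]
    push_cast
    constructor <;> nlinarith [h1.1, h1.2, h2.1, h2.2]

/-- encoding of (line, fine part) -/
def enc {k n : ℕ} (κ : Fin n → Fin k) (v : Fin n → ℤ) (B : ℤ) (t : Fin n × ℤ) : Fin k × ℤ :=
  (κ t.1, B * v t.1 + t.2)

theorem enc_fst {k n : ℕ} (κ : Fin n → Fin k) (v : Fin n → ℤ) (B : ℤ)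
    (P : Multiset (Fin n × ℤ)) : (P.map (enc κ v B)).map Prod.fst = (P.map Prod.fst).map κ := by
  rw [Multiset.map_map, Multiset.map_map]
  rfl

theorem enc_snd {k n : ℕ} (κ : Fin n → Fin k) (v : Fin n → ℤ) (B : ℤ)
    (P : Multiset (Fin n × ℤ)) : ((P.map (enc κ v B)).map Prod.snd).sum =
      B * ((P.map Prod.fst).map v).sum + (P.map Prod.snd).sum := by
  rw [Multiset.map_map, Multiset.map_map]
  induction P using Multiset.induction with
  | empty => simp
  | cons a P ih =>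
    simp only [Multiset.map_cons, Multiset.sum_cons, ih, Function.comp, enc]
    ring

theorem decode {k n : ℕ} {s : Multiset (Fin k)} {κ : Fin n → Fin k} {v : Fin n → ℤ} {E : ℤ}
    (hE : 0 ≤ E)
    {P : Multiset (Fin n × ℤ)} (hP : ∀ t ∈ P, -E ≤ t.2 ∧ t.2 ≤ E)
    (h : IsPat s (P.map (enc κ v (s.card * E + 1)))) :
    (P.map Prod.fst).map κ = s ∧ ((P.map Prod.fst).map v).sum ≤ 0 ∧
      (((P.map Prod.fst).map v).sum = 0 → (P.map Prod.snd).sum ≤ 0) := by
  obtain ⟨h1, h2⟩ := h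
  rw [enc_fst] at h1
  rw [enc_snd] at h2
  have hc : P.card = s.card := by
    rw [← h1]
    simp
  have h3 := abs_sum_le P E hP
  rw [hc] at h3
  refine ⟨h1, ?_, ?_⟩
  · by_contra hcon
    push Not at hcon
    have : (1 : ℤ) ≤ ((P.map Prod.fst).map v).sum := hcon
    have hpos : (0 : ℤ) ≤ s.card * E + 1 := by positivity
    nlinarith
  · intro h4
    rw [h4, mul_zero, zero_add] at h2
    exact h2

theorem encode_neg {k n : ℕ} {s : Multiset (Fin k)} {κ : Fin n → Fin k} {v : Fin n → ℤ} {E : ℤ}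
    (hE : 0 ≤ E)
    {P : Multiset (Fin n × ℤ)} (hP : ∀ t ∈ P, -E ≤ t.2 ∧ t.2 ≤ E)
    (h1 : (P.map Prod.fst).map κ = s) (h2 : ((P.map Prod.fst).map v).sum < 0) :
    IsPat s (P.map (enc κ v (s.card * E + 1))) := by
  refine ⟨by rw [enc_fst, h1], ?_⟩
  rw [enc_snd]
  have hc : P.card = s.card := by
    rw [← h1]
    simp
  have h3 := abs_sum_le P E hP
  rw [hc] at h3
  have : ((P.map Prod.fst).map v).sum ≤ -1 := by omega
  have hpos : (0 : ℤ) ≤ s.card * E + 1 := by positivity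
  nlinarith

theorem encode_zero {k n : ℕ} {s : Multiset (Fin k)} {κ : Fin n → Fin k} {v : Fin n → ℤ} {B : ℤ}
    {P : Multiset (Fin n × ℤ)}
    (h1 : (P.map Prod.fst).map κ = s) (h2 : ((P.map Prod.fst).map v).sum = 0)
    (h3 : (P.map Prod.snd).sum ≤ 0) :
    IsPat s (P.map (enc κ v B)) := by
  refine ⟨by rw [enc_fst, h1], ?_⟩
  rw [enc_snd, h2, mul_zero, zero_add]
  exact h3

/-- the number of exact patterns of a child is at most the optimum of the child -/
theorem child_bound {n m : ℕ} (c : Fin m → Multiset (Fin n))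
    (c_disj : ∀ i j, i ≠ j → ∀ l ∈ c i, l ∉ c j)
    (X : Fin m → Multiset (Fin n × ℤ)) (hX : ∀ j, ∀ t ∈ X j, t.1 ∈ c j)
    (Φ E : ℤ) (hΦ : ∀ j, ∀ t ∈ X j, -Φ ≤ t.2) (hΦ0 : 0 ≤ Φ)
    (j : Fin m) (hE : (c j).card * Φ < E)
    (a : Fin n → ℕ) (T : ℕ) (hT : ∀ S, WPack (c j) (X j) S → Multiset.card S ≤ T)
    (S : Multiset (Multiset (Fin n × ℤ)))
    (hS : S.join ≤ ∑ i, X i + ∑ l, Multiset.replicate (a l) (l, E))
    (hS' : ∀ P ∈ S, P.map Prod.fst = c j → (P.map Prod.snd).sum ≤ 0) :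
    cnt (c j) S ≤ T := by
  classical
  apply hT
  set S1 := S.filter (fun P => P.map Prod.fst = c j) with hS1
  have hjoin : S1.join ≤ ∑ i, X i + ∑ l, Multiset.replicate (a l) (l, E) :=
    (join_mono (Multiset.filter_le _ _)).trans hS
  have hmem : ∀ P ∈ S1, P ∈ S ∧ P.map Prod.fst = c j := fun P hP => Multiset.mem_filter.1 hP
  have hall : ∀ t ∈ ∑ i, X i + ∑ l, Multiset.replicate (a l) (l, E), -Φ ≤ t.2 := by
    intro t ht
    rcases Multiset.mem_add.1 ht with h | h
    · rw [Multiset.mem_sum] at h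
      obtain ⟨i, -, hi⟩ := h
      exact hΦ i t hi
    · rw [Multiset.mem_sum] at h
      obtain ⟨l, -, hl⟩ := h
      rw [Multiset.eq_of_mem_replicate hl]
      have : (0 : ℤ) ≤ (c j).card * Φ := by positivity
      show -Φ ≤ E
      linarith
  have hnoE : ∀ t ∈ S1.join, t.2 ≠ E := by
    intro t ht hte
    obtain ⟨P, hP, htP⟩ := Multiset.mem_join.1 ht
    obtain ⟨P0, rfl⟩ := Multiset.exists_cons_of_mem htP
    obtain ⟨h1, h2⟩ := hmem _ hP
    have h3 := hS' _ h1 h2
    rw [Multiset.map_cons, Multiset.sum_cons, hte] at h3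
    have h4 : -(P0.card * Φ) ≤ (P0.map Prod.snd).sum := by
      have : ∀ u ∈ P0, -Φ ≤ u.2 := fun u hu => hall u (Multiset.mem_of_le hjoin
        (mem_join_of hP (Multiset.mem_cons_of_mem hu)))
      clear h3 hte htP h1 h2 hP
      induction P0 using Multiset.induction with
      | empty => simp
      | cons b P0 ih =>
        have h1 := ih (fun u hu => this u (Multiset.mem_cons_of_mem hu))
        have h2 := this b (Multiset.mem_cons_self b P0)
        rw [Multiset.map_cons, Multiset.sum_cons, Multiset.card_cons]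
        push_cast
        linarith
    have h5 : (P0.card : ℤ) + 1 = (c j).card := by
      rw [← h2]
      simp
    have h6 : (P0.card : ℤ) * Φ ≤ (c j).card * Φ := by
      apply mul_le_mul_of_nonneg_right _ hΦ0
      linarith
    linarith
  refine ⟨fun P hP => ⟨(hmem P hP).2, hS' P (hmem P hP).1 (hmem P hP).2⟩, ?_⟩
  rw [Multiset.le_iff_count]
  intro t
  by_cases ht : t ∈ S1.join
  · have h1 := Multiset.le_iff_count.1 hjoin t
    obtain ⟨P, hP, htP⟩ := Multiset.mem_join.1 ht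
    have ht1 : t.1 ∈ c j := by
      rw [← (hmem P hP).2]
      exact Multiset.mem_map_of_mem _ htP
    rw [Multiset.count_add, Multiset.count_sum', Multiset.count_sum'] at h1
    have h2 : ∑ i, Multiset.count t (X i) = Multiset.count t (X j) := by
      apply Finset.sum_eq_single j
      · intro i _ hi
        apply Multiset.count_eq_zero_of_notMem
        intro hti
        exact c_disj i j hi t.1 (hX i t hti) ht1
      · intro h
        exact absurd (Finset.mem_univ j) h
    have h3 : ∑ l, Multiset.count t (Multiset.replicate (a l) (l, E)) = 0 := by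
      apply Finset.sum_eq_zero
      intro l _
      apply Multiset.count_eq_zero_of_notMem
      intro htl
      have := Multiset.eq_of_mem_replicate htl
      exact hnoE t ht (by rw [this])
    rw [h2, h3, add_zero] at h1
    exact h1
  · rw [Multiset.count_eq_zero_of_notMem ht]
    exact Nat.zero_le _

end Vale.Agent.P302.Gen
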