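import Vale.Agent.P302.H794.Gen3
import Vale.Agent.P302.H794.Tags

/-!
# The step theorem for inner nodes
-/

namespace Vale.Agent.P302.Gen

theorem sum_count {n : ℕ} {A : Type*} [AddCommMonoid A] (f : Fin n → A) (x : Multiset (Fin n)) :
    (x.map f).sum = ∑ l, x.count l • f l := by
  induction x using Multiset.induction with
  | empty => simp
  | cons a x ih =>
    rw [Multiset.map_cons, Multiset.sum_cons, ih]
    simp only [Multiset.count_cons, add_smul, Finset.sum_add_distrib]
    rw [add_comm (f a)]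
    congr 1
    rw [Finset.sum_eq_single a]
    · simp
    · intro b _ hb
      rw [if_neg hb, zero_smul]
    · intro h
      exact absurd (Finset.mem_univ a) h

theorem mset_map_sum {α β ι : Type*} (g : α → β) (t : Finset ι) (f : ι → Multiset α) :
    (∑ i ∈ t, f i).map g = ∑ i ∈ t, (f i).map g := by
  classical
  induction t using Finset.induction_on with
  | empty => simp
  | insert i t hi ih => rw [Finset.sum_insert hi, Finset.sum_insert hi, Multiset.map_add, ih]

theorem count_map_fst_extras {n : ℕ} (a : Fin n → ℕ) (E : ℤ) (l : Fin n) :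
    ((∑ i, Multiset.replicate (a i) ((i, E) : Fin n × ℤ)).map Prod.fst).count l = a l := by
  rw [mset_map_sum, Multiset.count_sum']
  rw [Finset.sum_eq_single l]
  · simp [Multiset.map_replicate, Multiset.count_replicate_self]
  · intro b _ hb
    rw [Multiset.map_replicate]
    apply Multiset.count_eq_zero_of_notMem
    intro h
    exact hb (Multiset.eq_of_mem_replicate h).symm
  · intro h
    exact absurd (Finset.mem_univ l) h

theorem natAbs_bound (A : ℤ) (M c : ℕ) (hM : A.natAbs ≤ M) (hc : 1 ≤ c) : 0 ≤ A + M * c := by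
  have h1 : (A.natAbs : ℤ) ≤ M := by exact_mod_cast hM
  have h2 : -A ≤ (A.natAbs : ℤ) := by omega
  have h3 : (M : ℤ) ≤ M * c := by
    have : (1 : ℤ) ≤ c := by exact_mod_cast hc
    have h0 : (0 : ℤ) ≤ M := Int.natCast_nonneg M
    nlinarith
  linarith

variable {k n m r : ℕ} {G : Type} [AddCommGroup G]

theorem InnerNode.step (D : InnerNode k n m r G) (T : Fin m → ℕ) (V : Fin m → ℚ)
    (hD : ∀ j, WDef (D.c j) (T j) (V j)) :
    ∃ (T' : ℕ) (V' : ℚ), WDef D.s T' V' ∧
      ((D.h D.cls : ℚ) + ∑ j, (D.lam j : ℚ) * (V j - T j)) / D.q ≤ V' - T' := by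
  classical
  obtain ⟨Q, X, W, hQ, hXW⟩ := common_denominator D.c T V hD
  have hXT := fun j => (hXW j).1
  have hW := fun j => (hXW j).2.1
  have hV := fun j => (hXW j).2.2.1
  have hXc := fun j => (hXW j).2.2.2
  set u : Fin m → ℕ := fun j => (W j).card with hu
  have hWj : ∀ j, (W j).join.map Prod.fst = u j • D.c j := by
    intro j
    rw [← join_map_map, join_const _ (D.c j), Multiset.card_map]
    intro P hP
    obtain ⟨P', hP', rfl⟩ := Multiset.mem_map.1 hP
    exact ((hW j).1 P' hP').1
  -- bounds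
  obtain ⟨Φ, hΦ⟩ := Tags.exists_bound ((∑ j, X j).map Prod.snd)
  have hΦX : ∀ j, ∀ t ∈ X j, -(Φ : ℤ) ≤ t.2 ∧ t.2 ≤ Φ := by
    intro j t ht
    apply hΦ
    apply Multiset.mem_map_of_mem
    rw [Multiset.mem_sum]
    exact ⟨j, Finset.mem_univ j, ht⟩
  set E : ℤ := D.s.card * Φ + 1 with hE
  have hE1 : (Φ : ℤ) ≤ D.s.card * Φ + 1 ∨ D.s.card = 0 := by
    rcases Nat.eq_zero_or_pos D.s.card with h | h
    · right; exact h
    · left
      have : (1 : ℤ) ≤ D.s.card := by exact_mod_cast h
      nlinarith [Int.natCast_nonneg Φ]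
  have hE0 : 0 ≤ E := by positivity
  have hccard : ∀ j, (D.c j).card = D.s.card := by
    intro j
    rw [← D.c_shape j]
    simp
  have hΦE : ∀ j, ∀ t ∈ X j, -E ≤ t.2 ∧ t.2 ≤ E := by
    intro j t ht
    rcases hE1 with h | h
    · have := hΦX j t ht
      rw [← hE] at h
      constructor <;> linarith [this.1, this.2]
    · exfalso
      have h1 := hXc j t ht
      have h2 := hccard j
      rw [h] at h2
      rw [Multiset.card_eq_zero.1 h2] at h1
      simp at h1
  -- the free lines
  set z : Fin n → ℕ := fun l => if D.p l = 0 ∧ D.φ l = 0 then 1 else 0 with hz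
  set cov : Fin n → ℕ := fun l => ∑ i, (D.P i).count l + z l with hcov
  have hcov1 : ∀ l, 1 ≤ cov l := by
    intro l
    rcases D.cover l with ⟨i, hi⟩ | h
    · have h1 : 1 ≤ (D.P i).count l := Multiset.one_le_count_iff_mem.2 hi
      have h2 : (D.P i).count l ≤ ∑ i, (D.P i).count l :=
        Finset.single_le_sum (f := fun i => (D.P i).count l) (fun _ _ => Nat.zero_le _)
          (Finset.mem_univ i)
      simp only [hcov]
      omega
    · simp only [hcov, hz, if_pos h]
      omega
  set xc : Fin n → ℕ := fun l => ((∑ j, X j).map Prod.fst).count l with hxc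
  set A : Fin n → ℤ := fun l => ∑ j, (T j : ℤ) * (D.c j).count l + D.g0 l - xc l with hA
  set Bq : Fin r → ℤ := fun i => Q * D.γ i - ∑ j, ((u j : ℤ) - Q * T j) * D.δ j i with hBq
  set Cl : Fin n → ℤ := fun l => Q * D.ζ0 l - ∑ j, ((u j : ℤ) - Q * T j) * D.ζ j l with hCl
  set M : ℕ := ∑ l, (A l).natAbs + ∑ i, (Bq i).natAbs + ∑ l, (Cl l).natAbs with hM
  have hMA : ∀ l, (A l).natAbs ≤ M := by
    intro l
    have := Finset.single_le_sum (f := fun l => (A l).natAbs) (fun _ _ => Nat.zero_le _)
      (Finset.mem_univ l)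
    omega
  have hMB : ∀ i, (Bq i).natAbs ≤ M := by
    intro l
    have := Finset.single_le_sum (f := fun l => (Bq l).natAbs) (fun _ _ => Nat.zero_le _)
      (Finset.mem_univ l)
    omega
  have hMC : ∀ l, (Cl l).natAbs ≤ M := by
    intro l
    have := Finset.single_le_sum (f := fun l => (Cl l).natAbs) (fun _ _ => Nat.zero_le _)
      (Finset.mem_univ l)
    omega
  set a : Fin n → ℕ := fun l => (A l + M * cov l).toNat with ha
  have haz : ∀ l, (a l : ℤ) = A l + M * cov l := by
    intro l
    simp only [ha]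
    exact Int.toNat_of_nonneg (natAbs_bound _ _ _ (hMA l) (hcov1 l))
  set w : Fin r → ℕ := fun i => (Bq i + M * (Q * D.Δ : ℕ)).toNat with hw
  have hQΔ : 1 ≤ Q * D.Δ := Nat.mul_pos hQ D.Δ_pos
  have hwz : ∀ i, (w i : ℤ) = Bq i + M * (Q * D.Δ : ℕ) := by
    intro i
    simp only [hw]
    exact Int.toNat_of_nonneg (natAbs_bound _ _ _ (hMB i) hQΔ)
  -- the items
  set Y : Multiset (Fin n × ℤ) := ∑ j, X j + ∑ l, Multiset.replicate (a l) (l, E) with hY
  have hYb : ∀ t ∈ Y, -E ≤ t.2 ∧ t.2 ≤ E := by
    intro t ht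
    rcases Multiset.mem_add.1 ht with h | h
    · rw [Multiset.mem_sum] at h
      obtain ⟨i, -, hi⟩ := h
      exact hΦE i t hi
    · rw [Multiset.mem_sum] at h
      obtain ⟨l, -, hl⟩ := h
      rw [Multiset.eq_of_mem_replicate hl]
      constructor
      · show -E ≤ E
        linarith
      · exact le_rfl
  have hN : ∀ l, (((Y.map Prod.fst).count l : ℕ) : ℤ) =
      ∑ j, (T j : ℤ) * (D.c j).count l + D.g0 l + M * cov l := by
    intro l
    rw [hY, Multiset.map_add, Multiset.count_add, count_map_fst_extras]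
    push_cast
    rw [haz l]
    simp only [hA, hxc]
    ring
  -- group value and price of the instance
  have hzφ : ∀ l, z l • D.φ l = 0 := by
    intro l
    simp only [hz]
    split_ifs with h
    · rw [h.2, smul_zero]
    · rw [zero_smul]
  have hcls : ((Y.map Prod.fst).map D.φ).sum + ∑ j, T j • D.ψ j = D.cls := by
    rw [sum_count]
    have h1 : ∀ l, (Y.map Prod.fst).count l • D.φ l =
        ∑ j, T j • ((D.c j).count l • D.φ l) + D.g0 l • D.φ l +
        (M • ∑ i, (D.P i).count l • D.φ l) := by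
      intro l
      have h2 : (Y.map Prod.fst).count l • D.φ l =
          (((Y.map Prod.fst).count l : ℕ) : ℤ) • D.φ l := (natCast_zsmul _ _).symm
      rw [h2, hN l, add_smul, add_smul, Finset.sum_smul]
      have h3 : ∀ j, ((T j : ℤ) * (D.c j).count l) • D.φ l = T j • ((D.c j).count l • D.φ l) := by
        intro j
        rw [mul_smul, natCast_zsmul, natCast_zsmul]
      rw [Finset.sum_congr rfl (fun j _ => h3 j)]
      congr 1
      rw [mul_smul, natCast_zsmul, natCast_zsmul]
      congr 1
      simp only [hcov]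
      rw [add_smul, hzφ l, add_zero, Finset.sum_smul]
    rw [Finset.sum_congr rfl (fun l _ => h1 l), Finset.sum_add_distrib, Finset.sum_add_distrib]
    rw [← Finset.smul_sum, Finset.sum_comm (s := Finset.univ) (t := Finset.univ)
      (f := fun l i => (D.P i).count l • D.φ l)]
    have h4 : ∀ i, ∑ l, (D.P i).count l • D.φ l = 0 := by
      intro i
      rw [← sum_count, D.P_φ i]
    rw [Finset.sum_congr rfl (fun i _ => h4 i), Finset.sum_const_zero, smul_zero, add_zero]
    rw [Finset.sum_comm (s := Finset.univ) (t := Finset.univ)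
      (f := fun l j => T j • ((D.c j).count l • D.φ l))]
    have h5 : ∀ j, ∑ l, T j • ((D.c j).count l • D.φ l) = T j • ((D.c j).map D.φ).sum := by
      intro j
      rw [← Finset.smul_sum, sum_count]
    rw [Finset.sum_congr rfl (fun j _ => h5 j), add_right_comm, ← Finset.sum_add_distrib]
    have h6 : ∀ j, T j • ((D.c j).map D.φ).sum + T j • D.ψ j = 0 := by
      intro j
      rw [← smul_add, D.c_φ j, smul_zero]
    rw [Finset.sum_congr rfl (fun j _ => h6 j), Finset.sum_const_zero, zero_add]
    rfl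
  -- the new problem
  set B : ℤ := D.s.card * E + 1 with hB
  set X' : Multiset (Fin k × ℤ) := Y.map (enc D.κ D.v B) with hX'
  set pN : ℕ := ((Y.map Prod.fst).map D.p).sum with hpN
  set T' : ℕ := (pN + ∑ j, T j * D.lam j - D.h D.cls) / D.q with hT'
  have hup : ∀ S, WPack D.s X' S → Multiset.card S ≤ T' := by
    intro S hS
    obtain ⟨S', rfl, hS'⟩ := exists_lift _ S Y hS.2
    rw [Multiset.card_map]
    have hgood : ∀ P ∈ S', (P.map Prod.fst).map D.κ = D.s ∧ ((P.map Prod.fst).map D.v).sum ≤ 0 ∧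
      (((P.map Prod.fst).map D.v).sum = 0 → (P.map Prod.snd).sum ≤ 0) := by
      intro P hP
      apply decode hE0 (fun t ht => hYb t (Multiset.mem_of_le hS' (mem_join_of hP ht)))
      exact hS.1 _ (Multiset.mem_map_of_mem _ hP)
    have hcount : ∀ j, cnt (D.c j) S' ≤ T j := by
      intro j
      refine child_bound D.c D.c_disj X hXc Φ E (fun i t ht => (hΦX i t ht).1)
        (Int.natCast_nonneg Φ) j ?_ a (T j) (hXT j) S' hS' ?_
      · rw [hccard j, hE]
        linarith
      · intro P hP hPc
        apply (hgood P hP).2.2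
        rw [hPc, D.c_val j]
    have h1 := pot_bound D.c D.c_inj D.p D.lam D.q D.φ D.ψ D.h D.h_zero D.h_item D.h_cap
      (fun x => x.map D.κ = D.s ∧ (x.map D.v).sum ≤ 0)
      (fun x hx hxc => D.h_pat x hx.1 hx.2 hxc)
      (fun j g => by
        rw [add_assoc, D.c_φ j, add_zero]
        have := D.c_price j
        omega) S' (fun P hP => ⟨(hgood P hP).1, (hgood P hP).2.1⟩) T hcount
      (Y.map Prod.fst) (Multiset.map_le_map hS')
    rw [hcls] at h1
    rw [hT', Nat.le_div_iff_mul_le D.q_pos, mul_comm]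
    omega
  have hT'q : (T' : ℚ) * D.q ≤ pN + ∑ j, (T j : ℚ) * D.lam j - D.h D.cls := by
    have h0 := pot_bound D.c D.c_inj D.p D.lam D.q D.φ D.ψ D.h D.h_zero D.h_item D.h_cap
      (fun x => x.map D.κ = D.s ∧ (x.map D.v).sum ≤ 0)
      (fun x hx hxc => D.h_pat x hx.1 hx.2 hxc)
      (fun j g => by
        rw [add_assoc, D.c_φ j, add_zero]
        have := D.c_price j
        omega) 0 (fun P hP => absurd hP (Multiset.notMem_zero P)) T (fun j => by simp [cnt])
      (Y.map Prod.fst) (by simp)
    rw [hcls, Multiset.card_zero, mul_zero, add_zero] at h0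
    have h1 : T' * D.q ≤ pN + ∑ j, T j * D.lam j - D.h D.cls := Nat.div_mul_le_self _ _
    have h2 : T' * D.q + D.h D.cls ≤ pN + ∑ j, T j * D.lam j := by omega
    have h3 : ((T' * D.q + D.h D.cls : ℕ) : ℚ) ≤ ((pN + ∑ j, T j * D.lam j : ℕ) : ℚ) := by
      exact_mod_cast h2
    push_cast at h3
    linarith
  -- the fractional solution
  set W1 : Multiset (Multiset (Fin n × ℤ)) := ∑ j, D.Δ • W j with hW1
  have hXY : ∑ j, X j ≤ Y := Multiset.le_add_right _ _
  have hW1join : W1.join ≤ (Q * D.Δ) • Y := by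
    rw [hW1, join_sum]
    have h1 : ∑ j, (D.Δ • W j).join ≤ ∑ j, D.Δ • (Q • X j) := by
      apply Finset.sum_le_sum
      intro j _
      rw [join_nsmul]
      exact nsmul_le_nsmul_right (hW j).2 _
    refine h1.trans ?_
    have h2 : ∑ j, D.Δ • (Q • X j) = (Q * D.Δ) • ∑ j, X j := by
      rw [Finset.smul_sum]
      apply Finset.sum_congr rfl
      intro j _
      rw [← mul_nsmul]
    rw [h2]
    exact nsmul_le_nsmul_right hXY _
  obtain ⟨R, hR⟩ := Multiset.le_iff_exists_add.1 hW1join
  set L : Multiset (Multiset (Fin n)) := ∑ i, Multiset.replicate (w i) (D.P i) with hL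
  have hLcount : ∀ l, (L.join).count l = ∑ i, w i * (D.P i).count l := by
    intro l
    rw [hL, join_sum, Multiset.count_sum']
    apply Finset.sum_congr rfl
    intro i _
    rw [Tags.join_replicate, Multiset.count_nsmul]
  have hW1count : ∀ l, (W1.join.map Prod.fst).count l = ∑ j, D.Δ * (u j * (D.c j).count l) := by
    intro l
    rw [hW1, join_sum, mset_map_sum, Multiset.count_sum']
    apply Finset.sum_congr rfl
    intro j _
    rw [join_nsmul, Multiset.map_nsmul, Multiset.count_nsmul, hWj j, Multiset.count_nsmul]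
  have hzC : ∀ l, 0 ≤ Cl l + M * ((Q * D.Δ) * z l : ℕ) ∧
      (D.p l : ℤ) * (Cl l + M * ((Q * D.Δ) * z l : ℕ)) = 0 := by
    intro l
    by_cases h : D.p l = 0 ∧ D.φ l = 0
    · have hz1 : z l = 1 := by simp only [hz, if_pos h]
      rw [hz1, mul_one]
      refine ⟨natAbs_bound _ _ _ (hMC l) hQΔ, ?_⟩
      rw [h.1]
      simp
    · have hz0 : z l = 0 := by simp only [hz, if_neg h]
      have hf := (D.free l).resolve_right h
      have hC0 : Cl l = 0 := by
        simp only [hCl]
        rw [hf.2, mul_zero, zero_sub, neg_eq_zero]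
        apply Finset.sum_eq_zero
        intro j _
        rw [hf.1 j, mul_zero]
      rw [hz0, hC0]
      simp
  have hkey : ∀ l, (∑ i, (w i : ℤ) * (D.P i).count l) +
      ∑ j, (D.Δ : ℤ) * (u j * (D.c j).count l) + (Cl l + M * ((Q * D.Δ) * z l : ℕ)) =
      (Q * D.Δ : ℕ) * ((Y.map Prod.fst).count l : ℤ) := by
    intro l
    rw [hN l]
    have e1 : ∑ i, (w i : ℤ) * (D.P i).count l =
        Q * ∑ i, D.γ i * (D.P i).count l -
          ∑ j, ((u j : ℤ) - Q * T j) * ∑ i, D.δ j i * (D.P i).count l +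
          M * (Q * D.Δ : ℕ) * ∑ i, ((D.P i).count l : ℤ) := by
      simp only [hwz, hBq, Finset.mul_sum]
      rw [Finset.sum_comm (s := (Finset.univ : Finset (Fin m))), ← Finset.sum_sub_distrib,
        ← Finset.sum_add_distrib]
      apply Finset.sum_congr rfl
      intro i _
      rw [add_mul, sub_mul, Finset.sum_mul]
      congr 1
      congr 1
      · ring
      · apply Finset.sum_congr rfl
        intro j _
        ring
    have e2 : ∀ j, ∑ i, D.δ j i * ((D.P i).count l : ℤ) = D.Δ * (D.c j).count l - D.ζ j l := by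
      intro j
      have := D.span_c j l
      linarith
    have e3 : ∑ i, D.γ i * ((D.P i).count l : ℤ) = D.Δ * D.g0 l - D.ζ0 l := by
      have := D.span_g l
      linarith
    rw [e1, e3]
    simp only [e2]
    have e4 : ∑ j, ((u j : ℤ) - Q * T j) * (D.Δ * (D.c j).count l - D.ζ j l) =
        D.Δ * ∑ j, (u j : ℤ) * (D.c j).count l - Q * D.Δ * ∑ j, (T j : ℤ) * (D.c j).count l -
          ∑ j, ((u j : ℤ) - Q * T j) * D.ζ j l := by
      simp only [Finset.mul_sum]
      rw [← Finset.sum_sub_distrib, ← Finset.sum_sub_distrib]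
      apply Finset.sum_congr rfl
      intro j _
      ring
    have e5 : ∑ j, (D.Δ : ℤ) * (u j * (D.c j).count l) =
        D.Δ * ∑ j, (u j : ℤ) * (D.c j).count l := by
      rw [Finset.mul_sum]
    rw [e4, e5]
    simp only [hCl, hcov]
    push_cast
    ring
  have hLR : L.join ≤ R.map Prod.fst := by
    rw [Multiset.le_iff_count]
    intro l
    have h1 : (W1.join.map Prod.fst).count l + (R.map Prod.fst).count l =
        (Q * D.Δ) * (Y.map Prod.fst).count l := by
      rw [← Multiset.count_add, ← Multiset.map_add, ← hR, Multiset.map_nsmul,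
        Multiset.count_nsmul]
    rw [hW1count l] at h1
    rw [hLcount l]
    have h2 := hkey l
    have h3 := (hzC l).1
    have h4 : ((∑ j, D.Δ * (u j * (D.c j).count l) + (R.map Prod.fst).count l : ℕ) : ℤ) =
        (((Q * D.Δ) * (Y.map Prod.fst).count l : ℕ) : ℤ) := by
      exact_mod_cast h1
    push_cast at h4 h2 h3
    have h5 : ((∑ i, w i * (D.P i).count l : ℕ) : ℤ) ≤ (((R.map Prod.fst).count l : ℕ) : ℤ) := by
      push_cast
      linarith
    exact_mod_cast h5
  obtain ⟨S2, hS2, hS2R⟩ := exists_lift Prod.fst L R hLR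
  have hjoinle : (W1 + S2).join ≤ (Q * D.Δ) • Y := by
    rw [Multiset.join_add, hR]
    exact add_le_add le_rfl hS2R
  have hS2card : S2.card = ∑ i, w i := by
    have : (S2.map (Multiset.map Prod.fst)).card = S2.card := Multiset.card_map _ _
    rw [← this, hS2, hL, Multiset.card_sum]
    simp
  have hW1card : W1.card = ∑ j, D.Δ * u j := by
    rw [hW1, Multiset.card_sum]
    apply Finset.sum_congr rfl
    intro j _
    rw [Multiset.card_nsmul]
  refine ⟨T', ((∑ j, D.Δ * u j + ∑ i, w i : ℕ) : ℚ) / (Q * D.Δ : ℕ),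
    ⟨X', Q * D.Δ, (W1 + S2).map (Multiset.map (enc D.κ D.v B)), hQΔ, hup, ⟨?_, ?_⟩, ?_⟩, ?_⟩
  · intro P hP
    obtain ⟨P', hP', rfl⟩ := Multiset.mem_map.1 hP
    rcases Multiset.mem_add.1 hP' with h | h
    · rw [hW1, Multiset.mem_sum] at h
      obtain ⟨j, -, hj⟩ := h
      have hpat := (hW j).1 P' (Multiset.mem_of_mem_nsmul hj)
      apply encode_zero
      · rw [hpat.1, D.c_shape j]
      · rw [hpat.1, D.c_val j]
      · exact hpat.2
    · have h1 : P'.map Prod.fst ∈ L := by
        rw [← hS2]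
        exact Multiset.mem_map_of_mem _ h
      rw [hL, Multiset.mem_sum] at h1
      obtain ⟨i, -, hi⟩ := h1
      have h2 := Multiset.eq_of_mem_replicate hi
      apply encode_neg hE0
      · intro t ht
        apply hYb
        have h3 : t ∈ (Q * D.Δ) • Y :=
          Multiset.mem_of_le hjoinle (mem_join_of (Multiset.mem_add.2 (Or.inr h)) ht)
        exact Multiset.mem_of_mem_nsmul h3
      · rw [h2, D.P_shape i]
      · rw [h2]
        exact D.P_val i
  · rw [join_map_map, hX', ← Multiset.map_nsmul]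
    exact Multiset.map_le_map hjoinle
  · rw [Multiset.card_map, Multiset.card_add, hW1card, hS2card]
    have : ((Q * D.Δ : ℕ) : ℚ) ≠ 0 := by
      have : (0 : ℚ) < ((Q * D.Δ : ℕ) : ℚ) := by exact_mod_cast hQΔ
      exact this.ne'
    field_simp
  · -- the value
    have hval : (D.q : ℤ) * (∑ j, (D.Δ : ℤ) * u j + ∑ i, (w i : ℤ)) =
        (Q * D.Δ : ℕ) * (pN : ℤ) + D.Δ * ∑ j, (u j : ℤ) * D.lam j := by
      have hpN' : (pN : ℤ) = ∑ l, (((Y.map Prod.fst).count l : ℕ) : ℤ) * D.p l := by
        rw [hpN, sum_count]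
        push_cast
        simp
      have h1 : ∑ l, ((∑ i, (w i : ℤ) * (D.P i).count l) +
          ∑ j, (D.Δ : ℤ) * (u j * (D.c j).count l) + (Cl l + M * ((Q * D.Δ) * z l : ℕ))) *
          (D.p l : ℤ) = (Q * D.Δ : ℕ) * (pN : ℤ) := by
        rw [hpN', Finset.mul_sum]
        apply Finset.sum_congr rfl
        intro l _
        rw [hkey l]
        ring
      have h2 : ∀ l, ((∑ i, (w i : ℤ) * (D.P i).count l) +
          ∑ j, (D.Δ : ℤ) * (u j * (D.c j).count l) + (Cl l + M * ((Q * D.Δ) * z l : ℕ))) *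
          (D.p l : ℤ) = ∑ i, (w i : ℤ) * ((D.P i).count l * D.p l) +
          ∑ j, (D.Δ : ℤ) * u j * ((D.c j).count l * D.p l) := by
        intro l
        have h3 := (hzC l).2
        rw [add_mul, add_mul, Finset.sum_mul, Finset.sum_mul, mul_comm (Cl l + _), h3, add_zero]
        congr 1
        · apply Finset.sum_congr rfl
          intro i _
          ring
        · apply Finset.sum_congr rfl
          intro i _
          ring
      rw [Finset.sum_congr rfl (fun l _ => h2 l), Finset.sum_add_distrib, Finset.sum_comm,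
        Finset.sum_comm (s := (Finset.univ : Finset (Fin n)))] at h1
      have h4 : ∀ i, ∑ l, (w i : ℤ) * (((D.P i).count l : ℤ) * D.p l) = w i * D.q := by
        intro i
        rw [← Finset.mul_sum]
        congr 1
        have h5 := D.P_price i
        rw [sum_count] at h5
        rw [← h5]
        push_cast
        simp
      have h6 : ∀ j, ∑ l, (D.Δ : ℤ) * u j * (((D.c j).count l : ℤ) * D.p l) =
          D.Δ * u j * ((D.q : ℤ) - D.lam j) := by
        intro j
        rw [← Finset.mul_sum]
        congr 1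
        have h5 := D.c_price j
        rw [sum_count] at h5
        rw [← h5]
        push_cast
        simp
      rw [Finset.sum_congr rfl (fun i _ => h4 i), Finset.sum_congr rfl (fun j _ => h6 j)] at h1
      rw [← h1]
      rw [mul_add, Finset.mul_sum, Finset.mul_sum, Finset.mul_sum]
      have h7 : ∑ i, (w i : ℤ) * D.q = ∑ i, (D.q : ℤ) * w i :=
        Finset.sum_congr rfl (fun i _ => mul_comm _ _)
      have h8 : ∑ j, (D.q : ℤ) * ((D.Δ : ℤ) * u j) = ∑ j, (D.Δ : ℤ) * u j * ((D.q : ℤ) - D.lam j) +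
          ∑ j, (D.Δ : ℤ) * ((u j : ℤ) * D.lam j) := by
        rw [← Finset.sum_add_distrib]
        apply Finset.sum_congr rfl
        intro j _
        ring
      rw [h7, h8]
      ring
    have hvalq : (D.q : ℚ) * (∑ j, (D.Δ : ℚ) * u j + ∑ i, (w i : ℚ)) =
        (Q * D.Δ) * (pN : ℚ) + D.Δ * ∑ j, (u j : ℚ) * D.lam j := by exact_mod_cast hval
    have huV : ∀ j, (u j : ℚ) = Q * V j := hV
    have hQ' : (0 : ℚ) < Q := by exact_mod_cast hQ
    have hΔ' : (0 : ℚ) < D.Δ := by exact_mod_cast D.Δ_pos
    have hq' : (0 : ℚ) < D.q := by exact_mod_cast D.q_pos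
    have e1 : ∑ j, (u j : ℚ) * D.lam j = Q * ∑ j, V j * D.lam j := by
      rw [Finset.mul_sum]
      apply Finset.sum_congr rfl
      intro j _
      rw [huV j]
      ring
    rw [e1] at hvalq
    have e2 : (((∑ j, D.Δ * u j + ∑ i, w i : ℕ) : ℚ) / (Q * D.Δ : ℕ)) * D.q =
        pN + ∑ j, V j * D.lam j := by
      push_cast
      rw [div_mul_eq_mul_div, div_eq_iff (by positivity)]
      linarith
    rw [div_le_iff₀ hq', sub_mul, e2]
    have e3 : ∑ j, (D.lam j : ℚ) * (V j - T j) = ∑ j, V j * D.lam j - ∑ j, (T j : ℚ) * D.lam j := by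
      rw [← Finset.sum_sub_distrib]
      apply Finset.sum_congr rfl
      intro j _
      ring
    rw [e3]
    linarith

end Vale.Agent.P302.Gen
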