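import Vale.Agent.P302.H794.Gen4

/-!
# Nodes with a price certificate, limits of recursions
-/

namespace Vale.Agent.P302.Gen

/-! ### the potential of a price certificate -/

theorem zmod_val_le {q : ℕ} (hq : 0 < q) (g : ZMod q) (a : ℕ) :
    (g + (a : ZMod q)).val ≤ g.val + a := by
  have : NeZero q := ⟨hq.ne'⟩
  rw [ZMod.val_add, ZMod.val_natCast]
  calc (g.val + a % q) % q ≤ g.val + a % q := Nat.mod_le _ _
    _ ≤ g.val + a := by
      have := Nat.mod_le a q
      omega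

theorem zmod_val_pat {q : ℕ} (hq : 0 < q) (g : ZMod q) (a : ℕ) (ha : q ≤ a) :
    (g + (a : ZMod q)).val + q ≤ g.val + a := by
  have h1 := zmod_val_le hq g (a - q)
  have h2 : ((a - q : ℕ) : ZMod q) = (a : ZMod q) := by
    rw [Nat.cast_sub ha, ZMod.natCast_self, sub_zero]
  rw [h2] at h1
  omega

theorem cast_sum_map {n : ℕ} {q : ℕ} (p : Fin n → ℕ) (x : Multiset (Fin n)) :
    (x.map (fun l => (p l : ZMod q))).sum = (((x.map p).sum : ℕ) : ZMod q) := by
  induction x using Multiset.induction with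
  | empty => simp
  | cons a x ih =>
    rw [Multiset.map_cons, Multiset.sum_cons, ih, Multiset.map_cons, Multiset.sum_cons,
      Nat.cast_add]

/-! ### enumeration of the patterns of a shape -/

/-- all lists of lines with the given list of classes -/
def enum {k n : ℕ} (κ : Fin n → Fin k) : List (Fin k) → List (List (Fin n))
  | [] => [[]]
  | a :: sl => ((List.finRange n).filter (fun l => κ l = a)).flatMap
      (fun l => (enum κ sl).map (fun x => l :: x))

theorem mem_enum {k n : ℕ} (κ : Fin n → Fin k) (sl : List (Fin k)) :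
    ∀ x : Multiset (Fin n), x.map κ = (sl : Multiset (Fin k)) →
      ∃ l ∈ enum κ sl, (l : Multiset (Fin n)) = x := by
  induction sl with
  | nil =>
    intro x hx
    have : x = 0 := by simpa using hx
    exact ⟨[], by simp [enum], by simp [this]⟩
  | cons a sl ih =>
    intro x hx
    have ha : a ∈ x.map κ := by rw [hx]; simp
    obtain ⟨l, hl, rfl⟩ := Multiset.mem_map.1 ha
    obtain ⟨x', rfl⟩ := Multiset.exists_cons_of_mem hl
    have hx' : x'.map κ = (sl : Multiset (Fin k)) := by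
      rw [Multiset.map_cons, ← Multiset.cons_coe] at hx
      exact (Multiset.cons_inj_right _).1 hx
    obtain ⟨y, hy, rfl⟩ := ih x' hx'
    refine ⟨l :: y, ?_, by simp⟩
    simp only [enum, List.mem_flatMap, List.mem_filter, List.mem_finRange, true_and,
      List.mem_map, decide_eq_true_eq]
    exact ⟨l, rfl, y, hy, rfl⟩

/-- the finite check of the prices -/
def checkPats {k n m : ℕ} (sl : List (Fin k)) (κ : Fin n → Fin k) (v : Fin n → ℤ)
    (c : Fin m → List (Fin n)) (p : Fin n → ℕ) (q : ℕ) : Bool :=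
  (enum κ sl).all (fun l => decide (0 < (l.map v).sum) || decide (q ≤ (l.map p).sum) ||
    (List.finRange m).any (fun j => decide (l.Perm (c j))))

theorem checkPats_sound {k n m : ℕ} {sl : List (Fin k)} {κ : Fin n → Fin k} {v : Fin n → ℤ}
    {c : Fin m → List (Fin n)} {p : Fin n → ℕ} {q : ℕ} (h : checkPats sl κ v c p q = true)
    (x : Multiset (Fin n)) (hx : x.map κ = (sl : Multiset (Fin k))) (hv : (x.map v).sum ≤ 0)
    (hc : ∀ j, x ≠ (c j : Multiset (Fin n))) : q ≤ (x.map p).sum := by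
  obtain ⟨l, hl, rfl⟩ := mem_enum κ sl x hx
  unfold checkPats at h
  rw [List.all_eq_true] at h
  have h1 := h l hl
  simp only [Bool.or_eq_true, decide_eq_true_eq, List.any_eq_true, List.mem_finRange,
    true_and] at h1
  simp only [Multiset.map_coe, Multiset.sum_coe] at hv ⊢
  rcases h1 with (h1 | h1) | ⟨j, hj⟩
  · omega
  · exact h1
  · exact absurd (Multiset.coe_eq_coe.2 hj) (hc j)

/-- data of a node with a price certificate -/
structure CGNode (k n m r : ℕ) where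
  s : List (Fin k)
  κ : Fin n → Fin k
  v : Fin n → ℤ
  c : Fin m → List (Fin n)
  P : Fin r → List (Fin n)
  p : Fin n → ℕ
  lam : Fin m → ℕ
  q : ℕ
  Δ : ℕ
  δ : Fin m → Fin r → ℤ
  ζ : Fin m → Fin n → ℤ
  γ : Fin r → ℤ
  ζ0 : Fin n → ℤ
  g0 : Fin n → ℤ

/-- all conditions except the check of the prices -/
def CGNode.Ok {k n m r : ℕ} (D : CGNode k n m r) : Prop :=
  0 < D.q ∧ 0 < D.Δ ∧ (∀ i j, i ≠ j → ∀ l ∈ D.c i, l ∉ D.c j) ∧
  (∀ i, D.c i ≠ []) ∧
  (∀ j, ((D.c j).map D.κ).Perm D.s) ∧ (∀ j, ((D.c j).map D.v).sum = 0) ∧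
  (∀ j, ((D.c j).map D.p).sum + D.lam j = D.q) ∧
  (∀ i, ((D.P i).map D.κ).Perm D.s) ∧ (∀ i, ((D.P i).map D.v).sum < 0) ∧
  (∀ i, ((D.P i).map D.p).sum = D.q) ∧
  (∀ j l, (D.Δ : ℤ) * (D.c j).count l = ∑ i, D.δ j i * (D.P i).count l + D.ζ j l) ∧
  (∀ l, (D.Δ : ℤ) * D.g0 l = ∑ i, D.γ i * (D.P i).count l + D.ζ0 l) ∧
  (∀ l, ((∀ j, D.ζ j l = 0) ∧ D.ζ0 l = 0) ∨ D.p l = 0) ∧
  (∀ l, (∃ i, l ∈ D.P i) ∨ D.p l = 0) ∧
  ((∑ l, D.g0 l * D.p l) % D.q = D.q - 1)

instance {k n m r : ℕ} (D : CGNode k n m r) : Decidable D.Ok := by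
  unfold CGNode.Ok
  infer_instance

/-- the node as an abstract node -/
noncomputable def CGNode.toInner {k n m r : ℕ} (D : CGNode k n m r) (h : D.Ok)
    (hp : checkPats D.s D.κ D.v D.c D.p D.q = true) : InnerNode k n m r (ZMod D.q) where
  s := D.s
  κ := D.κ
  v := D.v
  c := fun j => D.c j
  P := fun i => D.P i
  p := D.p
  lam := D.lam
  q := D.q
  φ := fun l => (D.p l : ZMod D.q)
  ψ := fun j => (D.lam j : ZMod D.q)
  h := fun g => g.val
  Δ := D.Δ
  δ := D.δ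
  ζ := D.ζ
  γ := D.γ
  ζ0 := D.ζ0
  g0 := D.g0
  q_pos := h.1
  Δ_pos := h.2.1
  c_inj := by
    intro i j hij
    by_contra hne
    obtain ⟨l, hl⟩ := List.exists_mem_of_ne_nil _ (h.2.2.2.1 i)
    have h1 := h.2.2.1 i j hne l hl
    have h2 : l ∈ ((D.c i : List (Fin n)) : Multiset (Fin n)) := hl
    simp only at hij
    rw [hij] at h2
    exact h1 h2
  c_disj := h.2.2.1
  c_shape := fun j => by
    rw [Multiset.map_coe]
    exact Multiset.coe_eq_coe.2 (h.2.2.2.2.1 j)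
  c_val := fun j => by
    rw [Multiset.map_coe, Multiset.sum_coe]
    exact h.2.2.2.2.2.1 j
  c_price := fun j => by
    rw [Multiset.map_coe, Multiset.sum_coe]
    exact h.2.2.2.2.2.2.1 j
  c_φ := fun j => by
    rw [cast_sum_map, Multiset.map_coe, Multiset.sum_coe, ← Nat.cast_add,
      h.2.2.2.2.2.2.1 j, ZMod.natCast_self]
  P_shape := fun j => by
    rw [Multiset.map_coe]
    exact Multiset.coe_eq_coe.2 (h.2.2.2.2.2.2.2.1 j)
  P_val := fun i => by
    rw [Multiset.map_coe, Multiset.sum_coe]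
    exact h.2.2.2.2.2.2.2.2.1 i
  P_price := fun i => by
    rw [Multiset.map_coe, Multiset.sum_coe]
    exact h.2.2.2.2.2.2.2.2.2.1 i
  P_φ := fun i => by
    rw [cast_sum_map, Multiset.map_coe, Multiset.sum_coe, h.2.2.2.2.2.2.2.2.2.1 i,
      ZMod.natCast_self]
  h_zero := by simp
  h_item := fun g l => zmod_val_le h.1 g _
  h_cap := fun g j => zmod_val_le h.1 g _
  h_pat := fun x hx hv hc g => by
    rw [cast_sum_map]
    exact zmod_val_pat h.1 g _ (checkPats_sound hp x hx hv hc)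
  span_c := fun j l => by
    simpa only [Multiset.coe_count] using h.2.2.2.2.2.2.2.2.2.2.1 j l
  span_g := fun l => by
    simpa only [Multiset.coe_count] using h.2.2.2.2.2.2.2.2.2.2.2.1 l
  free := fun l => (h.2.2.2.2.2.2.2.2.2.2.2.2.1 l).imp id (fun h => ⟨h, by rw [h]; simp⟩)
  cover := fun l => (h.2.2.2.2.2.2.2.2.2.2.2.2.2.1 l).imp id (fun h => ⟨h, by rw [h]; simp⟩)

theorem CGNode.step {k n m r : ℕ} (D : CGNode k n m r) (h : D.Ok)
    (hp : checkPats D.s D.κ D.v D.c D.p D.q = true) (T : Fin m → ℕ) (V : Fin m → ℚ)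
    (hD : ∀ j, WDef (D.c j : Multiset (Fin n)) (T j) (V j)) :
    ∃ (T' : ℕ) (V' : ℚ), WDef (D.s : Multiset (Fin k)) T' V' ∧
      ((D.q : ℚ) - 1 + ∑ j, (D.lam j : ℚ) * (V j - T j)) / D.q ≤ V' - T' := by
  obtain ⟨T', V', h1, h2⟩ := (D.toInner h hp).step T V hD
  refine ⟨T', V', h1, ?_⟩
  have hcls : (D.toInner h hp).cls = ((∑ l, D.g0 l * D.p l : ℤ) : ZMod D.q) := by
    unfold InnerNode.cls
    push_cast
    apply Finset.sum_congr rfl
    intro l _
    show D.g0 l • ((D.p l : ℕ) : ZMod D.q) = _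
    rw [zsmul_eq_mul]
  have : NeZero D.q := ⟨h.1.ne'⟩
  have hval : (((D.toInner h hp).h (D.toInner h hp).cls : ℕ) : ℤ) = (D.q : ℤ) - 1 := by
    rw [hcls]
    show ((((∑ l, D.g0 l * D.p l : ℤ) : ZMod D.q).val : ℕ) : ℤ) = _
    rw [ZMod.val_intCast]
    exact h.2.2.2.2.2.2.2.2.2.2.2.2.2.2
  have hval' : (((D.toInner h hp).h (D.toInner h hp).cls : ℕ) : ℚ) = (D.q : ℚ) - 1 := by
    exact_mod_cast hval
  rw [hval'] at h2
  exact h2

/-! ### recursions -/

theorem WDef.zero {k : ℕ} {s : Multiset (Fin k)} (hs : s ≠ 0) : WDef s 0 0 := by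
  refine ⟨0, 1, 0, one_pos, ?_, ⟨by simp, by simp⟩, by simp⟩
  intro S hS
  rw [Nat.le_zero, Multiset.card_eq_zero]
  by_contra hne
  obtain ⟨P, hP⟩ := Multiset.exists_mem_of_ne_zero hne
  have h1 : P ≤ S.join := by
    obtain ⟨S', rfl⟩ := Multiset.exists_cons_of_mem hP
    rw [Multiset.join_cons]
    exact Multiset.le_add_right _ _
  have h2 : P ≤ 0 := h1.trans hS.2
  have h3 : P = 0 := Multiset.le_zero.1 h2
  have h4 := (hS.1 P hP).1
  rw [h3, Multiset.map_zero] at h4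
  exact hs h4.symm

/-- the limit of a linear recursion -/
theorem limit_of_step {A : ℕ → ℚ → Prop} (a b : ℚ) (hb0 : 0 ≤ b) (hb : b < 1)
    (h0 : ∃ (T : ℕ) (V : ℚ), A T V ∧ 0 ≤ V - T)
    (hstep : ∀ (T : ℕ) (V : ℚ), A T V → ∃ (T' : ℕ) (V' : ℚ), A T' V' ∧ a + b * (V - T) ≤ V' - T')
    (ε : ℚ) (hε : 0 < ε) : ∃ (T : ℕ) (V : ℚ), A T V ∧ a / (1 - b) - ε < V - T := by
  have h1b : 0 < 1 - b := by linarith
  have key : ∀ t : ℕ, ∃ (T : ℕ) (V : ℚ), A T V ∧
      a / (1 - b) - b ^ t * (|a / (1 - b)|) ≤ V - T := by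
    intro t
    induction t with
    | zero =>
      obtain ⟨T, V, h1, h2⟩ := h0
      refine ⟨T, V, h1, ?_⟩
      have := le_abs_self (a / (1 - b))
      rw [pow_zero, one_mul]
      linarith
    | succ t ih =>
      obtain ⟨T, V, h1, h2⟩ := ih
      obtain ⟨T', V', h3, h4⟩ := hstep T V h1
      refine ⟨T', V', h3, le_trans ?_ h4⟩
      have h5 : b * (a / (1 - b) - b ^ t * |a / (1 - b)|) ≤ b * (V - T) :=
        mul_le_mul_of_nonneg_left h2 hb0
      have h6 : a + b * (a / (1 - b)) = a / (1 - b) := by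
        field_simp
        ring
      rw [pow_succ]
      linarith [h5, h6]
  obtain ⟨t, ht⟩ : ∃ t : ℕ, b ^ t * (|a / (1 - b)| + 1) < ε := by
    have hpos : 0 < |a / (1 - b)| + 1 := by positivity
    obtain ⟨t, ht⟩ := exists_pow_lt_of_lt_one (div_pos hε hpos) hb
    exact ⟨t, by rwa [lt_div_iff₀ hpos] at ht⟩
  obtain ⟨T, V, h1, h2⟩ := key t
  refine ⟨T, V, h1, ?_⟩
  have h3 : b ^ t * |a / (1 - b)| ≤ b ^ t * (|a / (1 - b)| + 1) := by
    apply mul_le_mul_of_nonneg_left _ (pow_nonneg hb0 t)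
    linarith
  linarith

end Vale.Agent.P302.Gen
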