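import Vale.Agent.P302.H794.Gen5
import Vale.Agent.P302.H877.OuterNode

/-!
# Generic outer nodes: bin packing instances from exact children
-/

namespace Vale.Agent.P302.Gen

/-- potential bound for a collection of bins -/
theorem pot_bins {n m : ℕ} {G : Type*} [AddCommGroup G]
    (c : Fin m → Multiset (Fin n)) (hc : Function.Injective c)
    (p : Fin n → ℕ) (lam : Fin m → ℕ) (q : ℕ) (φ : Fin n → G) (ψ : Fin m → G) (h : G → ℕ)
    (Us : Multiset (Fin n) → Prop)
    (hpat : ∀ x, Us x → (∀ j, x ≠ c j) → ∀ g, h (g + (x.map φ).sum) + (x.map p).sum ≤ h g + q)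
    (hchild : ∀ j g, h (g + ((c j).map φ).sum + ψ j) + ((c j).map p).sum ≤ h g + q + lam j)
    (S : Multiset (Multiset (Fin n × ℤ))) (hS : ∀ P ∈ S, Us (P.map Prod.fst)) (g : G) :
    h (g + ((S.join.map Prod.fst).map φ).sum + ∑ j, cnt (c j) S • ψ j) +
      ((S.join.map Prod.fst).map p).sum ≤
      h g + q * S.card + ∑ j, cnt (c j) S * lam j := by
  classical
  induction S using Multiset.induction generalizing g with
  | empty => simp [cnt]
  | cons P S ih =>
    have hP : Us (P.map Prod.fst) := hS P (Multiset.mem_cons_self P S)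
    have hS' : ∀ P ∈ S, Us (P.map Prod.fst) := fun Q hQ => hS Q (Multiset.mem_cons_of_mem hQ)
    rw [Multiset.join_cons, Multiset.map_add, Multiset.map_add, Multiset.map_add, Multiset.sum_add,
      Multiset.sum_add, Multiset.card_cons]
    simp only [cnt_cons, add_smul, add_mul, Finset.sum_add_distrib]
    by_cases hx : ∀ j, P.map Prod.fst ≠ c j
    · have z1 : ∑ j, (if P.map Prod.fst = c j then 1 else 0) • ψ j = 0 := by
        apply Finset.sum_eq_zero
        intro j _
        rw [if_neg (hx j), zero_smul]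
      have z2 : ∑ j, (if P.map Prod.fst = c j then 1 else 0) * lam j = 0 := by
        apply Finset.sum_eq_zero
        intro j _
        rw [if_neg (hx j), zero_mul]
      rw [z1, z2, add_zero, add_zero]
      have h1 := ih hS' (g + (((P.map Prod.fst)).map φ).sum)
      have h2 := hpat _ hP hx g
      have e : g + (((P.map Prod.fst).map φ).sum + ((S.join.map Prod.fst).map φ).sum) +
          ∑ j, cnt (c j) S • ψ j = g + ((P.map Prod.fst).map φ).sum +
          ((S.join.map Prod.fst).map φ).sum + ∑ j, cnt (c j) S • ψ j := by abel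
      rw [e]
      rw [mul_add, mul_one]
      omega
    · push Not at hx
      obtain ⟨i, hi⟩ := hx
      have hne : ∀ j, P.map Prod.fst = c j ↔ j = i := by
        intro j
        rw [hi]
        constructor
        · intro h
          exact (hc h).symm
        · intro h
          rw [h]
      have z1 : ∑ j, (if P.map Prod.fst = c j then 1 else 0) • ψ j = ψ i := by
        rw [Finset.sum_eq_single i]
        · rw [if_pos ((hne i).2 rfl), one_smul]
        · intro j _ hj
          rw [if_neg (fun h => hj ((hne j).1 h)), zero_smul]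
        · intro h
          exact absurd (Finset.mem_univ i) h
      have z2 : ∑ j, (if P.map Prod.fst = c j then 1 else 0) * lam j = lam i := by
        rw [Finset.sum_eq_single i]
        · rw [if_pos ((hne i).2 rfl), one_mul]
        · intro j _ hj
          rw [if_neg (fun h => hj ((hne j).1 h)), zero_mul]
        · intro h
          exact absurd (Finset.mem_univ i) h
      rw [z1, z2]
      have h1 := ih hS' (g + (((P.map Prod.fst)).map φ).sum + ψ i)
      have h2 := hchild i g
      rw [← hi] at h2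
      have e : g + (((P.map Prod.fst).map φ).sum + ((S.join.map Prod.fst).map φ).sum) +
          (∑ j, cnt (c j) S • ψ j + ψ i) = g + ((P.map Prod.fst).map φ).sum + ψ i +
          ((S.join.map Prod.fst).map φ).sum + ∑ j, cnt (c j) S • ψ j := by abel
      rw [e]
      rw [mul_add, mul_one]
      omega

structure OuterNode (n m r : ℕ) (G : Type) [AddCommGroup G] where
  size : Fin n → ℕ
  C : ℕ
  c : Fin m → Multiset (Fin n)
  P : Fin r → Multiset (Fin n)
  p : Fin n → ℕ
  lam : Fin m → ℕ
  q : ℕ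
  φ : Fin n → G
  ψ : Fin m → G
  h : G → ℕ
  Δ : ℕ
  δ : Fin m → Fin r → ℤ
  γ : Fin r → ℤ
  g0 : Fin n → ℤ
  n_pos : 0 < n
  q_pos : 0 < q
  Δ_pos : 0 < Δ
  size_pos : ∀ l, 0 < size l
  c_inj : Function.Injective c
  c_disj : ∀ i j, i ≠ j → ∀ l ∈ c i, l ∉ c j
  c_size : ∀ j, ((c j).map size).sum = C
  c_price : ∀ j, ((c j).map p).sum = q + lam j
  c_φ : ∀ j, ((c j).map φ).sum + ψ j = 0
  P_size : ∀ i, ((P i).map size).sum < C
  P_price : ∀ i, ((P i).map p).sum = q
  P_φ : ∀ i, ((P i).map φ).sum = 0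
  h_zero : h 0 = 0
  h_cap : ∀ g j, h (g + ψ j) ≤ h g + lam j
  h_pat : ∀ x : Multiset (Fin n), (x.map size).sum ≤ C → (∀ j, x ≠ c j) →
    ∀ g, h (g + (x.map φ).sum) + (x.map p).sum ≤ h g + q
  span_c : ∀ j l, (Δ : ℤ) * (c j).count l = ∑ i, δ j i * (P i).count l
  span_g : ∀ l, (Δ : ℤ) * g0 l = ∑ i, γ i * (P i).count l
  cover : ∀ l, ∃ i, l ∈ P i

/-- group value of the class of the node -/
def OuterNode.cls {n m r : ℕ} {G : Type} [AddCommGroup G] (D : OuterNode n m r G) : G :=
  ∑ l, D.g0 l • D.φ l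

theorem card_le_size {n : ℕ} (size : Fin n → ℕ) (hs : ∀ l, 0 < size l) (x : Multiset (Fin n)) :
    x.card ≤ (x.map size).sum := by
  induction x using Multiset.induction with
  | empty => simp
  | cons a x ih =>
    rw [Multiset.card_cons, Multiset.map_cons, Multiset.sum_cons]
    have := hs a
    omega

/-- the integer size of an item -/
def isz {n : ℕ} (size : Fin n → ℕ) (B : ℤ) (t : Fin n × ℤ) : ℕ := (B * size t.1 + t.2).toNat

theorem isz_sum {n : ℕ} (size : Fin n → ℕ) (B : ℤ) (b : Multiset (Fin n × ℤ))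
    (hb : ∀ t ∈ b, 0 ≤ B * size t.1 + t.2) :
    (((b.map (isz size B)).sum : ℕ) : ℤ) =
      B * (((b.map Prod.fst).map size).sum : ℕ) + (b.map Prod.snd).sum := by
  induction b using Multiset.induction with
  | empty => simp
  | cons a b ih =>
    rw [Multiset.map_cons, Multiset.sum_cons, Nat.cast_add,
      ih (fun t ht => hb t (Multiset.mem_cons_of_mem ht)), Multiset.map_cons, Multiset.map_cons,
      Multiset.sum_cons, Multiset.map_cons, Multiset.sum_cons]
    have h1 : ((isz size B a : ℕ) : ℤ) = B * size a.1 + a.2 :=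
      Int.toNat_of_nonneg (hb a (Multiset.mem_cons_self a b))
    rw [h1]
    push_cast
    ring

variable {n m r : ℕ} {G : Type} [AddCommGroup G]

theorem decode_bin {size : Fin n → ℕ} (hs : ∀ l, 0 < size l) {C : ℕ} {E : ℤ} (hE : 0 < E)
    {b : Multiset (Fin n × ℤ)} (hb : ∀ t ∈ b, -E ≤ t.2 ∧ t.2 ≤ E)
    (h : ((b.map (isz size (E * (C + 2)))).sum : ℤ) ≤ E * (C + 2) * C) :
    ((b.map Prod.fst).map size).sum ≤ C ∧
      (((b.map Prod.fst).map size).sum = C → (b.map Prod.snd).sum ≤ 0) := by
  have hC0 : (0 : ℤ) ≤ C := Int.natCast_nonneg C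
  have hB : 0 < E * (C + 2) := by positivity
  have hnn : ∀ t ∈ b, 0 ≤ E * (C + 2) * size t.1 + t.2 := by
    intro t ht
    have h1 : (1 : ℤ) ≤ size t.1 := by exact_mod_cast hs t.1
    have h2 := (hb t ht).1
    have h3 : E * (C + 2) ≤ E * (C + 2) * size t.1 := by nlinarith
    nlinarith
  rw [isz_sum size _ b hnn] at h
  have h1 := abs_sum_le b E hb
  set x := b.map Prod.fst with hx
  have hcard : b.card = x.card := by simp [hx]
  have h2 : (x.card : ℤ) ≤ ((x.map size).sum : ℕ) := by exact_mod_cast card_le_size size hs x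
  rw [hcard] at h1
  set Ss : ℤ := (((x.map size).sum : ℕ) : ℤ) with hSs
  -- the number of items
  have h3 : (x.card : ℤ) ≤ C := by
    by_contra hcon
    push Not at hcon
    have hc1 : (C : ℤ) + 1 ≤ x.card := hcon
    have h4 : E * (C + 2) * Ss - x.card * E ≤ E * (C + 2) * C := by linarith [h1.1]
    have h5 : E * (C + 2) * x.card ≤ E * (C + 2) * Ss := mul_le_mul_of_nonneg_left h2 hB.le
    have h6 : E * ((C + 1) * x.card) ≤ E * ((C + 2) * C) := by linarith
    have h7 : ((C : ℤ) + 1) * x.card ≤ (C + 2) * C := le_of_mul_le_mul_left h6 hE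
    nlinarith
  have h4 : -(C * E) ≤ (b.map Prod.snd).sum := by
    have : (x.card : ℤ) * E ≤ C * E := mul_le_mul_of_nonneg_right h3 hE.le
    linarith [h1.1]
  have h5 : Ss ≤ C := by
    by_contra hcon
    push Not at hcon
    have hc1 : (C : ℤ) + 1 ≤ Ss := hcon
    have h6 : E * (C + 2) * (C + 1) ≤ E * (C + 2) * Ss := mul_le_mul_of_nonneg_left hc1 hB.le
    nlinarith
  refine ⟨by rw [hSs] at h5; exact_mod_cast h5, fun h6 => ?_⟩
  have h7 : Ss = C := by rw [hSs]; exact_mod_cast h6
  rw [h7] at h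
  linarith

theorem encode_bin {size : Fin n → ℕ} (hs : ∀ l, 0 < size l) {C : ℕ} {E : ℤ} (hE : 0 < E)
    {b : Multiset (Fin n × ℤ)} (hb : ∀ t ∈ b, -E ≤ t.2 ∧ t.2 ≤ E)
    (h : ((b.map Prod.fst).map size).sum < C ∨
      ((b.map Prod.fst).map size).sum = C ∧ (b.map Prod.snd).sum ≤ 0) :
    ((b.map (isz size (E * (C + 2)))).sum : ℤ) ≤ E * (C + 2) * C := by
  have hC0 : (0 : ℤ) ≤ C := Int.natCast_nonneg C
  have hB : 0 < E * (C + 2) := by positivity
  have hnn : ∀ t ∈ b, 0 ≤ E * (C + 2) * size t.1 + t.2 := by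
    intro t ht
    have h1 : (1 : ℤ) ≤ size t.1 := by exact_mod_cast hs t.1
    have h2 := (hb t ht).1
    have h3 : E * (C + 2) ≤ E * (C + 2) * size t.1 := by nlinarith
    nlinarith
  rw [isz_sum size _ b hnn]
  have h1 := abs_sum_le b E hb
  set x := b.map Prod.fst with hx
  have hcard : b.card = x.card := by simp [hx]
  have h2 : (x.card : ℤ) ≤ ((x.map size).sum : ℕ) := by exact_mod_cast card_le_size size hs x
  rw [hcard] at h1
  set Ss : ℤ := (((x.map size).sum : ℕ) : ℤ) with hSs
  rcases h with h | ⟨h, h'⟩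
  · have h3 : Ss ≤ C - 1 := by
      have : Ss < C := by rw [hSs]; exact_mod_cast h
      omega
    have h4 : (x.card : ℤ) * E ≤ C * E := mul_le_mul_of_nonneg_right (by linarith) hE.le
    have h5 : E * (C + 2) * Ss ≤ E * (C + 2) * (C - 1) := mul_le_mul_of_nonneg_left h3 hB.le
    nlinarith [h1.2]
  · have h3 : Ss = C := by rw [hSs]; exact_mod_cast h
    rw [h3]
    linarith

end Vale.Agent.P302.Gen
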