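import Vale.Agent.P302.H794.Gen6

/-!
# The gap theorem for outer nodes
-/

namespace Vale.Agent.P302.Gen

variable {n m r : ℕ} {G : Type} [AddCommGroup G]

/-- the instance of an outer node: `OPT` and `LP` -/
theorem OuterNode.inst_gap (D : OuterNode n m r G) (T : Fin m → ℕ) (V : Fin m → ℚ)
    (hD : ∀ j, WDef (D.c j) (T j) (V j)) :
    ∃ (L : ℕ) (xs : List ℕ) (v : ℝ), 0 < L ∧ (∀ x ∈ xs, 0 < x ∧ x ≤ L) ∧ xs ≠ [] ∧
      (∃ z, IsLPSolution (inst L xs) z ∧ v = z.sum (fun _ w => w)) ∧
      ∀ N : ℕ, Packable (inst L xs) N →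
        ((D.h D.cls : ℝ) + ∑ j, (D.lam j : ℝ) * ((V j : ℝ) - T j)) / D.q ≤ N - v := by
  classical
  obtain ⟨Q, X, W, hQ, hXW⟩ := common_denominator D.c T V hD
  have hXT := fun j => (hXW j).1
  have hW := fun j => (hXW j).2.1
  have hV := fun j => (hXW j).2.2.1
  have hXc := fun j => (hXW j).2.2.2
  set u : Fin m → ℕ := fun j => (W j).card with hu
  have hWj : ∀ j, (W j).join.map Prod.fst = u j • D.c j := by
    intro j
    rw [← join_map_map, join_const _ (D.c j), Multiset.card_map]
    intro P hP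
    obtain ⟨P', hP', rfl⟩ := Multiset.mem_map.1 hP
    exact ((hW j).1 P' hP').1
  -- bounds
  obtain ⟨Φ, hΦ⟩ := Tags.exists_bound ((∑ j, X j).map Prod.snd)
  have hΦX : ∀ j, ∀ t ∈ X j, -(Φ : ℤ) ≤ t.2 ∧ t.2 ≤ Φ := by
    intro j t ht
    apply hΦ
    apply Multiset.mem_map_of_mem
    rw [Multiset.mem_sum]
    exact ⟨j, Finset.mem_univ j, ht⟩
  have hC1 : 1 ≤ D.C := by
    obtain ⟨i, hi⟩ := D.cover ⟨0, D.n_pos⟩
    have := D.P_size i
    omega
  set E : ℤ := D.C * Φ + 1 with hE
  have hE0 : 0 < E := by positivity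
  have hΦE' : (Φ : ℤ) ≤ E := by
    have : (1 : ℤ) ≤ D.C := by exact_mod_cast hC1
    have h0 : (0 : ℤ) ≤ Φ := Int.natCast_nonneg Φ
    rw [hE]
    nlinarith
  have hccard : ∀ j, (D.c j).card ≤ D.C := by
    intro j
    have := card_le_size D.size D.size_pos (D.c j)
    rwa [D.c_size j] at this
  have hΦE : ∀ j, ∀ t ∈ X j, -E ≤ t.2 ∧ t.2 ≤ E := by
    intro j t ht
    have := hΦX j t ht
    constructor <;> linarith [this.1, this.2]
  set cov : Fin n → ℕ := fun l => ∑ i, (D.P i).count l with hcov
  have hcov1 : ∀ l, 1 ≤ cov l := by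
    intro l
    obtain ⟨i, hi⟩ := D.cover l
    have h1 : 1 ≤ (D.P i).count l := Multiset.one_le_count_iff_mem.2 hi
    have h2 : (D.P i).count l ≤ ∑ i, (D.P i).count l :=
      Finset.single_le_sum (f := fun i => (D.P i).count l) (fun _ _ => Nat.zero_le _)
        (Finset.mem_univ i)
    simp only [hcov]
    omega
  set xc : Fin n → ℕ := fun l => ((∑ j, X j).map Prod.fst).count l with hxc
  set A : Fin n → ℤ := fun l => ∑ j, (T j : ℤ) * (D.c j).count l + D.g0 l - xc l - 1 with hA
  set Bq : Fin r → ℤ := fun i => Q * D.γ i - ∑ j, ((u j : ℤ) - Q * T j) * D.δ j i with hBq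
  set M : ℕ := ∑ l, (A l).natAbs + ∑ i, (Bq i).natAbs with hM
  have hMA : ∀ l, (A l).natAbs ≤ M := by
    intro l
    have := Finset.single_le_sum (f := fun l => (A l).natAbs) (fun _ _ => Nat.zero_le _)
      (Finset.mem_univ l)
    omega
  have hMB : ∀ i, (Bq i).natAbs ≤ M := by
    intro l
    have := Finset.single_le_sum (f := fun l => (Bq l).natAbs) (fun _ _ => Nat.zero_le _)
      (Finset.mem_univ l)
    omega
  set a : Fin n → ℕ := fun l => (A l + M * cov l).toNat + 1 with ha
  have haz : ∀ l, (a l : ℤ) = A l + M * cov l + 1 := by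
    intro l
    simp only [ha]
    push_cast
    rw [Int.toNat_of_nonneg (natAbs_bound _ _ _ (hMA l) (hcov1 l))]
  set w : Fin r → ℕ := fun i => (Bq i + M * (Q * D.Δ : ℕ)).toNat with hw
  have hQΔ : 1 ≤ Q * D.Δ := Nat.mul_pos hQ D.Δ_pos
  have hwz : ∀ i, (w i : ℤ) = Bq i + M * (Q * D.Δ : ℕ) := by
    intro i
    simp only [hw]
    exact Int.toNat_of_nonneg (natAbs_bound _ _ _ (hMB i) hQΔ)
  -- the items
  set Y : Multiset (Fin n × ℤ) := ∑ j, X j + ∑ l, Multiset.replicate (a l) (l, E) with hY
  have hYb : ∀ t ∈ Y, -E ≤ t.2 ∧ t.2 ≤ E := by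
    intro t ht
    rcases Multiset.mem_add.1 ht with h | h
    · rw [Multiset.mem_sum] at h
      obtain ⟨i, -, hi⟩ := h
      exact hΦE i t hi
    · rw [Multiset.mem_sum] at h
      obtain ⟨l, -, hl⟩ := h
      rw [Multiset.eq_of_mem_replicate hl]
      constructor
      · show -E ≤ E
        linarith
      · exact le_rfl
  have hN : ∀ l, (((Y.map Prod.fst).count l : ℕ) : ℤ) =
      ∑ j, (T j : ℤ) * (D.c j).count l + D.g0 l + M * cov l := by
    intro l
    rw [hY, Multiset.map_add, Multiset.count_add, count_map_fst_extras]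
    push_cast
    rw [haz l]
    simp only [hA, hxc]
    ring
  have hYne : Y ≠ 0 := by
    intro h0
    have h1 : (((0 : Multiset (Fin n × ℤ)).map Prod.fst).count ⟨0, D.n_pos⟩) = 0 := by simp
    rw [← h0, hY, Multiset.map_add, Multiset.count_add, count_map_fst_extras] at h1
    simp only [ha] at h1
    omega
  -- group value of the instance
  have hcls : ((Y.map Prod.fst).map D.φ).sum + ∑ j, T j • D.ψ j = D.cls := by
    rw [sum_count]
    have h1 : ∀ l, (Y.map Prod.fst).count l • D.φ l =
        ∑ j, T j • ((D.c j).count l • D.φ l) + D.g0 l • D.φ l +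
        (M • ∑ i, (D.P i).count l • D.φ l) := by
      intro l
      have h2 : (Y.map Prod.fst).count l • D.φ l =
          (((Y.map Prod.fst).count l : ℕ) : ℤ) • D.φ l := (natCast_zsmul _ _).symm
      rw [h2, hN l, add_smul, add_smul, Finset.sum_smul]
      have h3 : ∀ j, ((T j : ℤ) * (D.c j).count l) • D.φ l = T j • ((D.c j).count l • D.φ l) := by
        intro j
        rw [mul_smul, natCast_zsmul, natCast_zsmul]
      rw [Finset.sum_congr rfl (fun j _ => h3 j)]
      congr 1
      rw [mul_smul, natCast_zsmul, natCast_zsmul]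
      congr 1
      simp only [hcov]
      rw [Finset.sum_smul]
    rw [Finset.sum_congr rfl (fun l _ => h1 l), Finset.sum_add_distrib, Finset.sum_add_distrib]
    rw [← Finset.smul_sum, Finset.sum_comm (s := Finset.univ) (t := Finset.univ)
      (f := fun l i => (D.P i).count l • D.φ l)]
    have h4 : ∀ i, ∑ l, (D.P i).count l • D.φ l = 0 := by
      intro i
      rw [← sum_count, D.P_φ i]
    rw [Finset.sum_congr rfl (fun i _ => h4 i), Finset.sum_const_zero, smul_zero, add_zero]
    rw [Finset.sum_comm (s := Finset.univ) (t := Finset.univ)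
      (f := fun l j => T j • ((D.c j).count l • D.φ l))]
    have h5 : ∀ j, ∑ l, T j • ((D.c j).count l • D.φ l) = T j • ((D.c j).map D.φ).sum := by
      intro j
      rw [← Finset.smul_sum, sum_count]
    rw [Finset.sum_congr rfl (fun j _ => h5 j), add_right_comm, ← Finset.sum_add_distrib]
    have h6 : ∀ j, T j • ((D.c j).map D.φ).sum + T j • D.ψ j = 0 := by
      intro j
      rw [← smul_add, D.c_φ j, smul_zero]
    rw [Finset.sum_congr rfl (fun j _ => h6 j), Finset.sum_const_zero, zero_add]
    rfl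
  -- the instance
  set B : ℤ := E * (D.C + 2) with hB
  have hB0 : 0 < B := by positivity
  set L : ℕ := (B * D.C).toNat with hL
  have hLz : (L : ℤ) = E * (D.C + 2) * D.C := Int.toNat_of_nonneg (by positivity)
  have hL0 : 0 < L := by
    have h1 : (1 : ℤ) ≤ D.C := by exact_mod_cast hC1
    have : (0 : ℤ) < L := by
      rw [hLz]
      positivity
    exact_mod_cast this
  set l : List (Fin n × ℤ) := Y.toList with hl
  have hlY : (l : Multiset (Fin n × ℤ)) = Y := Multiset.coe_toList Y
  set sz := isz D.size B with hsz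
  have hszz : ∀ t ∈ Y, ((sz t : ℕ) : ℤ) = B * D.size t.1 + t.2 ∧ 0 < sz t ∧ sz t ≤ L := by
    intro t ht
    have h1 : (1 : ℤ) ≤ D.size t.1 := by exact_mod_cast D.size_pos t.1
    have h2 := hYb t ht
    have h3 : B ≤ B * D.size t.1 := by nlinarith
    have hC' : (0 : ℤ) ≤ D.C := Int.natCast_nonneg _
    have h4 : E < B := by
      rw [hB]
      nlinarith
    have h5 : ((sz t : ℕ) : ℤ) = B * D.size t.1 + t.2 := Int.toNat_of_nonneg (by linarith [h2.1])
    refine ⟨h5, ?_, ?_⟩
    · have : (0 : ℤ) < sz t := by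
        rw [h5]
        linarith [h2.1]
      exact_mod_cast this
    · obtain ⟨i, hi⟩ := D.cover t.1
      have h6 : D.size t.1 ≤ ((D.P i).map D.size).sum :=
        Multiset.single_le_sum (fun _ _ => Nat.zero_le _) _ (Multiset.mem_map_of_mem _ hi)
      have h7 : (D.size t.1 : ℤ) ≤ D.C - 1 := by
        have := D.P_size i
        omega
      have h8 : (sz t : ℤ) ≤ L := by
        rw [h5, hLz, ← hB]
        have : B * D.size t.1 ≤ B * (D.C - 1) := mul_le_mul_of_nonneg_left h7 hB0.le
        linarith [h2.2]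
      exact_mod_cast h8
  set pN : ℕ := ((Y.map Prod.fst).map D.p).sum with hpN
  -- the fractional solution
  set W1 : Multiset (Multiset (Fin n × ℤ)) := ∑ j, D.Δ • W j with hW1
  have hXY : ∑ j, X j ≤ Y := Multiset.le_add_right _ _
  have hW1join : W1.join ≤ (Q * D.Δ) • Y := by
    rw [hW1, join_sum]
    have h1 : ∑ j, (D.Δ • W j).join ≤ ∑ j, D.Δ • (Q • X j) := by
      apply Finset.sum_le_sum
      intro j _
      rw [join_nsmul]
      exact nsmul_le_nsmul_right (hW j).2 _
    refine h1.trans ?_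
    have h2 : ∑ j, D.Δ • (Q • X j) = (Q * D.Δ) • ∑ j, X j := by
      rw [Finset.smul_sum]
      apply Finset.sum_congr rfl
      intro j _
      rw [← mul_nsmul]
    rw [h2]
    exact nsmul_le_nsmul_right hXY _
  obtain ⟨R, hR⟩ := Multiset.le_iff_exists_add.1 hW1join
  set Lp : Multiset (Multiset (Fin n)) := ∑ i, Multiset.replicate (w i) (D.P i) with hLp
  have hLcount : ∀ l, (Lp.join).count l = ∑ i, w i * (D.P i).count l := by
    intro l
    rw [hLp, join_sum, Multiset.count_sum']
    apply Finset.sum_congr rfl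
    intro i _
    rw [Tags.join_replicate, Multiset.count_nsmul]
  have hW1count : ∀ l, (W1.join.map Prod.fst).count l = ∑ j, D.Δ * (u j * (D.c j).count l) := by
    intro l
    rw [hW1, join_sum, mset_map_sum, Multiset.count_sum']
    apply Finset.sum_congr rfl
    intro j _
    rw [join_nsmul, Multiset.map_nsmul, Multiset.count_nsmul, hWj j, Multiset.count_nsmul]
  have hkey : ∀ l, (∑ i, (w i : ℤ) * (D.P i).count l) +
      ∑ j, (D.Δ : ℤ) * (u j * (D.c j).count l) =
      (Q * D.Δ : ℕ) * ((Y.map Prod.fst).count l : ℤ) := by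
    intro l
    rw [hN l]
    have e1 : ∑ i, (w i : ℤ) * (D.P i).count l =
        Q * ∑ i, D.γ i * (D.P i).count l -
          ∑ j, ((u j : ℤ) - Q * T j) * ∑ i, D.δ j i * (D.P i).count l +
          M * (Q * D.Δ : ℕ) * ∑ i, ((D.P i).count l : ℤ) := by
      simp only [hwz, hBq, Finset.mul_sum]
      rw [Finset.sum_comm (s := (Finset.univ : Finset (Fin m))), ← Finset.sum_sub_distrib,
        ← Finset.sum_add_distrib]
      apply Finset.sum_congr rfl
      intro i _
      rw [add_mul, sub_mul, Finset.sum_mul]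
      congr 1
      congr 1
      · ring
      · apply Finset.sum_congr rfl
        intro j _
        ring
    have e2 : ∀ j, ∑ i, D.δ j i * ((D.P i).count l : ℤ) = D.Δ * (D.c j).count l := by
      intro j
      exact (D.span_c j l).symm
    have e3 : ∑ i, D.γ i * ((D.P i).count l : ℤ) = D.Δ * D.g0 l := (D.span_g l).symm
    rw [e1, e3]
    simp only [e2]
    have e4 : ∑ j, ((u j : ℤ) - Q * T j) * (D.Δ * (D.c j).count l) =
        D.Δ * ∑ j, (u j : ℤ) * (D.c j).count l - Q * D.Δ * ∑ j, (T j : ℤ) * (D.c j).count l := by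
      simp only [Finset.mul_sum]
      rw [← Finset.sum_sub_distrib]
      apply Finset.sum_congr rfl
      intro j _
      ring
    have e5 : ∑ j, (D.Δ : ℤ) * (u j * (D.c j).count l) =
        D.Δ * ∑ j, (u j : ℤ) * (D.c j).count l := by
      rw [Finset.mul_sum]
    rw [e4, e5]
    simp only [hcov]
    push_cast
    ring
  have hLR : Lp.join = R.map Prod.fst := by
    ext l
    have h1 : (W1.join.map Prod.fst).count l + (R.map Prod.fst).count l =
        (Q * D.Δ) * (Y.map Prod.fst).count l := by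
      rw [← Multiset.count_add, ← Multiset.map_add, ← hR, Multiset.map_nsmul,
        Multiset.count_nsmul]
    rw [hW1count l] at h1
    rw [hLcount l]
    have h2 := hkey l
    have h4 : ((∑ j, D.Δ * (u j * (D.c j).count l) + (R.map Prod.fst).count l : ℕ) : ℤ) =
        (((Q * D.Δ) * (Y.map Prod.fst).count l : ℕ) : ℤ) := by
      exact_mod_cast h1
    push_cast at h4 h2
    have h5 : ((∑ i, w i * (D.P i).count l : ℕ) : ℤ) = (((R.map Prod.fst).count l : ℕ) : ℤ) := by
      push_cast
      linarith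
    exact_mod_cast h5
  obtain ⟨S2, hS2, hS2R⟩ := exists_lift Prod.fst Lp R hLR.le
  have hS2R' : S2.join = R := by
    apply Multiset.eq_of_le_of_card_le hS2R
    have h1 : (S2.join.map Prod.fst) = R.map Prod.fst := by
      rw [← join_map_map, hS2, hLR]
    have h2 := congrArg Multiset.card h1
    rw [Multiset.card_map, Multiset.card_map] at h2
    exact h2.ge
  have hjoineq : (W1 + S2).join = (Q * D.Δ) • Y := by
    rw [Multiset.join_add, hR, hS2R']
  have hS2card : S2.card = ∑ i, w i := by
    have : (S2.map (Multiset.map Prod.fst)).card = S2.card := Multiset.card_map _ _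
    rw [← this, hS2, hLp, Multiset.card_sum]
    simp
  have hW1card : W1.card = ∑ j, D.Δ * u j := by
    rw [hW1, Multiset.card_sum]
    apply Finset.sum_congr rfl
    intro j _
    rw [Multiset.card_nsmul]
  have hmemY : ∀ P ∈ W1 + S2, ∀ t ∈ P, t ∈ Y := by
    intro P hP t ht
    have h3 : t ∈ (Q * D.Δ) • Y := by
      rw [← hjoineq]
      exact mem_join_of hP ht
    exact Multiset.mem_of_mem_nsmul h3
  have hsol := Node.sol_of_pats hL0 sz l (q := Q * D.Δ) hQΔ (W1 + S2) (by
      intro P hP
      refine ⟨fun t ht => ?_, ?_⟩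
      · have := hmemY P hP t ht
        rw [← hlY] at this
        exact this
      · have hcase : ((P.map Prod.fst).map D.size).sum < D.C ∨
            ((P.map Prod.fst).map D.size).sum = D.C ∧ (P.map Prod.snd).sum ≤ 0 := by
          rcases Multiset.mem_add.1 hP with h | h
          · right
            rw [hW1, Multiset.mem_sum] at h
            obtain ⟨j, -, hj⟩ := h
            have hpat := (hW j).1 P (Multiset.mem_of_mem_nsmul hj)
            refine ⟨?_, hpat.2⟩
            rw [hpat.1, D.c_size j]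
          · left
            have h1 : P.map Prod.fst ∈ Lp := by
              rw [← hS2]
              exact Multiset.mem_map_of_mem _ h
            rw [hLp, Multiset.mem_sum] at h1
            obtain ⟨i, -, hi⟩ := h1
            rw [Multiset.eq_of_mem_replicate hi]
            exact D.P_size i
        have h1 := encode_bin D.size_pos hE0 (fun t ht => hYb t (hmemY P hP t ht)) hcase
        rw [← hLz] at h1
        exact_mod_cast h1) (by rw [hlY, hjoineq])
  refine ⟨L, l.map sz, _, hL0, ?_, ?_, hsol, ?_⟩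
  · intro x hx
    obtain ⟨t, ht, rfl⟩ := List.mem_map.1 hx
    have ht' : t ∈ Y := by
      rw [← hlY]
      exact ht
    exact (hszz t ht').2
  · intro h0
    rw [List.map_eq_nil_iff] at h0
    apply hYne
    rw [← hlY, h0]
    rfl
  · intro N hpack
    obtain ⟨S, hS1, hS2', hS3⟩ := tpack_of_packable hL0 sz l hpack
    rw [hlY] at hS2'
    have hgood : ∀ b ∈ S, ((b.map Prod.fst).map D.size).sum ≤ D.C ∧
        (((b.map Prod.fst).map D.size).sum = D.C → (b.map Prod.snd).sum ≤ 0) := by
      intro b hb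
      apply decode_bin D.size_pos hE0 (fun t ht => hYb t ?_)
      · rw [← hLz]
        exact_mod_cast hS3 b hb
      · rw [← hS2']
        exact mem_join_of hb ht
    have hcount : ∀ j, cnt (D.c j) S ≤ T j := by
      intro j
      refine child_bound D.c D.c_disj X hXc Φ E (fun i t ht => (hΦX i t ht).1)
        (Int.natCast_nonneg Φ) j ?_ a (T j) (hXT j) S (le_of_eq hS2') ?_
      · have h1 : ((D.c j).card : ℤ) ≤ D.C := by exact_mod_cast hccard j
        have h2 : ((D.c j).card : ℤ) * Φ ≤ D.C * Φ :=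
          mul_le_mul_of_nonneg_right h1 (Int.natCast_nonneg Φ)
        rw [hE]
        linarith
      · intro P hP hPc
        apply (hgood P hP).2
        rw [hPc, D.c_size j]
    have h1 := pot_bins D.c D.c_inj D.p D.lam D.q D.φ D.ψ D.h
      (fun x => (x.map D.size).sum ≤ D.C)
      (fun x hx hxc => D.h_pat x hx hxc)
      (fun j g => by
        rw [add_assoc, D.c_φ j, add_zero]
        have := D.c_price j
        omega) S (fun P hP => (hgood P hP).1) 0
    rw [D.h_zero, zero_add, zero_add, hS2'] at h1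
    have h3 := pot_caps D.lam D.ψ D.h D.h_cap (fun j => T j - cnt (D.c j) S) Finset.univ
      (((Y.map Prod.fst).map D.φ).sum + ∑ j, cnt (D.c j) S • D.ψ j)
    have e1 : ((Y.map Prod.fst).map D.φ).sum + ∑ j, cnt (D.c j) S • D.ψ j +
        ∑ j, (T j - cnt (D.c j) S) • D.ψ j = D.cls := by
      rw [← hcls, add_assoc, ← Finset.sum_add_distrib]
      congr 1
      apply Finset.sum_congr rfl
      intro j _
      rw [← add_smul, Nat.add_sub_cancel' (hcount j)]
    have e2 : ∑ j, T j * D.lam j = ∑ j, cnt (D.c j) S * D.lam j +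
        ∑ j, (T j - cnt (D.c j) S) * D.lam j := by
      rw [← Finset.sum_add_distrib]
      apply Finset.sum_congr rfl
      intro j _
      rw [← add_mul, Nat.add_sub_cancel' (hcount j)]
    rw [e1] at h3
    have hmain : D.h D.cls + pN ≤ D.q * N + ∑ j, T j * D.lam j := by
      rw [e2, ← hS1]
      omega
    have hmain' : (D.h D.cls : ℝ) + pN ≤ D.q * N + ∑ j, (T j : ℝ) * D.lam j := by
      exact_mod_cast hmain
    -- the value
    have hval : (D.q : ℤ) * (∑ j, (D.Δ : ℤ) * u j + ∑ i, (w i : ℤ)) +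
        D.Δ * ∑ j, (u j : ℤ) * D.lam j = (Q * D.Δ : ℕ) * (pN : ℤ) := by
      have hpN' : (pN : ℤ) = ∑ l, (((Y.map Prod.fst).count l : ℕ) : ℤ) * D.p l := by
        rw [hpN, sum_count]
        push_cast
        simp
      have h1 : ∑ l, ((∑ i, (w i : ℤ) * (D.P i).count l) +
          ∑ j, (D.Δ : ℤ) * (u j * (D.c j).count l)) *
          (D.p l : ℤ) = (Q * D.Δ : ℕ) * (pN : ℤ) := by
        rw [hpN', Finset.mul_sum]
        apply Finset.sum_congr rfl
        intro l _
        rw [hkey l]
        ring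
      have h2 : ∀ l, ((∑ i, (w i : ℤ) * (D.P i).count l) +
          ∑ j, (D.Δ : ℤ) * (u j * (D.c j).count l)) *
          (D.p l : ℤ) = ∑ i, (w i : ℤ) * ((D.P i).count l * D.p l) +
          ∑ j, (D.Δ : ℤ) * u j * ((D.c j).count l * D.p l) := by
        intro l
        rw [add_mul, Finset.sum_mul, Finset.sum_mul]
        congr 1
        · apply Finset.sum_congr rfl
          intro i _
          ring
        · apply Finset.sum_congr rfl
          intro i _
          ring
      rw [Finset.sum_congr rfl (fun l _ => h2 l), Finset.sum_add_distrib, Finset.sum_comm,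
        Finset.sum_comm (s := (Finset.univ : Finset (Fin n)))] at h1
      have h4 : ∀ i, ∑ l, (w i : ℤ) * (((D.P i).count l : ℤ) * D.p l) = w i * D.q := by
        intro i
        rw [← Finset.mul_sum]
        congr 1
        have h5 := D.P_price i
        rw [sum_count] at h5
        rw [← h5]
        push_cast
        simp
      have h6 : ∀ j, ∑ l, (D.Δ : ℤ) * u j * (((D.c j).count l : ℤ) * D.p l) =
          D.Δ * u j * ((D.q : ℤ) + D.lam j) := by
        intro j
        rw [← Finset.mul_sum]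
        congr 1
        have h5 := D.c_price j
        rw [sum_count] at h5
        have h7 : ((∑ l, (D.c j).count l • D.p l : ℕ) : ℤ) = ((D.q + D.lam j : ℕ) : ℤ) := by
          exact_mod_cast h5
        push_cast at h7
        rw [← h7]
        simp
      rw [Finset.sum_congr rfl (fun i _ => h4 i), Finset.sum_congr rfl (fun j _ => h6 j)] at h1
      rw [← h1]
      rw [mul_add, Finset.mul_sum, Finset.mul_sum, Finset.mul_sum]
      have h7 : ∑ i, (w i : ℤ) * D.q = ∑ i, (D.q : ℤ) * w i :=
        Finset.sum_congr rfl (fun i _ => mul_comm _ _)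
      have h8 : ∑ j, (D.Δ : ℤ) * u j * ((D.q : ℤ) + D.lam j) =
          ∑ j, (D.q : ℤ) * ((D.Δ : ℤ) * u j) + ∑ j, (D.Δ : ℤ) * ((u j : ℤ) * D.lam j) := by
        rw [← Finset.sum_add_distrib]
        apply Finset.sum_congr rfl
        intro j _
        ring
      rw [h7, h8]
      ring
    have hvalq : (D.q : ℝ) * (∑ j, (D.Δ : ℝ) * u j + ∑ i, (w i : ℝ)) +
        D.Δ * ∑ j, (u j : ℝ) * D.lam j = (Q * D.Δ) * (pN : ℝ) := by exact_mod_cast hval
    have huV : ∀ j, (u j : ℝ) = Q * V j := by
      intro j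
      have := hV j
      have h9 : ((u j : ℚ) : ℝ) = ((Q * V j : ℚ) : ℝ) := by exact_mod_cast this
      push_cast at h9
      exact h9
    have hQ' : (0 : ℝ) < Q := by exact_mod_cast hQ
    have hΔ' : (0 : ℝ) < D.Δ := by exact_mod_cast D.Δ_pos
    have hq' : (0 : ℝ) < D.q := by exact_mod_cast D.q_pos
    have e3 : ∑ j, (u j : ℝ) * D.lam j = Q * ∑ j, (V j : ℝ) * D.lam j := by
      rw [Finset.mul_sum]
      apply Finset.sum_congr rfl
      intro j _
      rw [huV j]
      ring
    rw [e3] at hvalq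
    have e4 : (((W1 + S2).card : ℝ) / (Q * D.Δ : ℕ)) * D.q = pN - ∑ j, (V j : ℝ) * D.lam j := by
      rw [Multiset.card_add, hW1card, hS2card]
      push_cast
      rw [div_mul_eq_mul_div, div_eq_iff (by positivity)]
      linarith
    rw [div_le_iff₀ hq', sub_mul, e4]
    have e5 : ∑ j, (D.lam j : ℝ) * ((V j : ℝ) - T j) =
        ∑ j, (V j : ℝ) * D.lam j - ∑ j, (T j : ℝ) * D.lam j := by
      rw [← Finset.sum_sub_distrib]
      apply Finset.sum_congr rfl
      intro j _
      ring
    rw [e5]
    linarith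

/-- the gap theorem -/
theorem OuterNode.gap (D : OuterNode n m r G) (T : Fin m → ℕ) (V : Fin m → ℚ)
    (hD : ∀ j, WDef (D.c j) (T j) (V j)) :
    ∃ K : ℕ, ∀ k : ℕ, K ≤ k → ∃ I : List ℚ, IsInstance I ∧ OPT I = k ∧
      ((D.h D.cls : ℝ) + ∑ j, (D.lam j : ℝ) * ((V j : ℝ) - T j)) / D.q ≤ (OPT I : ℝ) - LP I := by
  obtain ⟨L, xs, v, hL, hxs, hne, hz, hN⟩ := D.inst_gap T V hD
  have hI : IsInstance (inst L xs) := isInstance_inst hL hxs
  have hmem : Packable (inst L xs) (OPT (inst L xs)) :=
    Nat.sInf_mem (s := {k | Packable (inst L xs) k}) ⟨_, packable_length hI⟩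
  obtain ⟨m', hm⟩ : ∃ m', OPT (inst L xs) = m' + 1 := by
    rcases Nat.eq_zero_or_pos (OPT (inst L xs)) with h | h
    · exfalso
      rw [h] at hmem
      obtain ⟨f, -⟩ := hmem
      have hlen : 0 < (inst L xs).length := by
        unfold inst
        rw [List.length_map]
        exact List.length_pos_iff.2 hne
      exact Fin.elim0 (f ⟨0, hlen⟩)
    · exact ⟨OPT (inst L xs) - 1, by omega⟩
  have hp1 : Packable (inst L xs) (m' + 1) := by
    rw [← hm]
    exact hmem
  have hp2 : ¬ Packable (inst L xs) m' := by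
    intro h
    have : OPT (inst L xs) ≤ m' := Nat.sInf_le h
    omega
  refine ⟨m' + 1, fun k hk => ?_⟩
  obtain ⟨J, hJ1, hJ2, hJ3⟩ := family hI hp1 hp2 hz (k - (m' + 1))
  have hk' : m' + (k - (m' + 1)) + 1 = k := by omega
  rw [hk'] at hJ2
  refine ⟨J, hJ1, hJ2, ?_⟩
  have h1 := hN (m' + 1) hp1
  have hk2 : ((k - (m' + 1) : ℕ) : ℝ) = (k : ℝ) - (m' + 1) := by
    rw [Nat.cast_sub hk]
    push_cast
    ring
  rw [hk2] at hJ3
  rw [hJ2]
  push_cast at h1
  linarith

end Vale.Agent.P302.Gen
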