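import Mathlib

/-!
# The problem of exact patterns `(y; x, x')`
-/

namespace Vale.Agent.P302

/-- `S` is a collection of usable triples `(x, x', y)`, `x + x' + y ≤ 0`, that together use every
element of `X` and of `Y` at most as often as it occurs there -/
def UPack (X Y : Multiset ℤ) (S : Multiset (ℤ × ℤ × ℤ)) : Prop :=
  (∀ t ∈ S, t.1 + t.2.1 + t.2.2 ≤ 0) ∧
    S.map (fun t => t.1) + S.map (fun t => t.2.1) ≤ X ∧ S.map (fun t => t.2.2) ≤ Y

/-- there is a problem whose integral optimum is at most `T` and which has a fractional solution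
(an integral one for the `q`-fold problem) of value `V` -/
def UDef (T : ℕ) (V : ℚ) : Prop :=
  ∃ (X Y : Multiset ℤ) (q : ℕ) (W : Multiset (ℤ × ℤ × ℤ)), 0 < q ∧
    (∀ S, UPack X Y S → Multiset.card S ≤ T) ∧ UPack (q • X) (q • Y) W ∧
    (Multiset.card W : ℚ) = q * V

end Vale.Agent.P302
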