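import Vale.Agent.P302.H794.Tagged
import Vale.Agent.P302.H794.UProb
import Vale.Agent.P302.H794.Tags

/-!
# The outer node: from a `UDef` to a bin packing instance
-/

namespace Vale.Agent.P302.Outer

open Vale.Agent.P302 Vale.Agent.P302.Tags

/-- macro size, in units of `1/10000`; tags: `0,1` the `y`- and `x`-items of the first exact
pattern, `2,3` those of the second one, `4` the extra item -/
def mac : Fin 5 → ℤ := ![6860, 1570, 3704, 3148, 4999]

/-- the macro level: a bin has price at most `18` (prices `16, 2, 8, 6, 9`) or is an exact pattern -/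
theorem macro_bound (a b c d e : ℕ)
    (h : 6860 * a + 1570 * b + 3704 * c + 3148 * d + 4999 * e ≤ 10000) :
    16 * a + 2 * b + 8 * c + 6 * d + 9 * e ≤ 18 ∨ (a = 1 ∧ b = 2 ∧ c = 0 ∧ d = 0 ∧ e = 0) ∨
      (a = 0 ∧ b = 0 ∧ c = 1 ∧ d = 2 ∧ e = 0) := by
  have ha : a ≤ 1 := by omega
  have hb : b ≤ 6 := by omega
  have hc : c ≤ 2 := by omega
  have hd : d ≤ 3 := by omega
  have he : e ≤ 2 := by omega
  interval_cases a <;> interval_cases c <;> interval_cases d <;> interval_cases e <;> omega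

/-- total size of a bin in fine units -/
def tot (B : ℤ) (M : Multiset (Fin 5 × ℤ)) : ℤ := (M.map (fun i => mac i.1 * B + i.2)).sum

theorem tot_eq (B : ℤ) (M : Multiset (Fin 5 × ℤ)) :
    tot B M = (6860 * num 0 M + 1570 * num 1 M + 3704 * num 2 M + 3148 * num 3 M +
      4999 * num 4 M) * B + (M.map (fun i => i.2)).sum := by
  unfold tot
  rw [Multiset.sum_map_add, sum_by_tag (fun a => mac a * B) M]
  congr 1
  simp only [Fin.sum_univ_five, mac]
  simp
  ring

theorem sum_lower {Φ : ℤ} (M : Multiset (Fin 5 × ℤ)) (h : ∀ i ∈ M, -Φ ≤ i.2) :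
    -(M.card : ℤ) * Φ ≤ (M.map (fun i => i.2)).sum := by
  induction M using Multiset.induction with
  | empty => simp
  | cons i M ih =>
    have h1 := ih (fun j hj => h j (by simp [hj]))
    have h2 := h i (by simp)
    rw [Multiset.map_cons, Multiset.sum_cons, Multiset.card_cons]
    push_cast
    linarith

theorem bin_cases {B Φ : ℤ} (hΦ : 0 ≤ Φ) (hB : 7 * Φ ≤ B) (hB0 : 0 < B)
    (M : Multiset (Fin 5 × ℤ)) (h : ∀ i ∈ M, -Φ ≤ i.2) (ht : tot B M ≤ 10000 * B) :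
    16 * num 0 M + 2 * num 1 M + 8 * num 2 M + 6 * num 3 M + 9 * num 4 M ≤ 18 ∨
    (∃ t : ℤ × ℤ × ℤ, fine 1 M = {t.1} + {t.2.1} ∧ fine 0 M = {t.2.2} ∧ num 2 M = 0 ∧ num 3 M = 0 ∧
      num 4 M = 0 ∧ t.1 + t.2.1 + t.2.2 ≤ 0) ∨
    (∃ t : ℤ × ℤ × ℤ, fine 3 M = {t.1} + {t.2.1} ∧ fine 2 M = {t.2.2} ∧ num 0 M = 0 ∧ num 1 M = 0 ∧
      num 4 M = 0 ∧ t.1 + t.2.1 + t.2.2 ≤ 0) := by
  have hlow := sum_lower M h
  have hcard : (M.card : ℤ) = num 0 M + num 1 M + num 2 M + num 3 M + num 4 M := by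
    rw [card_by_tag, Fin.sum_univ_five]
    push_cast
    ring
  have ht' := ht
  rw [tot_eq] at ht'
  set m : ℤ := 6860 * num 0 M + 1570 * num 1 M + 3704 * num 2 M + 3148 * num 3 M +
      4999 * num 4 M with hm
  have hk : 1570 * (M.card : ℤ) ≤ m := by rw [hcard, hm]; omega
  have hc0 : (0 : ℤ) ≤ M.card := by positivity
  have hmac : m ≤ 10000 := by
    by_contra hcon
    have h1 : m * B ≤ 10000 * B + (M.card : ℤ) * Φ := by linarith
    have h2 : 7 * ((M.card : ℤ) * Φ) ≤ (M.card : ℤ) * B := by nlinarith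
    have h3 : 1570 * ((M.card : ℤ) * B) ≤ m * B := by nlinarith
    have h4 : 10001 * B ≤ m * B := by nlinarith
    nlinarith
  have hmac' : 6860 * num 0 M + 1570 * num 1 M + 3704 * num 2 M + 3148 * num 3 M +
      4999 * num 4 M ≤ 10000 := by
    have : ((6860 * num 0 M + 1570 * num 1 M + 3704 * num 2 M + 3148 * num 3 M +
      4999 * num 4 M : ℕ) : ℤ) ≤ 10000 := by push_cast; exact hmac
    exact_mod_cast this
  rcases macro_bound _ _ _ _ _ hmac' with h1 | ⟨ha, hb, hc, hd, he⟩ | ⟨ha, hb, hc, hd, he⟩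
  · exact Or.inl h1
  · right; left
    obtain ⟨y, hy⟩ := Multiset.card_eq_one.1 ha
    obtain ⟨x, x', hx⟩ := Multiset.card_eq_two.1 hb
    refine ⟨(x, x', y), by rw [hx]; rfl, hy, hc, hd, he, ?_⟩
    have hs := sum_fine_by_tag M
    rw [Fin.sum_univ_five, hy, hx, Multiset.card_eq_zero.1 hc, Multiset.card_eq_zero.1 hd,
      Multiset.card_eq_zero.1 he] at hs
    simp at hs
    rw [ha, hb, hc, hd, he] at hm
    norm_num at hm
    rw [hm, hs] at ht'
    simp only
    linarith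
  · right; right
    obtain ⟨y, hy⟩ := Multiset.card_eq_one.1 hc
    obtain ⟨x, x', hx⟩ := Multiset.card_eq_two.1 hd
    refine ⟨(x, x', y), by rw [hx]; rfl, hy, ha, hb, he, ?_⟩
    have hs := sum_fine_by_tag M
    rw [Fin.sum_univ_five, hy, hx, Multiset.card_eq_zero.1 ha, Multiset.card_eq_zero.1 hb,
      Multiset.card_eq_zero.1 he] at hs
    simp at hs
    rw [ha, hb, hc, hd, he] at hm
    norm_num at hm
    rw [hm, hs] at ht'
    simp only
    linarith

/-- a good collection of exact triples out of the tags `a` (for `x`) and `b` (for `y`) -/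
def Good (Φ : ℤ) (a b : Fin 5) (M : Multiset (Fin 5 × ℤ)) (S : Multiset (ℤ × ℤ × ℤ)) : Prop :=
  (∀ t ∈ S, t.1 + t.2.1 + t.2.2 ≤ 0 ∧ -Φ ≤ t.1 ∧ -Φ ≤ t.2.1 ∧ -Φ ≤ t.2.2) ∧
    S.map (fun t => t.1) + S.map (fun t => t.2.1) ≤ fine a M ∧ S.map (fun t => t.2.2) ≤ fine b M

theorem Good.mono {Φ : ℤ} {a b : Fin 5} {M N : Multiset (Fin 5 × ℤ)} {S : Multiset (ℤ × ℤ × ℤ)}
    (h : Good Φ a b M S) : Good Φ a b (N + M) S := by
  obtain ⟨h1, h2, h3⟩ := h
  refine ⟨h1, ?_, ?_⟩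
  · rw [fine_add]; exact h2.trans (Multiset.le_add_left _ _)
  · rw [fine_add]; exact h3.trans (Multiset.le_add_left _ _)

theorem Good.cons {Φ : ℤ} {a b : Fin 5} {M N : Multiset (Fin 5 × ℤ)} {S : Multiset (ℤ × ℤ × ℤ)}
    (h : Good Φ a b M S) {t : ℤ × ℤ × ℤ} (hN : ∀ i ∈ N, -Φ ≤ i.2)
    (h1 : fine a N = {t.1} + {t.2.1}) (h2 : fine b N = {t.2.2}) (h3 : t.1 + t.2.1 + t.2.2 ≤ 0) :
    Good Φ a b (N + M) (t ::ₘ S) := by
  obtain ⟨g1, g2, g3⟩ := h
  have m1 : (a, t.1) ∈ N := by rw [← mem_fine, h1]; simp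
  have m2 : (a, t.2.1) ∈ N := by rw [← mem_fine, h1]; simp
  have m3 : (b, t.2.2) ∈ N := by rw [← mem_fine, h2]; simp
  refine ⟨?_, ?_, ?_⟩
  · intro u hu
    rcases Multiset.mem_cons.1 hu with rfl | hu
    · exact ⟨h3, hN _ m1, hN _ m2, hN _ m3⟩
    · exact g1 u hu
  · rw [fine_add, h1, Multiset.map_cons, Multiset.map_cons]
    have : t.1 ::ₘ Multiset.map (fun t => t.1) S + t.2.1 ::ₘ Multiset.map (fun t => t.2.1) S
        = ({t.1} + {t.2.1}) + (Multiset.map (fun t => t.1) S + Multiset.map (fun t => t.2.1) S) := by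
      rw [← Multiset.singleton_add, ← Multiset.singleton_add]
      abel
    rw [this]
    exact add_le_add_right g2 _
  · rw [fine_add, h2, Multiset.map_cons, ← Multiset.singleton_add]
    exact add_le_add_right g3 _

theorem bins {B Φ : ℤ} (hΦ : 0 ≤ Φ) (hB : 7 * Φ ≤ B) (hB0 : 0 < B)
    (P : Multiset (Multiset (Fin 5 × ℤ)))
    (h : ∀ M ∈ P, (∀ i ∈ M, -Φ ≤ i.2) ∧ tot B M ≤ 10000 * B) :
    ∃ S₁ S₂ : Multiset (ℤ × ℤ × ℤ), Good Φ 1 0 P.join S₁ ∧ Good Φ 3 2 P.join S₂ ∧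
      16 * num 0 P.join + 2 * num 1 P.join + 8 * num 2 P.join + 6 * num 3 P.join +
        9 * num 4 P.join ≤ 18 * P.card + 2 * S₁.card + 2 * S₂.card := by
  induction P using Multiset.induction with
  | empty => exact ⟨0, 0, ⟨by simp, by simp, by simp⟩, ⟨by simp, by simp, by simp⟩, by simp⟩
  | cons M P ih =>
    obtain ⟨S₁, S₂, g1, g2, hle⟩ := ih (fun N hN => h N (by simp [hN]))
    obtain ⟨hM1, hM2⟩ := h M (by simp)
    rw [Multiset.join_cons]
    simp only [num_add, Multiset.card_cons]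
    rcases bin_cases hΦ hB hB0 M hM1 hM2 with h1 | ⟨t, h1, h2, h3, h4, h5, h6⟩ |
      ⟨t, h1, h2, h3, h4, h5, h6⟩
    · exact ⟨S₁, S₂, g1.mono, g2.mono, by omega⟩
    · refine ⟨t ::ₘ S₁, S₂, g1.cons hM1 h1 h2 h6, g2.mono, ?_⟩
      have e1 : num 1 M = 2 := by unfold num; rw [h1]; rfl
      have e0 : num 0 M = 1 := by unfold num; rw [h2]; rfl
      rw [Multiset.card_cons]
      omega
    · refine ⟨S₁, t ::ₘ S₂, g1.mono, g2.cons hM1 h1 h2 h6, ?_⟩
      have e1 : num 3 M = 2 := by unfold num; rw [h1]; rfl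
      have e0 : num 2 M = 1 := by unfold num; rw [h2]; rfl
      rw [Multiset.card_cons]
      omega

/-- the sizes as natural numbers -/
def size (B : ℤ) (i : Fin 5 × ℤ) : ℕ := (mac i.1 * B + i.2).toNat

theorem size_sum (B : ℤ) (M : Multiset (Fin 5 × ℤ)) (h : ∀ i ∈ M, 0 ≤ mac i.1 * B + i.2) :
    (((M.map (size B)).sum : ℕ) : ℤ) = tot B M := by
  induction M using Multiset.induction with
  | empty => simp [tot]
  | cons i M ih =>
    have h1 := ih (fun j hj => h j (by simp [hj]))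
    have h2 := h i (by simp)
    unfold tot at h1 ⊢
    rw [Multiset.map_cons, Multiset.sum_cons, Multiset.map_cons, Multiset.sum_cons, ← h1]
    push_cast
    congr 1
    exact Int.toNat_of_nonneg h2

theorem mac_bounds (a : Fin 5) : 1570 ≤ mac a ∧ mac a ≤ 6860 := by
  fin_cases a <;> simp [mac]

/-- the instance -/
def items (X Y : Multiset ℤ) (β γ δ : ℕ) (E : ℤ) : Multiset (Fin 5 × ℤ) :=
  tag 0 Y + (tag 1 X + Multiset.replicate β (1, E)) + (tag 2 Y + Multiset.replicate γ (2, E)) +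
    (tag 3 X + Multiset.replicate δ (3, E)) + {(4, 0)}

theorem fine_replicate (a b : Fin 5) (k : ℕ) (E : ℤ) :
    fine a (Multiset.replicate k (b, E)) = if a = b then Multiset.replicate k E else 0 := by
  have := fine_tag a b (Multiset.replicate k E)
  rwa [tag_replicate] at this

theorem fine_single (a b : Fin 5) (E : ℤ) :
    fine a ({(b, E)} : Multiset (Fin 5 × ℤ)) = if a = b then {E} else 0 := by
  have := fine_replicate a b 1 E
  simpa using this

theorem fine_items (X Y : Multiset ℤ) (β γ δ : ℕ) (E : ℤ) :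
    fine 0 (items X Y β γ δ E) = Y ∧ fine 1 (items X Y β γ δ E) = X + Multiset.replicate β E ∧
    fine 2 (items X Y β γ δ E) = Y + Multiset.replicate γ E ∧
    fine 3 (items X Y β γ δ E) = X + Multiset.replicate δ E ∧
    fine 4 (items X Y β γ δ E) = {0} := by
  unfold items
  simp only [fine_add, fine_tag, fine_replicate, fine_single]
  refine ⟨?_, ?_, ?_, ?_, ?_⟩ <;> simp

theorem mem_items {X Y : Multiset ℤ} {β γ δ : ℕ} {E : ℤ} {i : Fin 5 × ℤ}
    (h : i ∈ items X Y β γ δ E) : i.2 ∈ X ∨ i.2 ∈ Y ∨ i.2 = E ∨ i.2 = 0 := by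
  unfold items at h
  simp only [Multiset.mem_add, mem_tag, Multiset.mem_replicate, Multiset.mem_singleton] at h
  rcases h with (((h | h | h) | h | h) | h | h) | h
  · exact Or.inr (Or.inl h.2)
  · exact Or.inl h.2
  · rw [h.2]; simp
  · exact Or.inr (Or.inl h.2)
  · rw [h.2]; simp
  · exact Or.inl h.2
  · rw [h.2]; simp
  · rw [h]; simp

theorem Good.upack {Φ : ℕ} {a b : Fin 5} {M : Multiset (Fin 5 × ℤ)} {S : Multiset (ℤ × ℤ × ℤ)}
    {X Y : Multiset ℤ} {k m : ℕ} (h : Good Φ a b M S)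
    (ha : fine a M = X + Multiset.replicate k (2 * (Φ : ℤ) + 1))
    (hb : fine b M = Y + Multiset.replicate m (2 * (Φ : ℤ) + 1)) : UPack X Y S := by
  obtain ⟨h1, h2, h3⟩ := h
  refine ⟨fun t ht => (h1 t ht).1, ?_, ?_⟩
  · rw [ha] at h2
    refine le_of_le_add_replicate h2 ?_
    intro hE
    simp only [Multiset.mem_add, Multiset.mem_map] at hE
    rcases hE with ⟨t, ht, he⟩ | ⟨t, ht, he⟩
    · have := h1 t ht; omega
    · have := h1 t ht; omega
  · rw [hb] at h3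
    refine le_of_le_add_replicate h3 ?_
    intro hE
    simp only [Multiset.mem_map] at hE
    obtain ⟨t, ht, he⟩ := hE
    have := h1 t ht; omega

end Vale.Agent.P302.Outer
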