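import Vale.Agent.P302.H794.URec
import Vale.Agent.P302.H877.PProb

/-!
# The recursion for the `(x, x', x'')` problem
-/

namespace Vale.Agent.P302

open Tags

/-- tagged version of `PPack` -/
def TPackP {α : Type*} (v : α → ℤ) (M : Multiset α) (S : Multiset (α × α × α)) : Prop :=
  (∀ t ∈ S, v t.1 + v t.2.1 + v t.2.2 ≤ 0) ∧
    S.map (fun t => t.1) + S.map (fun t => t.2.1) + S.map (fun t => t.2.2) ≤ M

theorem TPackP.push {α : Type*} {v : α → ℤ} {M : Multiset α} {S : Multiset (α × α × α)}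
    (h : TPackP v M S) : PPack (M.map v) (S.map (fun t => (v t.1, v t.2.1, v t.2.2))) := by
  obtain ⟨h1, h2⟩ := h
  refine ⟨?_, ?_⟩
  · intro t ht
    obtain ⟨s, hs, rfl⟩ := Multiset.mem_map.1 ht
    exact h1 s hs
  · have := Multiset.map_le_map (f := v) h2
    rw [Multiset.map_add, Multiset.map_add, Multiset.map_map, Multiset.map_map,
      Multiset.map_map] at this
    rw [Multiset.map_map, Multiset.map_map, Multiset.map_map]
    exact this

theorem liftP {α : Type*} (v : α → ℤ) (S : Multiset (ℤ × ℤ × ℤ)) :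
    ∀ (M : Multiset α), PPack (M.map v) S →
    ∃ S' : Multiset (α × α × α), TPackP v M S' ∧ S'.card = S.card := by
  induction S using Multiset.induction with
  | empty =>
    intro M _
    exact ⟨0, ⟨by simp, by simp⟩, by simp⟩
  | cons t S ih =>
    intro M h
    obtain ⟨h1, h2⟩ := h
    simp only [Multiset.map_cons, Multiset.cons_add, Multiset.add_cons] at h2
    have m1 : t.1 ∈ M.map v := Multiset.mem_of_le h2 (by simp)
    obtain ⟨a, ha, hav⟩ := Multiset.mem_map.1 m1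
    obtain ⟨M1, rfl⟩ := Multiset.exists_cons_of_mem ha
    have h2' : t.1 ::ₘ t.2.1 ::ₘ t.2.2 ::ₘ (S.map (fun t => t.1) + S.map (fun t => t.2.1) +
        S.map (fun t => t.2.2)) ≤ (a ::ₘ M1).map v := by
      refine le_of_eq_of_le ?_ h2
      simp only [← Multiset.singleton_add]
      abel
    rw [Multiset.map_cons, hav, Multiset.cons_le_cons_iff] at h2'
    have m2 : t.2.1 ∈ M1.map v := Multiset.mem_of_le h2' (by simp)
    obtain ⟨b, hb, hbv⟩ := Multiset.mem_map.1 m2
    obtain ⟨M2, rfl⟩ := Multiset.exists_cons_of_mem hb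
    rw [Multiset.map_cons, hbv, Multiset.cons_le_cons_iff] at h2'
    have m3 : t.2.2 ∈ M2.map v := Multiset.mem_of_le h2' (by simp)
    obtain ⟨c, hc, hcv⟩ := Multiset.mem_map.1 m3
    obtain ⟨M3, rfl⟩ := Multiset.exists_cons_of_mem hc
    rw [Multiset.map_cons, hcv, Multiset.cons_le_cons_iff] at h2'
    obtain ⟨S', ⟨g1, g2⟩, g4⟩ := ih M3 ⟨fun s hs => h1 s (by simp [hs]), h2'⟩
    refine ⟨(a, b, c) ::ₘ S', ⟨?_, ?_⟩, ?_⟩
    · intro s hs
      rcases Multiset.mem_cons.1 hs with rfl | hs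
      · simp only [hav, hbv, hcv]
        exact h1 t (by simp)
      · exact g1 s hs
    · refine le_of_eq_of_le ?_ (Multiset.cons_le_cons a (Multiset.cons_le_cons b
        (Multiset.cons_le_cons c g2)))
      simp only [Multiset.map_cons]
      simp only [← Multiset.singleton_add]
      abel
    · rw [Multiset.card_cons, Multiset.card_cons, g4]

namespace PRec

def mac : Fin 4 → ℤ := ![0, 3, -6, -2]
def pr : Fin 4 → ℕ := ![1, 0, 3, 2]

theorem macro_le : ∀ (a b c : Fin 4), mac a + mac b + mac c ≤ 0 →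
    4 ≤ pr a + pr b + pr c ∨ (a = 0 ∧ b = 0 ∧ c = 0) ∨ (a = 1 ∧ b = 1 ∧ c = 2) ∨
      (a = 1 ∧ b = 2 ∧ c = 1) ∨ (a = 2 ∧ b = 1 ∧ c = 1) := by
  decide

def val (B : ℤ) (i : Fin 4 × ℤ) : ℤ := mac i.1 * B + i.2

/-- all items of a collection of triples -/
def itemsOf (S : Multiset ((Fin 4 × ℤ) × (Fin 4 × ℤ) × (Fin 4 × ℤ))) : Multiset (Fin 4 × ℤ) :=
  S.map (fun t => t.1) + S.map (fun t => t.2.1) + S.map (fun t => t.2.2)

theorem itemsOf_cons (t : (Fin 4 × ℤ) × (Fin 4 × ℤ) × (Fin 4 × ℤ))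
    (S : Multiset ((Fin 4 × ℤ) × (Fin 4 × ℤ) × (Fin 4 × ℤ))) :
    itemsOf (t ::ₘ S) = ({t.1} + {t.2.1} + {t.2.2}) + itemsOf S := by
  unfold itemsOf
  simp only [Multiset.map_cons]
  simp only [← Multiset.singleton_add]
  abel

def Ok (Φ : ℤ) (S : Multiset (ℤ × ℤ × ℤ)) : Prop :=
  ∀ t ∈ S, t.1 + t.2.1 + t.2.2 ≤ 0 ∧ -Φ ≤ t.1 ∧ -Φ ≤ t.2.1 ∧ -Φ ≤ t.2.2

theorem collect {B Φ : ℤ} (hΦ : 0 ≤ Φ) (hB : 3 * Φ < B)
    (S : Multiset ((Fin 4 × ℤ) × (Fin 4 × ℤ) × (Fin 4 × ℤ)))
    (h : ∀ t ∈ S, val B t.1 + val B t.2.1 + val B t.2.2 ≤ 0 ∧ -Φ ≤ t.1.2 ∧ -Φ ≤ t.2.1.2 ∧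
      -Φ ≤ t.2.2.2) :
    ∃ SP SU : Multiset (ℤ × ℤ × ℤ), Ok Φ SP ∧ Ok Φ SU ∧
      SP.map (fun t => t.1) + SP.map (fun t => t.2.1) + SP.map (fun t => t.2.2)
        ≤ fine 0 (itemsOf S) ∧
      SU.map (fun t => t.1) + SU.map (fun t => t.2.1) ≤ fine 1 (itemsOf S) ∧
      SU.map (fun t => t.2.2) ≤ fine 2 (itemsOf S) ∧
      4 * S.card ≤ ((itemsOf S).map (fun i => pr i.1)).sum + SP.card + SU.card := by
  induction S using Multiset.induction with
  | empty =>
    refine ⟨0, 0, ?_, ?_, ?_, ?_, ?_, ?_⟩ <;> simp [Ok, itemsOf]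
  | cons t S ih =>
    obtain ⟨SP, SU, h1, h2, h3, h4, h5, h6⟩ := ih (fun s hs => h s (by simp [hs]))
    obtain ⟨g1, g2, g3, g4⟩ := h t (by simp)
    rw [itemsOf_cons]
    obtain ⟨⟨a, x⟩, ⟨b, y⟩, ⟨c, z⟩⟩ := t
    simp only at g1 g2 g3 g4
    have hmac : mac a + mac b + mac c ≤ 0 := by
      by_contra hcon
      have h4 : 1 ≤ mac a + mac b + mac c := by omega
      unfold val at g1
      simp only at g1
      nlinarith
    simp only [fine_add, Multiset.map_add, Multiset.sum_add, Multiset.card_cons,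
      Multiset.map_singleton, Multiset.sum_singleton]
    have e : ∀ (i j : Fin 4) (w : ℤ), fine i ({(j, w)} : Multiset (Fin 4 × ℤ)) =
        if i = j then {w} else 0 := by
      intro i j w
      have := fine_tag i j {w}
      simpa [tag] using this
    rcases macro_le _ _ _ hmac with hp | ⟨rfl, rfl, rfl⟩ | ⟨rfl, rfl, rfl⟩ | ⟨rfl, rfl, rfl⟩ |
      ⟨rfl, rfl, rfl⟩
    · refine ⟨SP, SU, h1, h2, h3.trans (Multiset.le_add_left _ _),
        h4.trans (Multiset.le_add_left _ _), h5.trans (Multiset.le_add_left _ _), by omega⟩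
    · have hs : x + y + z ≤ 0 := by simpa [val, mac] using g1
      refine ⟨(x, y, z) ::ₘ SP, SU, ?_, h2, ?_, h4.trans (Multiset.le_add_left _ _),
        h5.trans (Multiset.le_add_left _ _), ?_⟩
      · intro s hs'
        rcases Multiset.mem_cons.1 hs' with rfl | hs'
        · exact ⟨hs, g2, g3, g4⟩
        · exact h1 s hs'
      · simp only [e, if_true]
        refine le_of_eq_of_le ?_ (add_le_add_right h3 ({x} + {y} + {z}))
        simp only [Multiset.map_cons]
        simp only [← Multiset.singleton_add]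
        abel
      · rw [Multiset.card_cons]
        have : pr 0 = 1 := rfl
        omega
    · have hs : x + y + z ≤ 0 := by
        simp [val, mac] at g1; linarith
      refine ⟨SP, (x, y, z) ::ₘ SU, h1, ?_, h3.trans (Multiset.le_add_left _ _), ?_, ?_, ?_⟩
      · intro s hs'
        rcases Multiset.mem_cons.1 hs' with rfl | hs'
        · exact ⟨hs, g2, g3, g4⟩
        · exact h2 s hs'
      · simp only [e]
        refine le_of_eq_of_le ?_ (add_le_add_right h4 ({x} + {y} + 0))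
        simp only [Multiset.map_cons]
        simp only [← Multiset.singleton_add]
        abel
      · simp only [e]
        refine le_of_eq_of_le ?_ (add_le_add_right h5 (0 + 0 + {z}))
        simp only [Multiset.map_cons]
        simp only [← Multiset.singleton_add]
        abel
      · rw [Multiset.card_cons]
        have e1 : pr 1 = 0 := rfl
        have e2 : pr 2 = 3 := rfl
        omega
    · have hs : x + z + y ≤ 0 := by
        simp [val, mac] at g1; linarith
      refine ⟨SP, (x, z, y) ::ₘ SU, h1, ?_, h3.trans (Multiset.le_add_left _ _), ?_, ?_, ?_⟩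
      · intro s hs'
        rcases Multiset.mem_cons.1 hs' with rfl | hs'
        · exact ⟨hs, g2, g4, g3⟩
        · exact h2 s hs'
      · simp only [e]
        refine le_of_eq_of_le ?_ (add_le_add_right h4 ({x} + 0 + {z}))
        simp only [Multiset.map_cons]
        simp only [← Multiset.singleton_add]
        abel
      · simp only [e]
        refine le_of_eq_of_le ?_ (add_le_add_right h5 (0 + {y} + 0))
        simp only [Multiset.map_cons]
        simp only [← Multiset.singleton_add]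
        abel
      · rw [Multiset.card_cons]
        have e1 : pr 1 = 0 := rfl
        have e2 : pr 2 = 3 := rfl
        omega
    · have hs : y + z + x ≤ 0 := by
        simp [val, mac] at g1; linarith
      refine ⟨SP, (y, z, x) ::ₘ SU, h1, ?_, h3.trans (Multiset.le_add_left _ _), ?_, ?_, ?_⟩
      · intro s hs'
        rcases Multiset.mem_cons.1 hs' with rfl | hs'
        · exact ⟨hs, g3, g4, g2⟩
        · exact h2 s hs'
      · simp only [e]
        refine le_of_eq_of_le ?_ (add_le_add_right h4 (0 + {y} + {z}))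
        simp only [Multiset.map_cons]
        simp only [← Multiset.singleton_add]
        abel
      · simp only [e]
        refine le_of_eq_of_le ?_ (add_le_add_right h5 ({x} + 0 + 0))
        simp only [Multiset.map_cons]
        simp only [← Multiset.singleton_add]
        abel
      · rw [Multiset.card_cons]
        have e1 : pr 1 = 0 := rfl
        have e2 : pr 2 = 3 := rfl
        omega

/-- the items of the new problem -/
def MP (X XU YU : Multiset ℤ) (E : ℤ) (β nu nr : ℕ) : Multiset (Fin 4 × ℤ) :=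
  tag 0 X + Multiset.replicate β (0, E) + tag 1 XU + Multiset.replicate nu (1, E) + tag 2 YU +
    Multiset.replicate nr (3, 0)

theorem fine_MP (X XU YU : Multiset ℤ) (E : ℤ) (β nu nr : ℕ) :
    fine 0 (MP X XU YU E β nu nr) = X + Multiset.replicate β E ∧
    fine 1 (MP X XU YU E β nu nr) = XU + Multiset.replicate nu E ∧
    fine 2 (MP X XU YU E β nu nr) = YU + Multiset.replicate 0 E := by
  unfold MP
  simp only [fine_add, fine_tag, URec.fine_rep]
  refine ⟨?_, ?_, ?_⟩ <;> simp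

theorem price_MP (X XU YU : Multiset ℤ) (E : ℤ) (β nu nr : ℕ) :
    ((MP X XU YU E β nu nr).map (fun i => pr i.1)).sum = X.card + β + 3 * YU.card + 2 * nr := by
  unfold MP tag
  simp only [Multiset.map_add, Multiset.sum_add, Multiset.map_map, Multiset.map_replicate,
    Multiset.sum_replicate, Function.comp_def]
  simp [pr]
  ring

theorem mem_MP {X XU YU : Multiset ℤ} {E : ℤ} {β nu nr : ℕ} {i : Fin 4 × ℤ}
    (h : i ∈ MP X XU YU E β nu nr) : i.2 ∈ X ∨ i.2 ∈ XU ∨ i.2 ∈ YU ∨ i.2 = E ∨ i.2 = 0 := by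
  unfold MP at h
  simp only [Multiset.mem_add, mem_tag, Multiset.mem_replicate] at h
  rcases h with ((((h | h) | h) | h) | h) | h
  · exact Or.inl h.2
  · rw [h.2]; simp
  · exact Or.inr (Or.inl h.2)
  · rw [h.2]; simp
  · exact Or.inr (Or.inr (Or.inl h.2))
  · rw [h.2]; simp

theorem not_mem_of_ok {Φ : ℕ} {S : Multiset (ℤ × ℤ × ℤ)} (h : Ok Φ S) (f : ℤ × ℤ × ℤ → ℤ)
    (hf : ∀ t : ℤ × ℤ × ℤ, f t = t.1 ∨ f t = t.2.1 ∨ f t = t.2.2) :
    (2 * (Φ : ℤ) + 1) ∉ S.map f := by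
  intro hE
  obtain ⟨t, ht, he⟩ := Multiset.mem_map.1 hE
  obtain ⟨h1, h2, h3, h4⟩ := h t ht
  rcases hf t with h5 | h5 | h5 <;> omega

theorem bound {X XU YU : Multiset ℤ} {TP TU Φ : ℕ} (hX : ∀ x ∈ X, -(Φ : ℤ) ≤ x ∧ x ≤ Φ)
    (hXU : ∀ x ∈ XU, -(Φ : ℤ) ≤ x ∧ x ≤ Φ) (hYU : ∀ y ∈ YU, -(Φ : ℤ) ≤ y ∧ y ≤ Φ)
    (hTP : ∀ S, PPack X S → S.card ≤ TP) (hTU : ∀ S, UPack XU YU S → S.card ≤ TU)
    (β nu nr : ℕ) {B : ℤ} (hB : 3 * (Φ : ℤ) < B) (S : Multiset (ℤ × ℤ × ℤ))
    (hS : PPack ((MP X XU YU (2 * Φ + 1) β nu nr).map (val B)) S) :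
    4 * S.card ≤ X.card + β + 3 * YU.card + 2 * nr + TP + TU := by
  obtain ⟨S', ⟨hS1, hS2⟩, hc⟩ := liftP _ S _ hS
  rw [← hc]
  have hM : ∀ i ∈ MP X XU YU (2 * Φ + 1) β nu nr, -(Φ : ℤ) ≤ i.2 := by
    intro i hi
    rcases mem_MP hi with h | h | h | h | h
    · exact (hX _ h).1
    · exact (hXU _ h).1
    · exact (hYU _ h).1
    · omega
    · omega
  have hle : itemsOf S' ≤ MP X XU YU (2 * Φ + 1) β nu nr := hS2
  obtain ⟨SP, SU, h1, h2, h3, h4, h5, h6⟩ := collect (B := B) (Φ := Φ) (by positivity) hB S' (by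
    intro t ht
    refine ⟨hS1 t ht, ?_, ?_, ?_⟩
    · refine hM _ (Multiset.mem_of_le hle ?_)
      unfold itemsOf
      exact Multiset.mem_add.2 (Or.inl (Multiset.mem_add.2 (Or.inl
        (Multiset.mem_map_of_mem (fun t => t.1) ht))))
    · refine hM _ (Multiset.mem_of_le hle ?_)
      unfold itemsOf
      exact Multiset.mem_add.2 (Or.inl (Multiset.mem_add.2 (Or.inr
        (Multiset.mem_map_of_mem (fun t => t.2.1) ht))))
    · refine hM _ (Multiset.mem_of_le hle ?_)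
      unfold itemsOf
      exact Multiset.mem_add.2 (Or.inr (Multiset.mem_map_of_mem (fun t => t.2.2) ht)))
  have hfine : ∀ a, fine a (itemsOf S') ≤ fine a (MP X XU YU (2 * Φ + 1) β nu nr) := by
    intro a
    unfold fine
    exact Multiset.map_le_map (Multiset.filter_le_filter _ hle)
  obtain ⟨f0, f1, f2⟩ := fine_MP X XU YU (2 * (Φ : ℤ) + 1) β nu nr
  have e1 : SP.card ≤ TP := by
    refine hTP SP ⟨fun t ht => (h1 t ht).1, ?_⟩
    refine le_of_le_add_replicate ((h3.trans (hfine 0)).trans (le_of_eq f0)) ?_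
    intro hE
    rcases Multiset.mem_add.1 hE with hE | hE
    · rcases Multiset.mem_add.1 hE with hE | hE
      · exact not_mem_of_ok h1 (fun t => t.1) (fun t => Or.inl rfl) hE
      · exact not_mem_of_ok h1 (fun t => t.2.1) (fun t => Or.inr (Or.inl rfl)) hE
    · exact not_mem_of_ok h1 (fun t => t.2.2) (fun t => Or.inr (Or.inr rfl)) hE
  have e2 : SU.card ≤ TU := by
    refine hTU SU ⟨fun t ht => (h2 t ht).1, ?_, ?_⟩
    · refine le_of_le_add_replicate ((h4.trans (hfine 1)).trans (le_of_eq f1)) ?_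
      intro hE
      rcases Multiset.mem_add.1 hE with hE | hE
      · exact not_mem_of_ok h2 (fun t => t.1) (fun t => Or.inl rfl) hE
      · exact not_mem_of_ok h2 (fun t => t.2.1) (fun t => Or.inr (Or.inl rfl)) hE
    · refine le_of_le_add_replicate ((h5.trans (hfine 2)).trans (le_of_eq f2)) ?_
      intro hE
      exact not_mem_of_ok h2 (fun t => t.2.2) (fun t => Or.inr (Or.inr rfl)) hE
  have e3 := sum_map_mono (fun i : Fin 4 × ℤ => pr i.1) hle
  rw [price_MP] at e3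
  omega

/-- the fractional solution of the node -/
def WP (W WU : Multiset (ℤ × ℤ × ℤ)) (RP RY : Multiset ℤ) (E : ℤ) (m1 m3 : ℕ) :
    Multiset ((Fin 4 × ℤ) × (Fin 4 × ℤ) × (Fin 4 × ℤ)) :=
  W.map (fun t => ((0, t.1), (0, t.2.1), (0, t.2.2))) +
  WU.map (fun t => ((1, t.1), (1, t.2.1), (2, t.2.2))) +
  RP.map (fun r => ((0, r), (0, E), (3, 0))) +
  RY.map (fun r => ((2, r), (0, E), (1, E))) +
  Multiset.replicate m1 ((3, 0), (3, 0), (1, E)) +
  Multiset.replicate m3 ((3, 0), (0, E), (0, E))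

theorem card_WP (W WU : Multiset (ℤ × ℤ × ℤ)) (RP RY : Multiset ℤ) (E : ℤ) (m1 m3 : ℕ) :
    (WP W WU RP RY E m1 m3).card = W.card + WU.card + RP.card + RY.card + m1 + m3 := by
  unfold WP
  simp only [Multiset.card_add, Multiset.card_map, Multiset.card_replicate]

theorem WP_items (W WU : Multiset (ℤ × ℤ × ℤ)) (RP RY : Multiset ℤ) (E : ℤ) (m1 m3 : ℕ) :
    (WP W WU RP RY E m1 m3).map (fun t => t.1) + (WP W WU RP RY E m1 m3).map (fun t => t.2.1) +
      (WP W WU RP RY E m1 m3).map (fun t => t.2.2) =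
    tag 0 ((W.map (fun t => t.1) + W.map (fun t => t.2.1) + W.map (fun t => t.2.2)) + RP) +
    Multiset.replicate (RP.card + RY.card + 2 * m3) (0, E) +
    tag 1 (WU.map (fun t => t.1) + WU.map (fun t => t.2.1)) +
    Multiset.replicate (RY.card + m1) (1, E) +
    tag 2 (WU.map (fun t => t.2.2) + RY) +
    Multiset.replicate (RP.card + 2 * m1 + m3) (3, 0) := by
  unfold WP tag
  simp only [Multiset.map_add, Multiset.map_map, Function.comp_def, Multiset.map_replicate,
    Multiset.map_const', two_mul, Multiset.replicate_add]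
  abel

theorem MP_nsmul (X XU YU : Multiset ℤ) (E : ℤ) (β nu nr q : ℕ) :
    q • MP X XU YU E β nu nr = tag 0 (q • X) + Multiset.replicate (q * β) (0, E) +
    tag 1 (q • XU) + Multiset.replicate (q * nu) (1, E) + tag 2 (q • YU) +
    Multiset.replicate (q * nr) (3, 0) := by
  unfold MP
  simp only [nsmul_add, tag_nsmul, nsmul_replicate']

/-- **the recursion step** -/
theorem step {T TU : ℕ} {V VU : ℚ} (h : PDef T V) (hU : UDef TU VU) :
    ∃ (T' : ℕ) (V' : ℚ), PDef T' V' ∧ V' - T' = ((V - T) + (VU - TU) + 3) / 4 := by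
  obtain ⟨X, qP, WP0, hqP, hT, ⟨hW1, hW2⟩, hV⟩ := h
  obtain ⟨XU, YU, qU, WU0, hqU, hTU, ⟨hU1, hU2, hU3⟩, hVU⟩ := hU
  obtain ⟨Φ₁, hΦ₁⟩ := exists_bound X
  obtain ⟨Φ₂, hΦ₂⟩ := exists_bound XU
  obtain ⟨Φ₃, hΦ₃⟩ := exists_bound YU
  obtain ⟨Φ, hΦ⟩ : ∃ Φ, Φ = Φ₁ + Φ₂ + Φ₃ := ⟨_, rfl⟩
  have hX : ∀ x ∈ X, -(Φ : ℤ) ≤ x ∧ x ≤ Φ := fun x hx => by have := hΦ₁ x hx; omega
  have hXU : ∀ x ∈ XU, -(Φ : ℤ) ≤ x ∧ x ≤ Φ := fun x hx => by have := hΦ₂ x hx; omega
  have hYU : ∀ x ∈ YU, -(Φ : ℤ) ≤ x ∧ x ≤ Φ := fun x hx => by have := hΦ₃ x hx; omega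
  obtain ⟨RP, hRP⟩ := Multiset.le_iff_exists_add.1 hW2
  obtain ⟨RX, hRX⟩ := Multiset.le_iff_exists_add.1 hU2
  obtain ⟨RY, hRY⟩ := Multiset.le_iff_exists_add.1 hU3
  -- common denominator `4 q`, `q = qP * qU`
  obtain ⟨q, hq⟩ : ∃ q, q = qP * qU := ⟨_, rfl⟩
  have hq0 : 0 < q := by rw [hq]; exact Nat.mul_pos hqP hqU
  have eX : (4 * q) • X = (((4 * qU) • WP0).map (fun t => t.1) + ((4 * qU) • WP0).map (fun t => t.2.1)
      + ((4 * qU) • WP0).map (fun t => t.2.2)) + (4 * qU) • RP := by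
    rw [hq, show 4 * (qP * qU) = qP * (4 * qU) by ring, mul_nsmul, hRP]
    simp only [nsmul_add, Multiset.map_nsmul]
  have eXU : (4 * q) • XU = (((4 * qP) • WU0).map (fun t => t.1) +
      ((4 * qP) • WU0).map (fun t => t.2.1)) + (4 * qP) • RX := by
    rw [hq, show 4 * (qP * qU) = qU * (4 * qP) by ring, mul_nsmul, hRX]
    simp only [nsmul_add, Multiset.map_nsmul]
  have eYU : (4 * q) • YU = ((4 * qP) • WU0).map (fun t => t.2.2) + (4 * qP) • RY := by
    rw [hq, show 4 * (qP * qU) = qU * (4 * qP) by ring, mul_nsmul, hRY]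
    simp only [nsmul_add, Multiset.map_nsmul]
  obtain ⟨wP, hwP⟩ : ∃ w, w = qU * WP0.card := ⟨_, rfl⟩
  obtain ⟨wU, hwU⟩ : ∃ w, w = qP * WU0.card := ⟨_, rfl⟩
  obtain ⟨rP, hrP⟩ : ∃ w, w = qU * RP.card := ⟨_, rfl⟩
  obtain ⟨rY, hrY⟩ : ∃ w, w = qP * RY.card := ⟨_, rfl⟩
  have cX : q * X.card = 3 * wP + rP := by
    have := congrArg Multiset.card hRP
    simp only [Multiset.card_nsmul, Multiset.card_add, Multiset.card_map] at this
    rw [hwP, hrP, hq, mul_assoc, mul_left_comm, this]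
    ring
  have cY : q * YU.card = wU + rY := by
    have := congrArg Multiset.card hRY
    simp only [Multiset.card_nsmul, Multiset.card_add, Multiset.card_map] at this
    rw [hwU, hrY, hq, mul_assoc, this]
    ring
  obtain ⟨κ, hκ⟩ : ∃ κ, κ = 2 * YU.card + T + TU + 1 := ⟨_, rfl⟩
  obtain ⟨E, hE⟩ : ∃ E : ℤ, E = 2 * (Φ : ℤ) + 1 := ⟨_, rfl⟩
  obtain ⟨B, hB⟩ : ∃ B : ℤ, B = 3 * (Φ : ℤ) + 1 := ⟨_, rfl⟩
  have hΦ0 : (0 : ℤ) ≤ Φ := by positivity
  obtain ⟨m1, hm1⟩ : ∃ m1, m1 = q * κ + q * YU.card + 3 * wP + rY := ⟨_, rfl⟩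
  obtain ⟨m3, hm3⟩ : ∃ m3, m3 = 2 * (q * κ) + 6 * wP + 2 * wU := ⟨_, rfl⟩
  refine ⟨X.card + 3 * YU.card + T + TU,
    (X.card : ℚ) + 3 * YU.card + (3 * (T + TU) + 3 + V + VU) / 4,
    ⟨?X', 4 * q, ?W', by omega, ?_, ?_, ?_⟩, ?_⟩
  case X' => exact (MP X XU YU E (X.card + YU.card + κ) (2 * YU.card + κ + X.card)
                (X.card + κ + YU.card)).map (val B)
  case W' => exact Multiset.map (fun t => (val B t.1, val B t.2.1, val B t.2.2))
              (WP ((4 * qU) • WP0) ((4 * qP) • WU0) ((4 * qU) • RP) ((4 * qP) • RY) E m1 m3)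
  · intro S hS
    rw [hE] at hS
    have := bound hX hXU hYU hT hTU (X.card + YU.card + κ) (2 * YU.card + κ + X.card)
                (X.card + κ + YU.card) (B := B) (by omega) S hS
    omega
  · rw [← Multiset.map_nsmul]
    apply TPackP.push
    refine ⟨?_, ?_⟩
    · intro t ht
      unfold WP at ht
      simp only [Multiset.mem_add, Multiset.mem_map, Multiset.mem_replicate] at ht
      have bP : ∀ r ∈ (4 * qU) • RP, r ≤ (Φ : ℤ) := by
        intro r hr
        have h1 : r ∈ (4 * q) • X := by rw [eX]; exact Multiset.mem_add.2 (Or.inr hr)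
        exact (hX r (Multiset.mem_of_mem_nsmul h1)).2
      have bY : ∀ r ∈ (4 * qP) • RY, r ≤ (Φ : ℤ) := by
        intro r hr
        have h1 : r ∈ (4 * q) • YU := by rw [eYU]; exact Multiset.mem_add.2 (Or.inr hr)
        exact (hYU r (Multiset.mem_of_mem_nsmul h1)).2
      rcases ht with ((((⟨s, hs, rfl⟩ | ⟨s, hs, rfl⟩) | ⟨r, hr, rfl⟩) | ⟨r, hr, rfl⟩) | ht) | ht
      · have := hW1 s (Multiset.mem_of_mem_nsmul hs)
        simp [val, mac]; linarith
      · have := hU1 s (Multiset.mem_of_mem_nsmul hs)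
        simp [val, mac]; linarith
      · have := bP r hr
        simp [val, mac]; linarith
      · have := bY r hr
        simp [val, mac]; linarith
      · rw [ht.2]
        simp [val, mac]; linarith
      · rw [ht.2]
        simp [val, mac]; linarith
    · rw [WP_items, MP_nsmul, ← eX, ← eYU]
      have k1 : ((4 * qU) • RP).card = 4 * rP := by rw [Multiset.card_nsmul, hrP]; ring
      have k2 : ((4 * qP) • RY).card = 4 * rY := by rw [Multiset.card_nsmul, hrY]; ring
      rw [k1, k2]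
      have c1 : 4 * rP + 4 * rY + 2 * m3 ≤ 4 * q * (X.card + YU.card + κ) := by
        have : 4 * q * (X.card + YU.card + κ) = 4 * (q * κ) + 4 * (q * X.card) + 4 * (q * YU.card) := by
          ring
        omega
      have c2 : 4 * rY + m1 ≤ 4 * q * (2 * YU.card + κ + X.card) := by
        have : 4 * q * (2 * YU.card + κ + X.card)
          = 4 * (q * κ) + 4 * (q * X.card) + 8 * (q * YU.card) := by ring
        omega
      have c3 : 4 * rP + 2 * m1 + m3 ≤ 4 * q * (X.card + κ + YU.card) := by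
        have : 4 * q * (X.card + κ + YU.card) = 4 * (q * κ) + 4 * (q * X.card) + 4 * (q * YU.card) := by
          ring
        omega
      refine add_le_add (add_le_add (add_le_add (add_le_add (add_le_add le_rfl (URec.rep_le c1 _))
        (URec.tag_le _ ?_)) (URec.rep_le c2 _)) le_rfl) (URec.rep_le c3 _)
      rw [eXU]
      exact Multiset.le_add_right _ _
  · rw [Multiset.card_map, card_WP]
    have k1 : ((4 * qU) • RP).card = 4 * rP := by rw [Multiset.card_nsmul, hrP]; ring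
    have k2 : ((4 * qP) • RY).card = 4 * rY := by rw [Multiset.card_nsmul, hrY]; ring
    have k3 : ((4 * qU) • WP0).card = 4 * wP := by rw [Multiset.card_nsmul, hwP]; ring
    have k4 : ((4 * qP) • WU0).card = 4 * wU := by rw [Multiset.card_nsmul, hwU]; ring
    rw [k1, k2, k3, k4]
    have h1 : ((q * X.card : ℕ) : ℚ) = ((3 * wP + rP : ℕ) : ℚ) := by rw [cX]
    have h2 : ((q * YU.card : ℕ) : ℚ) = ((wU + rY : ℕ) : ℚ) := by rw [cY]
    have h3 : (wP : ℚ) = q * V := by
      rw [hwP, hq]; push_cast; rw [hV]; ring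
    have h4 : (wU : ℚ) = q * VU := by
      rw [hwU, hq]; push_cast; rw [hVU]; ring
    have h5 : (q : ℚ) * κ = 2 * (q * YU.card) + q * T + q * TU + q := by
      rw [hκ]; push_cast; ring
    have h6 : (m1 : ℚ) = q * κ + q * YU.card + 3 * wP + rY := by rw [hm1]; push_cast; ring
    have h7 : (m3 : ℚ) = 2 * (q * κ) + 6 * wP + 2 * wU := by rw [hm3]; push_cast; ring
    push_cast at h1 h2 ⊢
    rw [h6, h7]
    linarith
  · push_cast
    ring

/-- the deficiencies `5/3 - c (…)` are attained -/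
theorem iter (n : ℕ) : ∀ δ : ℚ, 0 < δ → ∃ (T : ℕ) (V : ℚ), PDef T V ∧
    V - T ≥ 5 / 3 - 5 / 3 * (1 / 4) ^ n - δ := by
  induction n with
  | zero =>
    intro δ hδ
    refine ⟨0, 0, ⟨0, 1, 0, by omega, ?_, ?_, ?_⟩, by norm_num; linarith⟩
    · intro S hS
      obtain ⟨_, h3⟩ := hS
      have h4 := Multiset.card_le_card h3
      simp only [Multiset.card_add, Multiset.card_map, Multiset.card_zero] at h4
      omega
    · exact ⟨by simp, by simp⟩
    · simp
  | succ n ih =>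
    intro δ hδ
    obtain ⟨T, V, h1, h2⟩ := ih δ hδ
    obtain ⟨TU, VU, h3, h4⟩ := udef_limit δ hδ
    obtain ⟨T', V', h5, h6⟩ := step h1 h3
    refine ⟨T', V', h5, ?_⟩
    rw [h6, pow_succ]
    have : (0 : ℚ) < (1 / 4) ^ n := by positivity
    linarith

end PRec

/-- the deficiency of the problem with exact patterns `(x, x', x'')` comes arbitrarily close to
`5/3` -/
theorem pdef_limit : ∀ ε : ℚ, 0 < ε → ∃ (T : ℕ) (V : ℚ), PDef T V ∧ V - T > 5 / 3 - ε := by
  intro ε hε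
  obtain ⟨n, hn⟩ := exists_pow_lt_of_lt_one (show (0 : ℚ) < ε / 4 by linarith)
    (by norm_num : (1 / 4 : ℚ) < 1)
  obtain ⟨T, V, h1, h2⟩ := PRec.iter n (ε / 4) (by linarith)
  refine ⟨T, V, h1, ?_⟩
  linarith

end Vale.Agent.P302
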