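import Vale.Agent.P302.H794.RateLevel
import Vale.Agent.P302.H618.UEmb
import Vale.Agent.P302.H831.Final

/-!
# From star worlds to bin packing instances, with explicit sizes
-/

namespace Vale.Agent.P302

/-- `UDef` with a bound `n` for the number of items -/
def USize (T : ℕ) (V : ℚ) (n : ℕ) : Prop :=
  ∃ (X Y : Multiset ℤ) (q : ℕ) (W : Multiset (ℤ × ℤ × ℤ)), 0 < q ∧ X.card + Y.card ≤ n ∧
    (∀ S, UPack X Y S → Multiset.card S ≤ T) ∧ UPack (q • X) (q • Y) W ∧
    (Multiset.card W : ℚ) = q * V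

namespace H618

/-- the embedding of the one-arm star world, with sizes -/
theorem starEmb_size {T : ℕ} {V : ℚ} {A B : ℕ} (h : Star.SSize 1 T V A B) :
    ∃ (T' : ℕ) (V' : ℚ), USize T' V' (A + 5 * B + 2 * T + 2) ∧ T' ≤ B + T ∧
      V' - T' = 1 / 2 + (V - T) / 2 := by
  classical
  obtain ⟨α, β, iα, iβ, a, b, c, w, hA, hB, hT, hw, hV⟩ := h
  obtain ⟨Φ, hΦ, ha, hb, hc⟩ : ∃ Φ : ℤ, 0 ≤ Φ ∧ (∀ x, |a x| ≤ Φ) ∧ (∀ y, |b 0 y| ≤ Φ) ∧
      ∀ z, |c 0 z| ≤ Φ := by
    obtain ⟨A, hA, hA'⟩ := Star.exists_abs_le a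
    obtain ⟨B, hB, hB'⟩ := Star.exists_abs_le (b 0)
    obtain ⟨C, hC, hC'⟩ := Star.exists_abs_le (c 0)
    refine ⟨A + B + C, by positivity, ?_, ?_, ?_⟩
    · intro x
      linarith [hA' x]
    · intro x
      linarith [hB' x]
    · intro x
      linarith [hC' x]
  let e : ℕ := Fintype.card β + T + 1
  obtain ⟨q, W, hq, hW, hcard⟩ := frac_part (e := e) hc hΦ hw hV
  refine ⟨Fintype.card β + T, ((Fintype.card β + e : ℕ) + V) / 2,
    ⟨(Finset.univ : Finset (β ⊕ (β ⊕ Fin e))).val.map (vX Φ (b 0) (c 0)),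
      (Finset.univ : Finset (α ⊕ (β ⊕ Fin e))).val.map (vY Φ a), q,
      W.map (fun t => (vX Φ (b 0) (c 0) t.1, vX Φ (b 0) (c 0) t.2.1, vY Φ a t.2.2)),
      hq, ?_, ?_, ?_, ?_⟩, by omega, ?_⟩
  · rw [Multiset.card_map, Multiset.card_map, Finset.card_val, Finset.card_val, Finset.card_univ,
      Finset.card_univ]
    simp only [Fintype.card_sum, Fintype.card_fin, e]
    omega
  · intro S hS
    obtain ⟨S', h1, h2⟩ := lift_aux _ _ S _ _ hS
    have := int_bound ha hb hc hΦ hT S' h1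
    rw [← h2]
    simp only [e] at this
    omega
  · have := hW.push
    rw [Multiset.map_nsmul, Multiset.map_nsmul] at this
    exact this
  · rw [Multiset.card_map]
    exact hcard
  · simp only [e]
    push_cast
    ring

end H618

namespace Half

open Vale.Agent.P302.Tags

theorem price_le {r : ℕ} (M : Multiset (Kind r × ℤ)) (h : ∀ i ∈ M, lev i.1 ≤ 4 * r) :
    price M ≤ 4 * r * M.card := by
  induction M using Multiset.induction with
  | empty => simp [price]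
  | cons i M ih =>
    have h1 := ih (fun j hj => h j (by simp [hj]))
    have h2 := h i (by simp)
    unfold price at h1 ⊢
    rw [Multiset.map_cons, Multiset.sum_cons, Multiset.card_cons, mul_add, mul_one]
    omega

theorem pN_le (r : ℕ) (X Y : Multiset ℤ) : pN r X Y ≤ 4 * r * (r * (X.card + Y.card)) := by
  have h := price_le (∑ g : Fin r, gad X Y g) (by
    intro i hi
    obtain ⟨g, _, hg⟩ := Multiset.mem_sum.1 hi
    have := g.2
    rcases Multiset.mem_add.1 hg with h | h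
    · obtain ⟨x, _, rfl⟩ := Multiset.mem_map.1 h
      simp only [lev]
      omega
    · obtain ⟨x, _, rfl⟩ := Multiset.mem_map.1 h
      simp only [lev]
      omega)
  rw [card_gad] at h
  exact h

theorem length_lst (r : ℕ) (X Y : Multiset ℤ) (U : ℕ) :
    (lst r X Y U).length = r * (X.card + Y.card) + U := by
  rw [lst, Multiset.length_toList, items, Multiset.card_add, card_gad, Multiset.card_replicate]

/-- a problem of exact patterns with deficiency `V - T` gives bin packing instances with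
`OPT - LP ≥ 1 + (V - T - 1) / 5`, for every value of `OPT` that is at least `26 n + T + 1` -/
theorem gap_of_usize {T : ℕ} {V : ℚ} {n : ℕ} (hU : USize T V n) :
    ∀ k : ℕ, 26 * n + T + 1 ≤ k → ∃ I : List ℚ, IsInstance I ∧ OPT I = k ∧
      1 + (((V : ℝ) - T) - 1) / 5 ≤ (OPT I : ℝ) - LP I := by
  obtain ⟨X, Y, qU, W, hqU, hn, hU1, hU2, hU3⟩ := hU
  obtain ⟨r, hr⟩ : ∃ r : ℕ, r = 1 := ⟨1, rfl⟩
  obtain ⟨Φ, hΦ⟩ := exists_bound (X + Y)
  obtain ⟨N, hN⟩ : ∃ N, N = pN r X Y + r * (X.card + Y.card) := ⟨_, rfl⟩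
  obtain ⟨U, hUdef⟩ : ∃ U, U + pN r X Y = (4 * r + 1) * N + r * T + 1 := by
    refine ⟨(4 * r + 1) * N + r * T + 1 - pN r X Y, Nat.sub_add_cancel ?_⟩
    have : N ≤ (4 * r + 1) * N := Nat.le_mul_of_pos_left _ (by omega)
    omega
  have hUge : (4 * r + 1) * (r * (X.card + Y.card)) ≤ U := by
    have h1 : (4 * r + 1) * N =
        (4 * r + 1) * pN r X Y + (4 * r + 1) * (r * (X.card + Y.card)) := by rw [hN]; ring
    have h2 : pN r X Y ≤ (4 * r + 1) * pN r X Y := Nat.le_mul_of_pos_left _ (by omega)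
    omega
  have hlen : (inst (LL r Φ) ((lst r X Y U).map (size (BB r Φ)))).length ≤ 26 * n + T + 1 := by
    have h1 : (inst (LL r Φ) ((lst r X Y U).map (size (BB r Φ)))).length =
        r * (X.card + Y.card) + U := by
      rw [← length_lst r X Y U]
      simp [inst]
    rw [h1]
    have h2 := pN_le r X Y
    subst hr
    omega
  have hnot : ¬ Packable (inst (LL r Φ) ((lst r X Y U).map (size (BB r Φ)))) N :=
    lower hΦ hU1 (by omega)
  obtain ⟨v, z, hz1, hz2, hv⟩ := upper hΦ hqU hU2 hUge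
  have hI : IsInstance (inst (LL r Φ) ((lst r X Y U).map (size (BB r Φ)))) :=
    isInstance_inst (LL_pos r Φ) (sizes_ok hΦ)
  generalize inst (LL r Φ) ((lst r X Y U).map (size (BB r Φ))) = I₀ at hnot hz1 hI hlen
  have hopt := opt_ge hI hnot
  have hopt2 : OPT I₀ ≤ I₀.length := Nat.sInf_le (packable_length hI)
  obtain ⟨m, hm⟩ : ∃ m, OPT I₀ = m + 1 := ⟨OPT I₀ - 1, by omega⟩
  have hp1 : Packable I₀ (m + 1) := by
    rw [← hm]
    exact Nat.sInf_mem (s := {k | Packable I₀ k}) ⟨_, packable_length hI⟩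
  have hp2 : ¬ Packable I₀ m := by
    intro h
    have : OPT I₀ ≤ m := Nat.sInf_le h
    omega
  have hNm : N ≤ m := by omega
  intro k hk0
  have hk : m + 1 ≤ k := by omega
  obtain ⟨J, hJ1, hJ2, hJ3⟩ := family hI hp1 hp2 ⟨z, hz1, rfl⟩ (k - (m + 1))
  have hk' : m + (k - (m + 1)) + 1 = k := by omega
  rw [hk'] at hJ2
  refine ⟨J, hJ1, hJ2, ?_⟩
  rw [← hz2] at hJ3
  have hk2 : ((k - (m + 1) : ℕ) : ℝ) = (k : ℝ) - (m + 1) := by
    rw [Nat.cast_sub hk]
    push_cast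
    ring
  rw [hk2] at hJ3
  rw [hJ2]
  have hqU' : (0 : ℝ) < qU := by exact_mod_cast hqU
  have hNm' : (N : ℝ) ≤ m := by exact_mod_cast hNm
  have e3 : (W.card : ℝ) = qU * V := by exact_mod_cast congrArg (fun x : ℚ => (x : ℝ)) hU3
  have e4 : (v : ℝ) + r * W.card = qU * ((4 * r + 1) * N + r * T + 1) := by
    have := congrArg (fun x : ℕ => (x : ℝ)) hv
    rw [hUdef] at this
    push_cast at this
    exact this
  rw [e3] at e4
  have hvq : (v : ℝ) / ((4 * r + 1) * qU : ℕ) =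
      (N + 1) - (1 + (((V : ℝ) - T) - 1) / 5) := by
    subst hr
    push_cast at e4 ⊢
    field_simp
    linear_combination e4
  rw [hvq] at hJ3
  linarith

end Half

/-- for every `t` there are instances with `OPT - LP ≥ t / 20`, for every value of `OPT` that is at
least `(t + 4) ^ (2 (t + 1) ^ 2 + 4)` -/
theorem gap_level (t : ℕ) : ∀ k : ℕ, (t + 4) ^ (2 * (t + 1) ^ 2 + 4) ≤ k → ∃ I : List ℚ,
    IsInstance I ∧ OPT I = k ∧ (9 : ℝ) / 10 + t / 20 ≤ (OPT I : ℝ) - LP I := by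
  intro k hk
  obtain ⟨T, V, Z, h1, h2, h3⟩ := Star.level_size t (t + 4) le_rfl 1 le_rfl
  rw [one_pow, mul_one] at h2
  have hTZ : T ≤ Z := by
    obtain ⟨α, β, iα, iβ, a, b, c, w, hA, hB, hT, hw, hV⟩ := h1
    have h4 := hw.total_le hV
    have h5 : (Fintype.card α : ℚ) ≤ Z := by exact_mod_cast hA
    have h6 : (0 : ℚ) ≤ (t : ℚ) / 2 * (1 : ℕ) := by positivity
    have h7 : (T : ℚ) ≤ Z := by linarith
    exact_mod_cast h7
  obtain ⟨T', V', h4, h5, h6⟩ := H618.starEmb_size h1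
  have hbound : 26 * (Z + 5 * Z + 2 * T + 2) + T' + 1 ≤ k := by
    have h7 : 26 * (Z + 5 * Z + 2 * T + 2) + T' + 1 ≤ 256 * (Z + 2) := by omega
    have h8 : 4 ^ 4 * (Z + 2) ≤ (t + 4) ^ 4 * (t + 4) ^ (2 * (t + 1) ^ 2) :=
      Nat.mul_le_mul (Nat.pow_le_pow_left (by omega) _) h2
    have h9 : (t + 4) ^ 4 * (t + 4) ^ (2 * (t + 1) ^ 2) = (t + 4) ^ (2 * (t + 1) ^ 2 + 4) := by
      ring
    rw [h9] at h8
    norm_num at h8
    omega
  obtain ⟨I, hI1, hI2, hI3⟩ := Half.gap_of_usize h4 k hbound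
  refine ⟨I, hI1, hI2, le_trans ?_ hI3⟩
  have h3' : (t : ℝ) / 2 ≤ (V : ℝ) - T := by
    have : (((t : ℚ) / 2 * (1 : ℕ) : ℚ) : ℝ) ≤ ((V - T : ℚ) : ℝ) := by exact_mod_cast h3
    push_cast at this
    linarith
  have h6' : (V' : ℝ) - T' = 1 / 2 + ((V : ℝ) - T) / 2 := by
    have := congrArg (fun x : ℚ => (x : ℝ)) h6
    push_cast at this
    exact this
  rw [h6']
  linarith

end Vale.Agent.P302
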