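import Vale.Agent.P302.H794.RateStep

/-!
# Levels of the recursion for star worlds
-/

namespace Vale.Agent.P302.Star

/-- a chain of `j` nodes with the same first child -/
theorem chain_size {t K T₁ : ℕ} {V₁ : ℚ} {Z : ℕ} (h : SSize ((t + 1) * K + 2) T₁ V₁ Z Z)
    (hgap : (t : ℚ) / 2 * (((t + 1) * K + 2 : ℕ) : ℚ) ≤ V₁ - T₁) :
    ∀ j, j ≤ K → ∃ T V, SSize j T V (j * (((t + 1) * K + 3) * (2 * Z + 3)))
      (j ^ 2 * (((t + 1) * K + 3) * (2 * Z + 3))) ∧ ((t + 1 : ℕ) : ℚ) / 2 * j ≤ V - T := by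
  intro j
  induction j with
  | zero =>
    intro _
    refine ⟨0, 0, ?_, by simp⟩
    simpa using ssize_zero 0
  | succ j ih =>
    intro hj
    obtain ⟨T₂, V₂, h2, h3⟩ := ih (by omega)
    obtain ⟨T, V, h4, h5⟩ := step_size (by omega) h h2
    refine ⟨T, V, h4.mono ?_ ?_, ?_⟩
    · apply le_of_eq
      ring
    · have e : (j + 1) ^ 2 * (((t + 1) * K + 3) * (2 * Z + 3)) =
          j ^ 2 * (((t + 1) * K + 3) * (2 * Z + 3)) + j * (((t + 1) * K + 3) * (2 * Z + 3)) +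
            ((t + 1) * K + 3) * (2 * Z + 3) + j * (((t + 1) * K + 3) * (2 * Z + 3)) := by ring
      rw [e]
      have e2 : ((t + 1) * K + 2 + 1) * (Z + Z + 3) = ((t + 1) * K + 3) * (2 * Z + 3) := by ring
      rw [e2]
      exact Nat.le_add_right _ _
    · rw [h5]
      obtain ⟨q, hq⟩ : ∃ q : ℚ, q = (((t + 1) * K + 2 : ℕ) : ℚ) := ⟨_, rfl⟩
      rw [← hq] at hgap ⊢
      have hq0 : 0 < q := by rw [hq]; positivity
      have hqv : q = (t + 1) * K + 2 := by rw [hq]; push_cast; ring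
      have hjK : (j : ℚ) + 1 ≤ K := by exact_mod_cast hj
      have e1 : (t : ℚ) / 2 ≤ (V₁ - T₁) / q := by rw [le_div_iff₀ hq0]; exact hgap
      have h1q : 0 ≤ 1 - 1 / q := by
        rw [sub_nonneg, div_le_iff₀ hq0, one_mul, hqv]
        have : (0 : ℚ) ≤ (t + 1) * K := by positivity
        linarith
      have e2 : (1 - 1 / q) * (((t + 1 : ℕ) : ℚ) / 2 * j) ≤ (1 - 1 / q) * (V₂ - T₂) :=
        mul_le_mul_of_nonneg_left h3 h1q
      have e3 : (1 / q) * (1 + ((t + 1 : ℕ) : ℚ) / 2 * j) ≤ 1 / 2 := by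
        rw [one_div, inv_mul_le_iff₀ hq0, hqv]
        push_cast
        have : ((t : ℚ) + 1) * j ≤ (t + 1) * K := mul_le_mul_of_nonneg_left (by linarith) (by positivity)
        linarith
      have e4 : (1 - 1 / q) * (((t + 1 : ℕ) : ℚ) / 2 * j) = ((t + 1 : ℕ) : ℚ) / 2 * j -
          (1 / q) * (((t + 1 : ℕ) : ℚ) / 2 * j) := by ring
      have e5 : (1 / q) * (1 + ((t + 1 : ℕ) : ℚ) / 2 * j) = 1 / q +
          (1 / q) * (((t + 1 : ℕ) : ℚ) / 2 * j) := by ring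
      rw [e4] at e2
      rw [e5] at e3
      push_cast at e2 e3 ⊢
      linarith

/-- stars with `K` arms, deficiency at least `K t / 2` and size polynomial in `K` -/
theorem level_size (t : ℕ) : ∀ R : ℕ, t + 4 ≤ R → ∀ K : ℕ, 1 ≤ K → ∃ T V Z, SSize K T V Z Z ∧
    Z + 2 ≤ R ^ (2 * (t + 1) ^ 2) * K ^ (3 * t) ∧ (t : ℚ) / 2 * K ≤ V - T := by
  induction t with
  | zero =>
    intro R hR K hK
    refine ⟨0, 0, 0, ssize_zero K, ?_, by simp⟩
    have : 4 * 4 ≤ R * R := Nat.mul_le_mul (by omega) (by omega)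
    have e : R ^ (2 * (0 + 1) ^ 2) * K ^ (3 * 0) = R * R := by ring
    rw [e]
    omega
  | succ t ih =>
    intro R hR K hK
    obtain ⟨T₁, V₁, Z, h1, h2, h3⟩ := ih R (by omega) ((t + 1) * K + 2) (by omega)
    obtain ⟨T, V, h4, h5⟩ := chain_size h1 h3 K le_rfl
    refine ⟨T, V, K ^ 2 * (((t + 1) * K + 3) * (2 * Z + 3)), h4.mono ?_ le_rfl, ?_, h5⟩
    · refine Nat.mul_le_mul_right _ ?_
      rw [pow_two]
      exact Nat.le_mul_of_pos_left _ (by omega)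
    · have hq : (t + 1) * K + 3 ≤ R * K := by
        have : (t + 4) * K ≤ R * K := Nat.mul_le_mul_right _ (by omega)
        have e : (t + 4) * K = (t + 1) * K + 3 * K := by ring
        omega
      have hZ : Z + 2 ≤ R ^ (2 * (t + 1) ^ 2) * (R * K) ^ (3 * t) :=
        h2.trans (Nat.mul_le_mul_left _ (Nat.pow_le_pow_left (by omega) _))
      obtain ⟨D, hD⟩ : ∃ D, D = R ^ (2 * (t + 1) ^ 2) * (R * K) ^ (3 * t) := ⟨_, rfl⟩
      rw [← hD] at hZ
      have s1 : ((t + 1) * K + 3) * (2 * Z + 3) ≤ R * K * (2 * D) :=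
        Nat.mul_le_mul hq (by omega)
      have s2 : K ^ 2 * (((t + 1) * K + 3) * (2 * Z + 3)) ≤ K ^ 2 * (R * K * (2 * D)) :=
        Nat.mul_le_mul_left _ s1
      have hD1 : 2 ≤ D := by omega
      have s3 : 2 ≤ K ^ 2 * (R * K * (2 * D)) := by
        have k1 : 1 ≤ K ^ 2 := Nat.one_le_pow _ _ hK
        have k2 : 1 ≤ R * K := Nat.mul_pos (by omega) hK
        calc 2 ≤ 1 * (1 * (2 * D)) := by omega
          _ ≤ K ^ 2 * (R * K * (2 * D)) := Nat.mul_le_mul k1 (Nat.mul_le_mul_right _ k2)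
      calc K ^ 2 * (((t + 1) * K + 3) * (2 * Z + 3)) + 2
          ≤ 2 * (K ^ 2 * (R * K * (2 * D))) := by omega
        _ = 4 * (R ^ (2 * (t + 1) ^ 2 + 1 + 3 * t) * K ^ (3 * (t + 1))) := by
            rw [hD, mul_pow]; ring
        _ ≤ R * (R ^ (2 * (t + 1) ^ 2 + 1 + 3 * t) * K ^ (3 * (t + 1))) :=
            Nat.mul_le_mul_right _ (by omega)
        _ = R ^ (2 * (t + 1) ^ 2 + 2 + 3 * t) * K ^ (3 * (t + 1)) := by ring
        _ ≤ R ^ (2 * (t + 1 + 1) ^ 2) * K ^ (3 * (t + 1)) := by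
            refine Nat.mul_le_mul_right _ (Nat.pow_le_pow_right (by omega) ?_)
            ring_nf
            omega

end Vale.Agent.P302.Star
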