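import Vale.Agent.P302.H794.RateGap

/-!
# Growth of `OPT - LP` as a function of `OPT`
-/

namespace Vale.Agent.P302

open Real

/-- the arithmetic: `t = ⌊x / 2⌋` with `x = √(log k / log log k)` -/
theorem exists_level {L l : ℝ} (hl : 1 ≤ l) (hL : L = exp l) (h64 : 64 ≤ exp l / l) :
    ∃ t : ℕ, (2 * ((t : ℝ) + 1) ^ 2 + 4) * log (t + 4) ≤ L ∧
      1 / 40 * √(L / l) ≤ 9 / 10 + (t : ℝ) / 20 := by
  have hl0 : 0 < l := by linarith
  rw [← hL] at h64
  have hL0 : 0 < L := by rw [hL]; exact exp_pos _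
  obtain ⟨x, hx⟩ : ∃ x, x = √(L / l) := ⟨_, rfl⟩
  have hx2 : x ^ 2 = L / l := by rw [hx]; exact sq_sqrt (by positivity)
  have hx0 : 0 ≤ x := by rw [hx]; exact sqrt_nonneg _
  have hx8 : 8 ≤ x := by
    rw [hx]
    exact le_sqrt_of_sq_le (by norm_num; exact h64)
  refine ⟨⌊x / 2⌋₊, ?_, ?_⟩
  · obtain ⟨t, ht⟩ : ∃ t : ℝ, t = (⌊x / 2⌋₊ : ℝ) := ⟨_, rfl⟩
    rw [← ht]
    have ht0 : 0 ≤ t := by rw [ht]; positivity
    have ht1 : t ≤ x / 2 := by rw [ht]; exact Nat.floor_le (by positivity)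
    have h1 : 2 * (t + 1) ^ 2 + 4 ≤ x ^ 2 := by nlinarith
    have h2 : log (t + 4) ≤ log x := log_le_log (by positivity) (by linarith)
    have h3 : log x ≤ l := by
      have h4 : log (x ^ 2) ≤ log L := by
        rw [hx2]
        refine log_le_log (by positivity) ?_
        exact div_le_self hL0.le hl
      rw [hL, log_exp, log_pow] at h4
      have h5 : 0 ≤ log x := log_nonneg (by linarith)
      push_cast at h4
      linarith
    have h4 : 0 ≤ log (t + 4) := log_nonneg (by linarith)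
    calc (2 * (t + 1) ^ 2 + 4) * log (t + 4) ≤ x ^ 2 * l :=
          mul_le_mul h1 (h2.trans h3) h4 (by positivity)
      _ = L := by rw [hx2]; field_simp
  · rw [← hx]
    have ht2 : x / 2 < (⌊x / 2⌋₊ : ℝ) + 1 := Nat.lt_floor_add_one _
    linarith

/-- **Growth**: for every large `k` there is an instance with `OPT = k` and
`OPT - LP ≥ (1/40) √(log k / log log k)` -/
theorem gap_growth : ∃ K : ℕ, ∀ k : ℕ, K ≤ k → ∃ I : List ℚ, IsInstance I ∧ OPT I = k ∧
    1 / 40 * √(log k / log (log k)) ≤ (OPT I : ℝ) - LP I := by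
  obtain ⟨Y, hY⟩ := Filter.eventually_atTop.1
    ((tendsto_exp_div_pow_atTop 1).eventually_ge_atTop 64)
  refine ⟨⌈exp (exp (max Y 1))⌉₊, fun k hk => ?_⟩
  have hk1 : exp (exp (max Y 1)) ≤ k := (Nat.le_ceil _).trans (by exact_mod_cast hk)
  have hk0 : (0 : ℝ) < k := (exp_pos _).trans_le hk1
  have hL : exp (max Y 1) ≤ log k := (le_log_iff_exp_le hk0).2 hk1
  have hL0 : 0 < log k := (exp_pos _).trans_le hL
  have hl : max Y 1 ≤ log (log k) := (le_log_iff_exp_le hL0).2 hL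
  have h64 := hY (log (log k)) ((le_max_left _ _).trans hl)
  rw [pow_one] at h64
  obtain ⟨t, h1, h2⟩ := exists_level (L := log k) ((le_max_right _ _).trans hl)
    (exp_log hL0).symm h64
  have h3 : (t + 4) ^ (2 * (t + 1) ^ 2 + 4) ≤ k := by
    have h4 : log (((t + 4) ^ (2 * (t + 1) ^ 2 + 4) : ℕ) : ℝ) ≤ log k := by
      push_cast
      rw [log_pow]
      push_cast
      exact h1
    have h5 : (((t + 4) ^ (2 * (t + 1) ^ 2 + 4) : ℕ) : ℝ) ≤ k :=
      (log_le_log_iff (by positivity) hk0).1 h4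
    exact_mod_cast h5
  obtain ⟨I, hI1, hI2, hI3⟩ := gap_level t k h3
  exact ⟨I, hI1, hI2, h2.trans hI3⟩

end Vale.Agent.P302
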