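import Vale.Agent.P302.H320.Step

/-!
# The recursion for star worlds, with explicit sizes
-/

namespace Vale.Agent.P302.Star

open Finset

/-- an instance with `K` arms, at most `A` items in the common class and at most `B` items in every
class of an arm, in which at most `T` usable patterns are pairwise disjoint, but which has a
fractional packing of total weight `V` -/
def SSize (K T : ℕ) (V : ℚ) (A B : ℕ) : Prop :=
  ∃ (α β : Type) (_ : Fintype α) (_ : Fintype β) (a : α → ℤ) (b c : Fin K → β → ℤ)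
    (w : α → Fin K → β → β → ℚ), Fintype.card α ≤ A ∧ Fintype.card β ≤ B ∧
    (∀ S : Finset (Pat K α β), IsPack a b c S → S.card ≤ T) ∧ IsFrac a b c w ∧
      ∑ x, ∑ i, ∑ y, ∑ z, w x i y z = V

theorem SSize.mono {K T : ℕ} {V : ℚ} {A B A' B' : ℕ} (h : SSize K T V A B) (hA : A ≤ A')
    (hB : B ≤ B') : SSize K T V A' B' := by
  obtain ⟨α, β, i1, i2, a, b, c, w, h1, h2, h3⟩ := h
  exact ⟨α, β, i1, i2, a, b, c, w, h1.trans hA, h2.trans hB, h3⟩

theorem ssize_zero (K : ℕ) : SSize K 0 0 0 0 := by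
  refine ⟨Empty, Empty, inferInstance, inferInstance, fun _ => 0, fun _ _ => 0, fun _ _ => 0,
    fun _ _ _ _ => 0, by simp, by simp, ?_, ⟨?_, ?_, ?_, ?_, ?_⟩, ?_⟩
  · intro S _
    have : S = ∅ := Finset.eq_empty_of_forall_notMem fun t _ => t.1.elim
    simp [this]
  all_goals simp

/-- the total weight of a fractional packing is at most the number of items of the common class -/
theorem IsFrac.total_le {K : ℕ} {α β : Type} [Fintype α] [Fintype β] {a : α → ℤ}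
    {b c : Fin K → β → ℤ} {w : α → Fin K → β → β → ℚ} (hw : IsFrac a b c w) {V : ℚ}
    (hV : ∑ x, ∑ i, ∑ y, ∑ z, w x i y z = V) : V ≤ Fintype.card α := by
  rw [← hV]
  calc ∑ x, ∑ i, ∑ y, ∑ z, w x i y z ≤ ∑ _x : α, (1 : ℚ) := sum_le_sum fun x _ => hw.le1 x
    _ = Fintype.card α := by simp

theorem step_size {q K : ℕ} (hq : 2 ≤ q) {T₁ T₂ : ℕ} {V₁ V₂ : ℚ} {A₁ B₁ A₂ B₂ : ℕ}
    (h1 : SSize q T₁ V₁ A₁ B₁) (h2 : SSize K T₂ V₂ A₂ B₂) :
    ∃ T V, SSize (K + 1) T V (A₂ + (q + 1) * (A₁ + B₁ + 3))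
        (B₂ + A₂ + (q + 1) * (A₁ + B₁ + 3)) ∧
      V - T = (1 - 1 / (q : ℚ)) + (V₁ - T₁) / q + (1 - 1 / (q : ℚ)) * (V₂ - T₂) := by
  obtain ⟨p, rfl⟩ : ∃ p, q = p + 1 := ⟨q - 1, by omega⟩
  obtain ⟨α₁, β₁, _, _, a₁, b₁, c₁, w₁, hA1, hB1, hT1, hw1, hV1⟩ := h1
  obtain ⟨α₂, β₂, _, _, a₂, b₂, c₂, w₂, hA2, hB2, hT2, hw2, hV2⟩ := h2
  obtain ⟨Φ, hB⟩ := exists_bdd a₁ b₁ c₁ a₂ b₂ c₂
  have hV1' : 0 ≤ V₁ := by
    rw [← hV1]
    exact sum_nonneg fun _ _ => sum_nonneg fun _ _ => sum_nonneg fun _ _ => sum_nonneg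
      fun _ _ => hw1.nonneg _ _ _ _
  have hV2' : 0 ≤ V₂ := by
    rw [← hV2]
    exact sum_nonneg fun _ _ => sum_nonneg fun _ _ => sum_nonneg fun _ _ => sum_nonneg
      fun _ _ => hw2.nonneg _ _ _ _
  have hVA1 : V₁ ≤ A₁ := (hw1.total_le hV1).trans (by exact_mod_cast hA1)
  have hVA2 : V₂ ≤ Fintype.card α₂ := hw2.total_le hV2
  -- parameters
  obtain ⟨P, hP⟩ : ∃ P, P = Fintype.card α₂ + T₁ + p * T₂ := ⟨_, rfl⟩
  obtain ⟨s, hs⟩ : ∃ s, s = (P + p * A₁) / (p + 1) + 1 := ⟨_, rfl⟩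
  have hs1 : P + p * A₁ + 1 ≤ (p + 1) * s := by
    rw [hs]
    have := Nat.lt_mul_div_succ (P + p * A₁) (show 0 < p + 1 by omega)
    omega
  have hs2 : (p + 1) * s ≤ P + p * A₁ + (p + 1) := by
    rw [hs, mul_add, mul_one]
    have := Nat.mul_div_le (P + p * A₁) (p + 1)
    omega
  obtain ⟨g, hg⟩ : ∃ g, g + P = (p + 1) * s + p :=
    ⟨(p + 1) * s + p - P, Nat.sub_add_cancel (by omega)⟩
  have hg1 : p * A₁ + p + 1 ≤ g := by omega
  have hg2 : g ≤ p * A₁ + 2 * p + 1 := by omega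
  obtain ⟨C, hC⟩ : ∃ C : ℚ, (p + 1) * C = Fintype.card (α₂ ⊕ Fin g) - V₂ + V₁ :=
    ⟨(Fintype.card (α₂ ⊕ Fin g) - V₂ + V₁) / (p + 1), by field_simp⟩
  have hcard2 : (Fintype.card (α₂ ⊕ Fin g) : ℚ) = Fintype.card α₂ + g := by
    simp
  have hgQ : (g : ℚ) + P = (p + 1) * s + p := by exact_mod_cast hg
  have hg1Q : (p : ℚ) * A₁ + p + 1 ≤ g := by exact_mod_cast hg1
  have hg2Q : (g : ℚ) ≤ p * A₁ + 2 * p + 1 := by exact_mod_cast hg2
  have hPQ : (P : ℚ) = Fintype.card α₂ + T₁ + p * T₂ := by rw [hP]; push_cast; ring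
  have hp0 : (0 : ℚ) ≤ p := by positivity
  have hpA : (p : ℚ) * V₁ ≤ p * A₁ := mul_le_mul_of_nonneg_left hVA1 hp0
  have hCV : V₁ ≤ C := by
    have h3 : (p + 1 : ℚ) * V₁ ≤ (p + 1) * C := by
      rw [hC, hcard2]
      linarith
    exact le_of_mul_le_mul_left h3 (by positivity)
  have hC0 : 0 ≤ C := hV1'.trans hCV
  obtain ⟨e, he⟩ : ∃ e, e = ⌊C⌋₊ + 1 := ⟨_, rfl⟩
  have he1 : C < e := by rw [he]; push_cast; exact Nat.lt_floor_add_one C
  have he2 : (e : ℚ) ≤ C + 1 := by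
    rw [he]; push_cast
    have := Nat.floor_le hC0
    linarith
  obtain ⟨n, hn⟩ : ∃ n : ℚ, n = Fintype.card (β₁ ⊕ Fin e) := ⟨_, rfl⟩
  have hn' : n = Fintype.card β₁ + e := by rw [hn]; simp
  have hβ0 : (0 : ℚ) ≤ Fintype.card β₁ := by positivity
  have hCn : C < n := by
    rw [hn']
    linarith
  have hB1Q : (Fintype.card β₁ : ℚ) ≤ B₁ := by exact_mod_cast hB1
  obtain ⟨h, hh⟩ : ∃ h, h = A₁ + 1 + p * (B₁ + 1) := ⟨_, rfl⟩
  have hhQ : (h : ℚ) = A₁ + 1 + p * (B₁ + 1) := by rw [hh]; push_cast; ring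
  have hcard0 : (Fintype.card (α₁ ⊕ Fin h) : ℚ) = Fintype.card α₁ + h := by simp
  have hα0 : (0 : ℚ) ≤ Fintype.card α₁ := by positivity
  have hα2 : (0 : ℚ) ≤ Fintype.card α₂ := by positivity
  have hpn : 0 ≤ (p : ℚ) * (n - C) := mul_nonneg hp0 (by linarith)
  have hpn2 : (p : ℚ) * (n - C) ≤ p * (B₁ + 1) := by
    refine mul_le_mul_of_nonneg_left ?_ hp0
    rw [hn']
    linarith
  have hpg : (0 : ℚ) ≤ p * A₁ := mul_nonneg hp0 (by positivity)
  have hE : EE Φ = 2 * Φ + 1 := rfl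
  have hH : HH Φ = 3 * EE Φ + 1 := rfl
  have hΦ := hB.pos
  have hH0 : 0 ≤ HH Φ := by linarith
  obtain ⟨w, hw, hwV⟩ := frac_node (K := K) (ext1_frac hw1 h e Φ) (ext2_frac hw2 g Φ)
    (V₁ := V₁) (V₂ := V₂) (n := n) (C := C) (by rw [ext1_total, hV1]) (by rw [ext2_total, hV2])
    hn hC hCV hCn (by rw [hcard0, hhQ]; linarith) (by rw [hcard0, hhQ]; linarith)
    (by rw [hcard2]; linarith)
    (a := na Φ a₁ a₂) (b := nb Φ b₁ b₂) (c := nc Φ c₁ c₂)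
    (by
      intro u j y z huse
      change mic a₁ Φ u + (mic (b₁ j) Φ y - 2 * HH Φ * (j : ℕ)) +
        (mic (c₁ j) Φ z + 2 * HH Φ * (j : ℕ)) ≤ 0
      linarith)
    (by
      intro v i y z huse
      change (mic a₂ Φ v - HH Φ) + (b₂ i y + HH Φ) + c₂ i z ≤ 0
      linarith)
    (by
      intro u j y k z hjk
      change mic a₁ Φ u + (mic (b₁ j) Φ y - 2 * HH Φ * (j : ℕ)) +
        (mic (c₁ k) Φ z + 2 * HH Φ * (k : ℕ)) ≤ 0
      have h1 := mic_bd hΦ hB.a1 u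
      have h2 := mic_bd hΦ (hB.b1 j) y
      have h3 := mic_bd hΦ (hB.c1 k) z
      have h4 := mulH hH0 (show (k : ℕ) < j by omega)
      linarith [h1.2.1, h2.2.1, h3.2.1])
    (by
      intro u j y z
      change (mic a₂ Φ u - HH Φ) + (mic (b₁ j) Φ y - 2 * HH Φ * (j : ℕ)) +
        (mic (c₁ j) Φ z + 2 * HH Φ * (j : ℕ)) ≤ 0
      have h1 := mic_bd hΦ hB.a2 u
      have h2 := mic_bd hΦ (hB.b1 j) y
      have h3 := mic_bd hΦ (hB.c1 j) z
      linarith [h1.2.1, h2.2.1, h3.2.1])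
  refine ⟨p * (Fintype.card β₁ + e) + s, V₂ + p * n + C, ⟨NA α₁ α₂ g h, NB β₁ β₂ (p + 1) e,
    inferInstance, inferInstance, na Φ a₁ a₂, nb Φ b₁ b₂, nc Φ c₁ c₂, w, ?_, ?_, ?_, hw, hwV⟩, ?_⟩
  · have h1 : Fintype.card (NA α₁ α₂ g h) =
        Fintype.card α₁ + h + (Fintype.card α₂ + g) := by simp
    rw [h1, hh]
    have h2 : (p + 1 + 1) * (A₁ + B₁ + 3) =
        p * A₁ + 2 * A₁ + p * B₁ + 2 * B₁ + 3 * p + 6 := by ring
    have h3 : p * (B₁ + 1) = p * B₁ + p := by ring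
    omega
  · have h1 : Fintype.card (NB β₁ β₂ (p + 1) e) =
        (p + 1) * (Fintype.card β₁ + e) + Fintype.card β₂ := by simp
    rw [h1]
    have h2 : ((p + 1) * e : ℚ) ≤ A₂ + (p + 1) * A₁ + 3 * p + 2 := by
      have h3 : ((p + 1) * e : ℚ) ≤ (p + 1) * (C + 1) :=
        mul_le_mul_of_nonneg_left he2 (by positivity)
      have h4 : ((p + 1) * (C + 1) : ℚ) = Fintype.card α₂ + g - V₂ + V₁ + (p + 1) := by
        rw [mul_add, hC, hcard2]; ring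
      have h5 : (Fintype.card α₂ : ℚ) ≤ A₂ := by exact_mod_cast hA2
      rw [h4] at h3
      linarith
    have h3 : (p + 1) * e ≤ A₂ + (p + 1) * A₁ + 3 * p + 2 := by exact_mod_cast h2
    have h4 : (p + 1) * Fintype.card β₁ ≤ (p + 1) * B₁ := Nat.mul_le_mul_left _ hB1
    have h5 : (p + 1) * (Fintype.card β₁ + e) = (p + 1) * Fintype.card β₁ + (p + 1) * e := by ring
    have h6 : (p + 1 + 1) * (A₁ + B₁ + 3) =
        (p + 1) * A₁ + (p + 1) * B₁ + A₁ + B₁ + 3 * p + 6 := by ring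
    omega
  · intro S hS
    have h3 := int_half hB hT1 hT2 S hS
    have h4 : (p + 1) * S.card ≤ (p + 1) * (p * (Fintype.card β₁ + e) + s) + p := by
      have h5 : p + 1 - 1 = p := rfl
      rw [h5] at h3
      have h6 : (p + 1) * (p * (Fintype.card β₁ + e) + s) =
        (p + 1) * p * (Fintype.card β₁ + e) + (p + 1) * s := by ring
      rw [h6]
      omega
    by_contra hcon
    push_neg at hcon
    have h7 : (p + 1) * (p * (Fintype.card β₁ + e) + s + 1) ≤ (p + 1) * S.card :=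
      Nat.mul_le_mul_left _ hcon
    have h8 : (p + 1) * (p * (Fintype.card β₁ + e) + s + 1) =
      (p + 1) * (p * (Fintype.card β₁ + e) + s) + (p + 1) := by ring
    omega
  · have hC' : C = ((Fintype.card α₂ : ℚ) + g - V₂ + V₁) / (p + 1) := by
      rw [eq_div_iff (by positivity), mul_comm, hC, hcard2]
    have hg' : (g : ℚ) = (p + 1) * s + p - (Fintype.card α₂ + T₁ + p * T₂) := by
      rw [← hPQ]; linarith
    rw [hn', hC', hg']
    push_cast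
    field_simp
    ring

end Vale.Agent.P302.Star
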