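import Vale.Agent.P302.H794.Family

/-!
# Packings and LP solutions in terms of tagged items
-/

namespace Vale.Agent.P302

/-- a packing of the instance `l.map size` in `k` bins is a partition of `l` into `k` multisets -/
theorem tpack_of_packable {ι : Type*} {L : ℕ} (hL : 0 < L) (size : ι → ℕ) (l : List ι) {k : ℕ}
    (h : Packable (inst L (l.map size)) k) :
    ∃ P : Multiset (Multiset ι), P.card = k ∧ P.join = (l : Multiset ι) ∧
      ∀ B ∈ P, (B.map size).sum ≤ L := by
  obtain ⟨f, hf⟩ := h
  have hlen : (inst L (l.map size)).length = l.length := by simp [inst]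
  have hL' : (0 : ℚ) < L := by exact_mod_cast hL
  have hget : ∀ i : Fin (inst L (l.map size)).length,
      (inst L (l.map size)).get i = ((size (l.get (Fin.cast hlen i)) : ℕ) : ℚ) / L := by
    intro i
    have hh : ∀ (m : List ℚ) (hl : m = (l.map size).map (fun x : ℕ => (x : ℚ) / (L : ℚ)))
        (i : Fin m.length) (hll : m.length = l.length),
        m.get i = ((size (l.get (Fin.cast hll i)) : ℕ) : ℚ) / L := by
      intro m hl i hll
      subst hl
      simp
    exact hh _ rfl i hlen
  let g : Fin k → Multiset ι := fun b =>
    ∑ i ∈ Finset.univ.filter (fun i => f i = b), ({l.get (Fin.cast hlen i)} : Multiset ι)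
  refine ⟨Finset.univ.val.map g, by simp, ?_, ?_⟩
  · have h1 : (Multiset.map g Finset.univ.val).join = ∑ b, g b := rfl
    rw [h1]
    have h2 : ∑ b, g b = ∑ i : Fin (inst L (l.map size)).length,
        ({l.get (Fin.cast hlen i)} : Multiset ι) :=
      Finset.sum_fiberwise (Finset.univ) f _
    rw [h2]
    have h3 : ∑ i : Fin (inst L (l.map size)).length, ({l.get (Fin.cast hlen i)} : Multiset ι)
        = ∑ i : Fin l.length, ({l.get i} : Multiset ι) :=
      Fintype.sum_equiv (finCongr hlen) _ _ (fun i => rfl)
    rw [h3]
    have h4 : ∑ i : Fin l.length, ({l.get i} : Multiset ι)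
        = ((Finset.univ.val.map l.get).map (fun a => ({a} : Multiset ι))).sum := by
      rw [Multiset.map_map]
      rfl
    rw [h4, Multiset.sum_map_singleton, Fin.univ_val_map, List.ofFn_get]
  · intro B hB
    obtain ⟨b, _, rfl⟩ := Multiset.mem_map.1 hB
    have hb := hf b
    have h1 : ((g b).map size).sum
        = ∑ i ∈ Finset.univ.filter (fun i => f i = b), size (l.get (Fin.cast hlen i)) := by
      have := map_sum ((Multiset.sumAddMonoidHom (M := ℕ)).comp (Multiset.mapAddMonoidHom size))
        (fun i => ({l.get (Fin.cast hlen i)} : Multiset ι)) (Finset.univ.filter (fun i => f i = b))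
      simp only [AddMonoidHom.coe_comp, Function.comp_apply, Multiset.coe_sumAddMonoidHom,
        Multiset.coe_mapAddMonoidHom, Multiset.map_singleton, Multiset.sum_singleton] at this
      exact this
    rw [h1]
    have e : (∑ i ∈ Finset.univ.filter (fun i => f i = b), (inst L (l.map size)).get i)
        = ((∑ i ∈ Finset.univ.filter (fun i => f i = b), size (l.get (Fin.cast hlen i)) : ℕ) : ℚ)
          / L := by
      rw [Nat.cast_sum, Finset.sum_div]
      exact Finset.sum_congr rfl (fun i _ => hget i)
    rw [e, div_le_one hL'] at hb
    exact_mod_cast hb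

/-- an LP bound from a multiset of patterns covering `q` copies of the instance -/
theorem LP_le_of_pats {ι : Type*} {L : ℕ} (hL : 0 < L) (size : ι → ℕ) (l : List ι) {q : ℕ}
    (hq : 0 < q) (P : Multiset (Multiset ι))
    (h1 : ∀ p ∈ P, (∀ i ∈ p, i ∈ l) ∧ (p.map size).sum ≤ L)
    (h2 : q • (l : Multiset ι) ≤ P.join) :
    LP (inst L (l.map size)) ≤ (P.card : ℝ) / q := by
  have key := LP_le hL (xs := l.map size) hq
    ((P.toList).map (fun p => ((p.map size).toList, 1))) ?_ ?_
  · refine key.trans (le_of_eq ?_)
    congr 2
    rw [List.map_map]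
    have : ((fun d : List ℕ × ℕ => d.2) ∘ fun p : Multiset ι => ((p.map size).toList, 1))
        = fun _ => 1 := rfl
    rw [this, List.map_const', List.sum_replicate, Multiset.length_toList]
    simp
  · intro d hd
    obtain ⟨p, hp, rfl⟩ := List.mem_map.1 hd
    rw [Multiset.mem_toList] at hp
    obtain ⟨h3, h4⟩ := h1 p hp
    constructor
    · intro x hx
      simp only [Multiset.mem_toList, Multiset.mem_map] at hx
      obtain ⟨i, hi, rfl⟩ := hx
      exact List.mem_map_of_mem (h3 i hi)
    · simpa [Multiset.sum_toList] using h4
  · intro x _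
    rw [List.map_map]
    have e1 : ((fun d : List ℕ × ℕ => d.2 * List.count x d.1) ∘
        fun p : Multiset ι => ((p.map size).toList, 1)) = fun p => (p.map size).count x := by
      funext p
      simp only [Function.comp_apply, one_mul]
      rw [← Multiset.coe_count, Multiset.coe_toList]
    rw [e1]
    have e2 : (P.toList.map (fun p => (p.map size).count x)).sum
        = (P.join.map size).count x := by
      rw [← Multiset.sum_coe, ← Multiset.map_coe, Multiset.coe_toList]
      clear h1 h2
      induction P using Multiset.induction with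
      | empty => simp
      | cons p P ih =>
        rw [Multiset.map_cons, Multiset.sum_cons, ih, Multiset.join_cons, Multiset.map_add,
          Multiset.count_add]
    rw [e2]
    have h3 := Multiset.count_le_of_le x (Multiset.map_le_map (f := size) h2)
    rw [Multiset.map_nsmul, Multiset.count_nsmul, Multiset.map_coe, Multiset.coe_count] at h3
    rw [mul_comm]
    exact h3

end Vale.Agent.P302
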